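import Claimed.Agent.R255.Ent.Restr
import Claimed.Agent.R255.Rate.Chains

/-!
# Row 256 (critical local smoothing), unit LT = Lemma act:line-test (06 l.28-306).  File 1: KIT      (architect helper46)

PAPER-FREE finite probability on `R255/Base/Law.lean` (`FLaw`), continuing `R255/Ent/*` (import only, never edit).
`P.NVal G B A N` ("on `G` the label `A` READS `B` up to lists of size `N`") is the only notion of reading.
Pathwise calculus (`surC` = conditional surprise):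
* `ltk_tail_on`   a label read by lists has small surprise, on the event;
* `ltk_lp`        conditioning rarely INCREASES the surprise  (eq. (LP) of the paper);
* `ltk_info_tail` conditioning decreases the surprise by more than `t` with probability `≤ (I+1)/t`;
* `ltk_transfer`  the workhorse: lower score bounds travel along readings;
* `ltk_sep`       separation of two nearly independent variables.
RULE: provers edit only the body of their theorem; statements are frozen (ask helper46).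
-/

set_option autoImplicit false

namespace Claimed.Agent.R256

open scoped BigOperators
open Classical
open Claimed.Agent.R255
open Claimed.Agent.R255.FLaw

variable {Ω : Type} [Fintype Ω] {α β γ δ : Type}

/-- LEAF K1.  For every value `a` of `A` the listed values `b` with `P(b|a) < e^(-t)/N` have total conditional mass `≤ e^(-t)`. -/
theorem ltk_tail_on (P : FLaw Ω) (G : Ω → Prop) (B : Ω → β) (A : Ω → α) {N : ℝ} (hN : 0 < N)
    (h : P.NVal G B A N) (t : ℝ) :
    P.pr (fun ω => G ω ∧ Real.log N + t < P.surC B A ω) ≤ Real.exp (-t) := by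
  -- the classes of `(B, A)` hit by `G`
  let Hit : β × α → Prop := fun x => ∃ ω', P.p ω' ≠ 0 ∧ G ω' ∧ pair B A ω' = x
  let F : β × α → ℝ := fun x => if Hit x then P.pr (fun ω => A ω = x.2) / P.pr (fun ω => pair B A ω = x) else 0
  have hK : P.ev (fun ω => F (pair B A ω)) ≤ N := by
    obtain ⟨T, hT⟩ : ∃ T : Finset (β × α), T = Finset.univ.image (pair B A) := ⟨_, rfl⟩
    have hTmem : ∀ ω, pair B A ω ∈ T := fun ω => hT ▸ Finset.mem_image_of_mem _ (Finset.mem_univ ω)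
    rw [ent_ev_comp P (pair B A) T (fun ω _ => hTmem ω) F]
    have h2 : ∀ x ∈ T, P.pr (fun ω => pair B A ω = x) * F x = if Hit x then P.pr (fun ω => A ω = x.2) else 0 := by
      intro x _
      by_cases hx : Hit x
      · have hpos : 0 < P.pr (fun ω => pair B A ω = x) := by
          obtain ⟨ω', h1, -, h3⟩ := hx
          exact (ent_pr_pos_iff P _).2 ⟨ω', h3, h1⟩
        simp only [F, if_pos hx]
        field_simp
      · simp only [F, if_neg hx, mul_zero]
    rw [Finset.sum_congr rfl h2,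
      ← Finset.sum_fiberwise_of_maps_to (t := T.image Prod.snd) (g := Prod.snd)
        (fun x hx => Finset.mem_image_of_mem _ hx)]
    have h3 : ∀ a ∈ T.image Prod.snd, ∑ x ∈ T with x.2 = a,
        (if Hit x then P.pr (fun ω => A ω = x.2) else 0) ≤ N * P.pr (fun ω => A ω = a) := by
      intro a ha
      obtain ⟨x0, hx0, rfl⟩ := Finset.mem_image.1 ha
      rw [hT] at hx0
      obtain ⟨ω₀, -, rfl⟩ := Finset.mem_image.1 hx0
      obtain ⟨S, hS, hSmem⟩ := h ω₀
      have hpa := ent_pr_nonneg P (fun ω => A ω = (pair B A ω₀).2)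
      rw [← Finset.sum_filter, Finset.filter_filter]
      rw [Finset.sum_congr rfl (g := fun _ => P.pr (fun ω => A ω = (pair B A ω₀).2))
        (fun x hx => by rw [(Finset.mem_filter.1 hx).2.1])]
      rw [Finset.sum_const, nsmul_eq_mul]
      refine mul_le_mul_of_nonneg_right (le_trans ?_ hS) hpa
      have : (T.filter fun x => x.2 = (pair B A ω₀).2 ∧ Hit x).card ≤ S.card := by
        refine Finset.card_le_card_of_injOn Prod.fst ?_ ?_
        · intro x hx
          obtain ⟨-, hx2, ω, hω2, hωG, hω1⟩ := Finset.mem_filter.1 (Finset.mem_coe.1 hx)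
          have hA : A ω = A ω₀ := by
            have := congrArg Prod.snd hω1
            exact this.trans hx2
          have hB : B ω = x.1 := congrArg Prod.fst hω1
          exact Finset.mem_coe.2 (hB ▸ hSmem ω hω2 hωG hA)
        · intro x hx y hy hxy
          have hx2 := (Finset.mem_filter.1 (Finset.mem_coe.1 hx)).2.1
          have hy2 := (Finset.mem_filter.1 (Finset.mem_coe.1 hy)).2.1
          exact Prod.ext hxy (hx2.trans hy2.symm)
      exact_mod_cast this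
    refine (Finset.sum_le_sum h3).trans ?_
    rw [← Finset.mul_sum]
    calc N * ∑ a ∈ T.image Prod.snd, P.pr (fun ω => A ω = a) ≤ N * 1 :=
          mul_le_mul_of_nonneg_left (ent_aux_sum_pr_le P A _) hN.le
      _ = N := mul_one N
  have hF0 : ∀ x, 0 ≤ F x := by
    intro x
    simp only [F]
    split_ifs
    · exact div_nonneg (ent_pr_nonneg P _) (ent_pr_nonneg P _)
    · exact le_rfl
  have hm := ent_markov P (f := fun ω => F (pair B A ω)) (fun ω _ => hF0 _)
    (t := N * Real.exp t) (mul_pos hN (Real.exp_pos t))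
  refine le_trans (ent_pr_mono P fun ω hω hs => ?_) (hm.trans ?_)
  · obtain ⟨hG, hs⟩ := hs
    have hhit : Hit (pair B A ω) := ⟨ω, hω, hG, rfl⟩
    have hFe : F (pair B A ω) = P.fib A ω / P.fib (pair B A) ω := by
      simp only [F, if_pos hhit]
      rfl
    have hr : 0 < P.fib A ω / P.fib (pair B A) ω := div_pos (ent_fib_pos P _ hω) (ent_fib_pos P _ hω)
    rw [ent_surC_eq_sub P B A hω, ← Real.log_div (ent_fib_pos P _ hω).ne' (ent_fib_pos P _ hω).ne'] at hs
    have h2 : Real.log (N * Real.exp t) < Real.log (P.fib A ω / P.fib (pair B A) ω) := by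
      rw [Real.log_mul hN.ne' (Real.exp_pos t).ne', Real.log_exp]
      exact hs
    show N * Real.exp t ≤ F (pair B A ω)
    rw [hFe]
    exact ((Real.log_lt_log_iff (mul_pos hN (Real.exp_pos t)) hr).1 h2).le
  · rw [div_le_iff₀ (mul_pos hN (Real.exp_pos t)), Real.exp_neg]
    have : (Real.exp t)⁻¹ * (N * Real.exp t) = N := by
      field_simp
    rw [this]
    exact hK

/-- LEAF K2 = (LP).  `∑ P(z,y) P(x|z,y) 1[P(x|z,y) < e^(-t) P(x|y)] ≤ e^(-t)`. -/
theorem ltk_lp (P : FLaw Ω) (X : Ω → α) (Y : Ω → β) (Z : Ω → γ) (t : ℝ) :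
    P.pr (fun ω => P.surC X Y ω + t < P.surC X (pair Z Y) ω) ≤ Real.exp (-t) := by
  have hK := ent_aux_ci_mass P X Z Y
  have hm := ent_markov P (f := fun ω => P.fib (pair X Y) ω * P.fib (pair Z Y) ω
      / (P.fib (pair (pair X Z) Y) ω * P.fib Y ω))
    (fun ω _ => div_nonneg (mul_nonneg (ent_fib_nonneg P _ _) (ent_fib_nonneg P _ _))
      (mul_nonneg (ent_fib_nonneg P _ _) (ent_fib_nonneg P _ _)))
    (t := Real.exp t) (Real.exp_pos t)
  refine le_trans (ent_pr_mono P fun ω hω hs => ?_) (hm.trans ?_)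
  · have h1 := ent_fib_pos P (pair X Y) hω
    have h2 := ent_fib_pos P (pair Z Y) hω
    have h3 := ent_fib_pos P (pair (pair X Z) Y) hω
    have h4 := ent_fib_pos P Y hω
    have e : P.fib (pair X (pair Z Y)) ω = P.fib (pair (pair X Z) Y) ω := by
      refine ent_pr_congr P fun ω' _ => ?_
      simp only [FLaw.pair, Prod.mk.injEq]
      tauto
    rw [ent_surC_eq_sub P X Y hω, ent_surC_eq_sub P X (pair Z Y) hω, e] at hs
    have hr : 0 < P.fib (pair X Y) ω * P.fib (pair Z Y) ω / (P.fib (pair (pair X Z) Y) ω * P.fib Y ω) :=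
      div_pos (mul_pos h1 h2) (mul_pos h3 h4)
    have hl : t < Real.log (P.fib (pair X Y) ω * P.fib (pair Z Y) ω / (P.fib (pair (pair X Z) Y) ω * P.fib Y ω)) := by
      rw [Real.log_div (mul_pos h1 h2).ne' (mul_pos h3 h4).ne', Real.log_mul h1.ne' h2.ne', Real.log_mul h3.ne' h4.ne']
      linarith
    exact ((Real.lt_log_iff_exp_lt hr).1 hl).le
  · rw [Real.exp_neg, ← one_div]
    exact div_le_div_of_nonneg_right hK (Real.exp_pos t).le

/-- LEAF K3.  `i = surC X Y - surC X (Z,Y)` has mean `I(X;Z|Y)` (`ent_miC_eq`, `ent_entC_eq_ev`), `i_- ≤ e^(-i)`, `E e^(-i) ≤ 1`; Markov for `i_+`. -/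
theorem ltk_info_tail (P : FLaw Ω) (X : Ω → α) (Y : Ω → β) (Z : Ω → γ) {t : ℝ} (ht : 0 < t) :
    P.pr (fun ω => P.surC X (pair Z Y) ω + t < P.surC X Y ω) ≤ (P.miC X Z Y + 1) / t := by
  obtain ⟨r, hr⟩ : ∃ r : Ω → ℝ, r = fun ω => P.fib (pair X Y) ω * P.fib (pair Z Y) ω
      / (P.fib (pair (pair X Z) Y) ω * P.fib Y ω) := ⟨_, rfl⟩
  have hpos : ∀ ω, P.p ω ≠ 0 → 0 < r ω := fun ω hω => by
    rw [hr]
    exact div_pos (mul_pos (ent_fib_pos P _ hω) (ent_fib_pos P _ hω))
      (mul_pos (ent_fib_pos P _ hω) (ent_fib_pos P _ hω))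
  have hE : P.ev r ≤ 1 := by
    rw [hr]
    exact ent_aux_ci_mass P X Z Y
  have hlog : ∀ ω, P.p ω ≠ 0 → - Real.log (r ω) = Real.log (P.fib (pair (pair X Z) Y) ω) + Real.log (P.fib Y ω)
      - Real.log (P.fib (pair X Y) ω) - Real.log (P.fib (pair Z Y) ω) := by
    intro ω hω
    have a1 := ent_fib_pos P (pair X Y) hω
    have a2 := ent_fib_pos P (pair Z Y) hω
    have a3 := ent_fib_pos P (pair (pair X Z) Y) hω
    have a4 := ent_fib_pos P Y hω
    rw [hr]
    simp only []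
    rw [Real.log_div (mul_pos a1 a2).ne' (mul_pos a3 a4).ne', Real.log_mul a1.ne' a2.ne', Real.log_mul a3.ne' a4.ne']
    ring
  have hmi : P.miC X Z Y = P.ev (fun ω => - Real.log (r ω)) := by
    rw [ent_miC_eq_ev]
    refine ent_ev_congr P fun ω hω => ?_
    have a1 := ent_fib_pos P (pair X Y) hω
    have a2 := ent_fib_pos P (pair Z Y) hω
    have a3 := ent_fib_pos P (pair (pair X Z) Y) hω
    have a4 := ent_fib_pos P Y hω
    rw [hlog ω hω, Real.log_div (mul_pos a3 a4).ne' (mul_pos a1 a2).ne', Real.log_mul a1.ne' a2.ne',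
      Real.log_mul a3.ne' a4.ne']
    ring
  have hdiff : ∀ ω, P.p ω ≠ 0 → P.surC X Y ω - P.surC X (pair Z Y) ω = - Real.log (r ω) := by
    intro ω hω
    rw [ent_surC_eq_sub P _ _ hω, ent_surC_eq_sub P _ _ hω, hlog ω hω]
    have e : P.fib (pair X (pair Z Y)) ω = P.fib (pair (pair X Z) Y) ω := by
      refine ent_pr_congr P fun ω' _ => ?_
      simp only [FLaw.pair, Prod.mk.injEq]
      tauto
    rw [e]
    ring
  have hm := ent_markov P (f := fun ω => max 0 (- Real.log (r ω))) (fun ω _ => le_max_left _ _) ht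
  refine le_trans (ent_pr_mono P fun ω hω h => ?_) (hm.trans ?_)
  · have := hdiff ω hω
    exact le_trans (by linarith) (le_max_right _ _)
  · refine div_le_div_of_nonneg_right ?_ ht.le
    have h1 : P.ev (fun ω => max 0 (- Real.log (r ω))) ≤ P.ev (fun ω => - Real.log (r ω) + r ω) := by
      refine ent_ev_mono P fun ω hω => ?_
      have h2 := Real.log_le_sub_one_of_pos (hpos ω hω)
      have h3 := hpos ω hω
      exact max_le (by linarith) (by linarith)
    rw [ent_ev_add, ← hmi] at h1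
    linarith

/-- LEAF K4.  `entC = E surC`, `surC ≥ 0`. -/
theorem ltk_ent_ge (P : FLaw Ω) (X : Ω → α) (Y : Ω → β) {c τ : ℝ} (hc : 0 ≤ c)
    (h : P.pr (fun ω => P.surC X Y ω < c) ≤ τ) : c * (1 - τ) ≤ P.entC X Y := by
  rw [ent_entC_eq_ev]
  have h1 := ent_ev_ge_of_bad P (f := P.surC X Y) (fun ω => P.surC X Y ω < c) (c := c) (M := 0)
    (fun ω _ hb => not_lt.1 hb) (fun ω hω _ => ent_surC_nonneg P X Y hω)
  have h2 : c * (1 - τ) ≤ c * (1 - P.pr (fun ω => P.surC X Y ω < c)) :=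
    mul_le_mul_of_nonneg_left (by linarith) hc
  linarith

/-- LEAF K5.  Metric reading: if `A` fixes the real `v` within `R` on `G`, it reads the dyadic cell of level `n` up to `R 2^n + 2` values. -/
theorem ltk_nval_close (P : FLaw Ω) (G : Ω → Prop) (A : Ω → α) (v : Ω → ℝ) (n : ℕ) {R : ℝ} (hR : 0 ≤ R)
    (h : ∀ ω ω', P.p ω ≠ 0 → P.p ω' ≠ 0 → G ω → G ω' → A ω = A ω' → |v ω - v ω'| ≤ R) :
    P.NVal G (fun ω => ⌊v ω * 2 ^ n⌋) A (R * 2 ^ n + 2) := by
  intro ω₀
  have hpow : (0 : ℝ) < 2 ^ n := by positivity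
  by_cases hex : ∃ ω, P.p ω ≠ 0 ∧ G ω ∧ A ω = A ω₀
  · -- the admissible point with the least value of `v`
    obtain ⟨ω₁, hω₁, hmin⟩ := Finset.exists_min_image
      (Finset.univ.filter fun ω => P.p ω ≠ 0 ∧ G ω ∧ A ω = A ω₀) v
      (by obtain ⟨ω, hω⟩ := hex; exact ⟨ω, Finset.mem_filter.2 ⟨Finset.mem_univ _, hω⟩⟩)
    obtain ⟨-, hp₁, hG₁, hA₁⟩ := Finset.mem_filter.1 hω₁
    refine ⟨Finset.Icc ⌊v ω₁ * 2 ^ n⌋ ⌊(v ω₁ + R) * 2 ^ n⌋, ?_, ?_⟩
    · rw [Int.card_Icc]
      have hle : ⌊v ω₁ * 2 ^ n⌋ ≤ ⌊(v ω₁ + R) * 2 ^ n⌋ :=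
        Int.floor_le_floor (mul_le_mul_of_nonneg_right (by linarith) hpow.le)
      have h0 : 0 ≤ ⌊(v ω₁ + R) * 2 ^ n⌋ + 1 - ⌊v ω₁ * 2 ^ n⌋ := by omega
      have e : (((⌊(v ω₁ + R) * 2 ^ n⌋ + 1 - ⌊v ω₁ * 2 ^ n⌋).toNat : ℕ) : ℝ)
          = ((⌊(v ω₁ + R) * 2 ^ n⌋ + 1 - ⌊v ω₁ * 2 ^ n⌋ : ℤ) : ℝ) := by
        exact_mod_cast congrArg (fun z : ℤ => (z : ℝ)) (Int.toNat_of_nonneg h0)
      rw [e]
      push_cast
      have h1 := Int.floor_le ((v ω₁ + R) * 2 ^ n)
      have h2 := Int.lt_floor_add_one (v ω₁ * 2 ^ n)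
      nlinarith
    · intro ω hp hG hA
      have hm : v ω₁ ≤ v ω := hmin ω (Finset.mem_filter.2 ⟨Finset.mem_univ _, hp, hG, hA⟩)
      have hd := h ω ω₁ hp hp₁ hG hG₁ (hA.trans hA₁.symm)
      have hu : v ω ≤ v ω₁ + R := by
        have := (abs_le.1 hd).2
        linarith
      rw [Finset.mem_Icc]
      exact ⟨Int.floor_le_floor (mul_le_mul_of_nonneg_right hm hpow.le),
        Int.floor_le_floor (mul_le_mul_of_nonneg_right hu hpow.le)⟩
  · refine ⟨∅, ?_, ?_⟩
    · rw [Finset.card_empty, Nat.cast_zero]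
      positivity
    · intro ω hp hG hA
      exact absurd ⟨ω, hp, hG, hA⟩ hex

/-- LEAF K6.  Readings compose: `A` reads `B`, `(B,A)` reads `C'`. -/
theorem ltk_nval_comp (P : FLaw Ω) (G : Ω → Prop) (A : Ω → α) (B : Ω → β) (C' : Ω → γ) {N M : ℝ}
    (hM : 0 ≤ M) (h1 : P.NVal G B A N) (h2 : P.NVal G C' (pair B A) M) :
    P.NVal G (pair C' B) A (N * M) := by
  intro ω₀
  obtain ⟨S₁, hS₁, hmem₁⟩ := h1 ω₀
  let S₂ : β → Finset γ := fun b =>
    if hb : ∃ ω', B ω' = b ∧ A ω' = A ω₀ then (h2 hb.choose).choose else ∅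
  have hS₂card : ∀ b, ((S₂ b).card : ℝ) ≤ M := by
    intro b
    by_cases hb : ∃ ω', B ω' = b ∧ A ω' = A ω₀
    · simp only [S₂, dif_pos hb]
      exact (h2 hb.choose).choose_spec.1
    · simp only [S₂, dif_neg hb, Finset.card_empty, Nat.cast_zero]
      exact hM
  refine ⟨S₁.biUnion fun b => (S₂ b).image fun c => (c, b), ?_, ?_⟩
  · have h3 : ((S₁.biUnion fun b => (S₂ b).image fun c => (c, b)).card : ℝ) ≤ ∑ b ∈ S₁, ((S₂ b).card : ℝ) := by
      have h4 : (S₁.biUnion fun b => (S₂ b).image fun c => (c, b)).card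
          ≤ ∑ b ∈ S₁, ((S₂ b).image fun c => (c, b)).card := Finset.card_biUnion_le
      have h5 : ∑ b ∈ S₁, ((S₂ b).image fun c => (c, b)).card ≤ ∑ b ∈ S₁, (S₂ b).card :=
        Finset.sum_le_sum fun b _ => Finset.card_image_le
      exact_mod_cast h4.trans h5
    have h6 : ∑ b ∈ S₁, ((S₂ b).card : ℝ) ≤ (S₁.card : ℝ) * M := by
      have := Finset.sum_le_card_nsmul S₁ (fun b => ((S₂ b).card : ℝ)) M fun b _ => hS₂card b
      rwa [nsmul_eq_mul] at this
    exact h3.trans (h6.trans (mul_le_mul_of_nonneg_right hS₁ hM))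
  · intro ω hp hG hA
    have hb : ∃ ω', B ω' = B ω ∧ A ω' = A ω₀ := ⟨ω, rfl, hA⟩
    rw [Finset.mem_biUnion]
    refine ⟨B ω, hmem₁ ω hp hG hA, ?_⟩
    rw [Finset.mem_image]
    refine ⟨C' ω, ?_, rfl⟩
    simp only [S₂, dif_pos hb]
    refine (h2 hb.choose).choose_spec.2 ω hp hG ?_
    show (B ω, A ω) = (B hb.choose, A hb.choose)
    rw [hb.choose_spec.1, hb.choose_spec.2, hA]

/-- LEAF K7.  Monotonicity of readings in the event, the reader, the read label and the size. -/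
theorem ltk_nval_mono (P : FLaw Ω) {G G' : Ω → Prop} {A : Ω → α} {A' : Ω → γ} {B : Ω → β} {B' : Ω → δ} {N N' : ℝ}
    (h : P.NVal G B A N) (hG : ∀ ω, G' ω → G ω) (hA : ∀ ω ω', A' ω = A' ω' → A ω = A ω')
    (hB : ∃ f : β → δ, ∀ ω, B' ω = f (B ω)) (hN : N ≤ N') : P.NVal G' B' A' N' := by
  intro ω₀
  obtain ⟨f, hf⟩ := hB
  obtain ⟨S, hS, hmem⟩ := h ω₀
  refine ⟨S.image f, ?_, ?_⟩
  · have h1 : ((S.image f).card : ℝ) ≤ (S.card : ℝ) := by exact_mod_cast Finset.card_image_le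
    exact h1.trans (hS.trans hN)
  · intro ω hp hG' hA'
    rw [hf ω]
    exact Finset.mem_image_of_mem f (hmem ω hp (hG ω hG') (hA ω ω₀ hA'))

/-- LEAF K8 (workhorse).  `Y'` reads `Y`, `(T,Y')` reads `U`:  `sur(T|Y) ≥ sur(U|Y') - log N₁ - log N₂ - 3t` off a small event.
`sur(T|Y) ≥ sur(T|Y',Y) - t` (`ltk_lp`);  `sur(T|Y',Y) = sur(T,Y|Y') - sur(Y|Y') ≥ sur(T|Y') - log N₁ - t` (`ent_surC_chain`, `ltk_tail_on`);
`sur(T|Y') ≥ sur(U,T|Y') - sur(U|T,Y') ≥ sur(U|Y') - log N₂ - t`. -/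
theorem ltk_transfer (P : FLaw Ω) (G : Ω → Prop) (T : Ω → α) (U : Ω → β) (Y : Ω → γ) (Y' : Ω → δ) {N₁ N₂ : ℝ}
    (h1 : 0 < N₁) (h2 : 0 < N₂) (hY : P.NVal G Y Y' N₁) (hU : P.NVal G U (pair T Y') N₂) (t : ℝ) :
    P.pr (fun ω => G ω ∧ P.surC T Y ω < P.surC U Y' ω - Real.log N₁ - Real.log N₂ - 3 * t) ≤ 3 * Real.exp (-t) := by
  have b1 := ltk_lp P T Y Y' t
  have b2 := ltk_tail_on P G Y Y' h1 hY t
  have b3 := ltk_tail_on P G U (pair T Y') h2 hU t
  have hsub : P.pr (fun ω => G ω ∧ P.surC T Y ω < P.surC U Y' ω - Real.log N₁ - Real.log N₂ - 3 * t) ≤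
      P.pr (fun ω => (P.surC T Y ω + t < P.surC T (pair Y' Y) ω ∨ (G ω ∧ Real.log N₁ + t < P.surC Y Y' ω)) ∨
        (G ω ∧ Real.log N₂ + t < P.surC U (pair T Y') ω)) := by
    refine ent_pr_mono P fun ω hp hω => ?_
    obtain ⟨hG, hlt⟩ := hω
    by_contra hno
    push Not at hno
    obtain ⟨⟨n1, n2⟩, n3⟩ := hno
    have n2' := n2 hG
    have n3' := n3 hG
    have e1 : P.surC T (pair Y' Y) ω = P.surC T (pair Y Y') ω := by
      refine ent_surC_congr P T T (pair Y' Y) (pair Y Y') ω (fun ω' _ => ?_) fun _ _ _ => Iff.rfl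
      simp only [FLaw.pair, Prod.mk.injEq]
      tauto
    have s1 := ent_surC_swap P T Y Y' hp
    have s2 := ent_surC_swap P T U Y' hp
    have p1 := ent_surC_nonneg P Y (pair T Y') hp
    have p2 := ent_surC_nonneg P T (pair U Y') hp
    linarith
  have u1 := ent_pr_or_le P
    (fun ω => P.surC T Y ω + t < P.surC T (pair Y' Y) ω ∨ (G ω ∧ Real.log N₁ + t < P.surC Y Y' ω))
    (fun ω => G ω ∧ Real.log N₂ + t < P.surC U (pair T Y') ω)
  have u2 := ent_pr_or_le P (fun ω => P.surC T Y ω + t < P.surC T (pair Y' Y) ω)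
    (fun ω => G ω ∧ Real.log N₁ + t < P.surC Y Y' ω)
  linarith

/-- LEAF K9 (separation).  On `E` the label `(V,Y)` reads `U` up to `n` values, `I(U;V|Y) ≤ I`, `sur(U|Y) ≥ s` off `τ`, `log n + t + t' < s`:
`E` is small.  (`ltk_tail_on`, `ltk_info_tail`.) -/
theorem ltk_sep (P : FLaw Ω) (E : Ω → Prop) (U : Ω → α) (V : Ω → β) (Y : Ω → γ) {n I s τ t t' : ℝ} (hn : 0 < n)
    (ht' : 0 < t') (hE : P.NVal E U (pair V Y) n) (hI : P.miC U V Y ≤ I) (hs : P.pr (fun ω => P.surC U Y ω < s) ≤ τ)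
    (hst : Real.log n + t + t' < s) : P.pr E ≤ Real.exp (-t) + (I + 1) / t' + τ := by
  have b1 := ltk_tail_on P E U (pair V Y) hn hE t
  have b2 := ltk_info_tail P U Y V ht'
  have b2' : (P.miC U V Y + 1) / t' ≤ (I + 1) / t' := div_le_div_of_nonneg_right (by linarith) ht'.le
  have hsub : P.pr E ≤
      P.pr (fun ω => ((E ω ∧ Real.log n + t < P.surC U (pair V Y) ω) ∨ P.surC U (pair V Y) ω + t' < P.surC U Y ω) ∨
        P.surC U Y ω < s) := by
    refine ent_pr_mono P fun ω _ hω => ?_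
    by_contra hno
    push Not at hno
    obtain ⟨⟨n1, n2⟩, n3⟩ := hno
    have n1' := n1 hω
    linarith
  have u1 := ent_pr_or_le P
    (fun ω => (E ω ∧ Real.log n + t < P.surC U (pair V Y) ω) ∨ P.surC U (pair V Y) ω + t' < P.surC U Y ω)
    (fun ω => P.surC U Y ω < s)
  have u2 := ent_pr_or_le P (fun ω => E ω ∧ Real.log n + t < P.surC U (pair V Y) ω)
    (fun ω => P.surC U (pair V Y) ω + t' < P.surC U Y ω)
  linarith

/-- LEAF K10.  Markov over finitely many layers: nonnegative costs of total `≤ S`; at most `S/c` layers cost more than `c`. -/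
theorem ltk_layer_markov {ι : Type} (s : Finset ι) (f : ι → ℝ) (hf : ∀ i ∈ s, 0 ≤ f i) {S c : ℝ} (hc : 0 < c)
    (hS : ∑ i ∈ s, f i ≤ S) : (((s.filter fun i => c < f i).card : ℕ) : ℝ) ≤ S / c := by
  rw [le_div_iff₀ hc]
  calc (((s.filter fun i => c < f i).card : ℕ) : ℝ) * c = ∑ _i ∈ s.filter (fun i => c < f i), c := by
        rw [Finset.sum_const, nsmul_eq_mul]
    _ ≤ ∑ i ∈ s.filter (fun i => c < f i), f i :=
        Finset.sum_le_sum fun i hi => (Finset.mem_filter.1 hi).2.le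
    _ ≤ ∑ i ∈ s, f i := Finset.sum_le_sum_of_subset_of_nonneg (Finset.filter_subset _ _) fun i hi _ => hf i hi
    _ ≤ S := hS

end Claimed.Agent.R256
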