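import Claimed.Agent.R256.LT.Defs

/-!
# Row 256, unit LT = Lemma act:line-test (06 l.28-306).  File GEO: the geometry half      (helper282, for architect helper46)

PAPER-FREE polynomial identities and TWO-POINT INEQUALITIES on `Ph` / `Frz` (vocabulary of `Defs.lean`); made for `ltk_nval_close`.
`K ≥ 1` bounds all coordinates, marks and coefficients; `e` = accuracy of the fibre label; all constants explicit.
* (LEG) `ltg_leg`        : same fibre up to `e` ⟹ `F' - F` = the leg of `a = X' - X`, up to `7 K³ e`;   `ltg_leg_near` : `F.Near F' (4 K³ |a| + 7 K³ e)`.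
* (LIP) `ltg_lip`        : the ten forms are `10 K³`-Lipschitz (sup distance `Near`).
* (ANN) `ltg_ann`        : `|Δf| ≤ 70 K⁶ (a² + |a| μ + e)` for `f = fL, fJ', fK', fx, fy`,  `μ = |X-c.X| + |P-c.P| + |r - c.β - c.κ θ|`.
* (W)   `ltg_w`, `ltg_w_inv` : `Δfw = (c.θ - θ) a + O(7 K³ e)`, hence `|c.θ - θ| |a| ≤ |Δfw| + 7 K³ e`.
* (MOT) hypotheses bundled in the structure `LtgMot` (two targets on the fibres through the SAME `FR`, marks `(θR,rR)`, `(θR',rR')` on the line `(βR,κR)`, `h = θR' - θR`);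
        `ltg_mot_near` : `F.Near F' (22 K⁴ (|h| + e6 + e))`;   `ltg_mot_main` : with `E = |h| (μ + |h|) + e6 + e`, `A = F.X - FR.X` :
        `|Δfx|, |Δfy| ≤ 300 K⁶ E`,  `|κR-κF| A² |h| ≤ |ΔfJ'| + 300 K⁶ E`,  `2 |A| |κR-κF| |h| ≤ |ΔfL| + 300 K⁶ E`.
* (XT)  `ltg_xt` (pointwise identity), `ltg_xt_frame`, `ltg_xt_two`.
All statements are PROVED (no `sorry`).
-/

set_option autoImplicit false

namespace Claimed.Agent.R256

/-! ## 0. absolute values -/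

theorem ltg_m2 {a b A B : ℝ} (ha : |a| ≤ A) (hb : |b| ≤ B) : |a * b| ≤ A * B := by
  rw [abs_mul]
  exact mul_le_mul ha hb (abs_nonneg _) ((abs_nonneg _).trans ha)

theorem ltg_a2 {a b A B : ℝ} (ha : |a| ≤ A) (hb : |b| ≤ B) : |a + b| ≤ A + B :=
  (abs_add_le a b).trans (add_le_add ha hb)

theorem ltg_s2 {a b A B : ℝ} (ha : |a| ≤ A) (hb : |b| ≤ B) : |a - b| ≤ A + B :=
  (abs_sub a b).trans (add_le_add ha hb)

theorem ltg_n1 {a A : ℝ} (ha : |a| ≤ A) : |-a| ≤ A := by rwa [abs_neg]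

theorem ltg_c2 {a A : ℝ} (ha : |a| ≤ A) : |2 * a| ≤ 2 * A := by
  rw [abs_mul, abs_two]
  exact mul_le_mul_of_nonneg_left ha (by norm_num)

theorem ltg_sq {a A : ℝ} (ha : |a| ≤ A) : |a ^ 2| ≤ A ^ 2 := by
  rw [pow_two, pow_two]
  exact ltg_m2 ha ha

/-- powers of `K ≥ 1` are monotone, with a nonnegative factor -/
theorem ltg_kz {K : ℝ} (hK : 1 ≤ K) {m n : ℕ} (h : m ≤ n) {Z : ℝ} (hZ : 0 ≤ Z) : K ^ m * Z ≤ K ^ n * Z :=
  mul_le_mul_of_nonneg_right (pow_le_pow_right₀ hK h) hZ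

/-- difference of two phases -/
def ltgSub (F' F : Ph) : Ph := ⟨F'.X - F.X, F'.B - F.B, F'.P - F.P, F'.Y - F.Y, F'.N - F.N, F'.D - F.D⟩

theorem ltg_sub_eqns_cite : True := by
  have := @ltgSub.eq_1
  trivial

/-! ## 1. (LEG) -/

/-- **(LEG)** the same fibre up to `e` : the increment is the leg of `a = X' - X`, up to `7 K³ e` -/
theorem ltg_leg {F F' : Ph} {θ r θ' r' K e : ℝ} (hK : 1 ≤ K) (he : 0 ≤ e) (hF' : F'.Bd K) (hθ : |θ| ≤ K)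
    (h : F.SameFib θ r F' θ' r' e) :
    |F'.B - F.B + θ * (F'.X - F.X)| ≤ 7 * K ^ 3 * e ∧
    |F'.P - F.P - 2 * r * (F'.X - F.X)| ≤ 7 * K ^ 3 * e ∧
    |F'.Y - F.Y + θ * (2 * F.X * (F'.X - F.X) + (F'.X - F.X) ^ 2)| ≤ 7 * K ^ 3 * e ∧
    |F'.N - F.N - (F.P * (F'.X - F.X) + r * (F'.X - F.X) ^ 2)| ≤ 7 * K ^ 3 * e ∧
    |F'.D - F.D + θ * (F.P * (F'.X - F.X) + r * (F'.X - F.X) ^ 2)| ≤ 7 * K ^ 3 * e := by
  obtain ⟨hdθ, hdr, h1, h2, h3, h4, h5⟩ := h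
  simp only [Ph.q1, Ph.q2, Ph.q3, Ph.q4, Ph.q5] at h1 h2 h3 h4 h5
  have hX' : |F'.X| ≤ K := hF'.1
  have hN' : |F'.N| ≤ K := hF'.2.2.2.2.1
  have t0 : e * 1 ≤ e * K ^ 3 := mul_le_mul_of_nonneg_left (one_le_pow₀ hK) he
  have t1 : e * K ≤ e * K ^ 3 :=
    mul_le_mul_of_nonneg_left (by simpa using pow_le_pow_right₀ hK (show 1 ≤ 3 by norm_num)) he
  have t2 : e * K ^ 2 ≤ e * K ^ 3 := mul_le_mul_of_nonneg_left (pow_le_pow_right₀ hK (by norm_num)) he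
  have hX2 : |F'.X ^ 2| ≤ K ^ 2 := ltg_sq hX'
  have bB : |(θ - θ') * F'.X - (F.B + θ * F.X - (F'.B + θ' * F'.X))| ≤ e * K + e := ltg_s2 (ltg_m2 hdθ hX') h1
  have bY : |(θ - θ') * F'.X ^ 2 - (F.Y + θ * F.X ^ 2 - (F'.Y + θ' * F'.X ^ 2))| ≤ e * K ^ 2 + e :=
    ltg_s2 (ltg_m2 hdθ hX2) h2
  have bP : |-(2 * ((r - r') * F'.X)) - (F.P - 2 * r * F.X - (F'.P - 2 * r' * F'.X))| ≤ 2 * (e * K) + e :=
    ltg_s2 (ltg_n1 (ltg_c2 (ltg_m2 hdr hX'))) h4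
  have bN : |(-(2 * ((r - r') * F'.X)) - (F.P - 2 * r * F.X - (F'.P - 2 * r' * F'.X))) * F'.X + (r - r') * F'.X ^ 2
      - (F.N - F.P * F.X + r * F.X ^ 2 - (F'.N - F'.P * F'.X + r' * F'.X ^ 2))|
      ≤ (2 * (e * K) + e) * K + e * K ^ 2 + e := ltg_s2 (ltg_a2 (ltg_m2 bP hX') (ltg_m2 hdr hX2)) h5
  have bD : |(θ - θ') * F'.N - (F.D + θ * F.N - (F'.D + θ' * F'.N))
      - θ * ((-(2 * ((r - r') * F'.X)) - (F.P - 2 * r * F.X - (F'.P - 2 * r' * F'.X))) * F'.X + (r - r') * F'.X ^ 2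
      - (F.N - F.P * F.X + r * F.X ^ 2 - (F'.N - F'.P * F'.X + r' * F'.X ^ 2)))|
      ≤ e * K + e + K * ((2 * (e * K) + e) * K + e * K ^ 2 + e) := ltg_s2 (ltg_s2 (ltg_m2 hdθ hN') h3) (ltg_m2 hθ bN)
  refine ⟨?_, ?_, ?_, ?_, ?_⟩
  · have : F'.B - F.B + θ * (F'.X - F.X) = (θ - θ') * F'.X - (F.B + θ * F.X - (F'.B + θ' * F'.X)) := by ring
    rw [this]
    exact bB.trans (by linarith)
  · have : F'.P - F.P - 2 * r * (F'.X - F.X)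
        = -(2 * ((r - r') * F'.X)) - (F.P - 2 * r * F.X - (F'.P - 2 * r' * F'.X)) := by ring
    rw [this]
    exact bP.trans (by linarith)
  · have : F'.Y - F.Y + θ * (2 * F.X * (F'.X - F.X) + (F'.X - F.X) ^ 2)
        = (θ - θ') * F'.X ^ 2 - (F.Y + θ * F.X ^ 2 - (F'.Y + θ' * F'.X ^ 2)) := by ring
    rw [this]
    exact bY.trans (by linarith)
  · have : F'.N - F.N - (F.P * (F'.X - F.X) + r * (F'.X - F.X) ^ 2)
        = (-(2 * ((r - r') * F'.X)) - (F.P - 2 * r * F.X - (F'.P - 2 * r' * F'.X))) * F'.X + (r - r') * F'.X ^ 2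
      - (F.N - F.P * F.X + r * F.X ^ 2 - (F'.N - F'.P * F'.X + r' * F'.X ^ 2)) := by ring
    rw [this]
    exact bN.trans (by linarith)
  · have : F'.D - F.D + θ * (F.P * (F'.X - F.X) + r * (F'.X - F.X) ^ 2)
        = (θ - θ') * F'.N - (F.D + θ * F.N - (F'.D + θ' * F'.N))
      - θ * ((-(2 * ((r - r') * F'.X)) - (F.P - 2 * r * F.X - (F'.P - 2 * r' * F'.X))) * F'.X + (r - r') * F'.X ^ 2
      - (F.N - F.P * F.X + r * F.X ^ 2 - (F'.N - F'.P * F'.X + r' * F'.X ^ 2))) := by ring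
    rw [this]
    exact bD.trans (by linarith)

/-- parent prediction along a fibre -/
theorem ltg_leg_near {F F' : Ph} {θ r θ' r' K e : ℝ} (hK : 1 ≤ K) (he : 0 ≤ e) (hF : F.Bd K) (hF' : F'.Bd K)
    (hθ : |θ| ≤ K) (hr : |r| ≤ K) (h : F.SameFib θ r F' θ' r' e) :
    F.Near F' (4 * K ^ 3 * |F'.X - F.X| + 7 * K ^ 3 * e) := by
  obtain ⟨lB, lP, lY, lN, lD⟩ := ltg_leg hK he hF' hθ h
  obtain ⟨a, ha⟩ : ∃ a, a = F'.X - F.X := ⟨_, rfl⟩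
  rw [← ha] at lB lP lY lN lD ⊢
  have hX : |F.X| ≤ K := hF.1
  have hP : |F.P| ≤ K := hF.2.2.1
  have ha0 : |a| ≤ |a| := le_rfl
  have ha2K : |a| ≤ 2 * K := by
    rw [ha]
    have := ltg_s2 hF'.1 hX
    linarith
  have han : 0 ≤ |a| := abs_nonneg a
  have haa : |a ^ 2| ≤ 2 * K * |a| := by
    rw [pow_two]
    exact ltg_m2 ha2K ha0
  have z1 := ltg_kz hK (show 0 ≤ 3 by norm_num) han
  have z2 := ltg_kz hK (show 1 ≤ 3 by norm_num) han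
  have z3 := ltg_kz hK (show 2 ≤ 3 by norm_num) han
  have hE : 0 ≤ 7 * K ^ 3 * e := by positivity
  have bN : |F.P * a + r * a ^ 2| ≤ K * |a| + K * (2 * K * |a|) := ltg_a2 (ltg_m2 hP ha0) (ltg_m2 hr haa)
  refine ⟨?_, ?_, ?_, ?_, ?_, ?_⟩
  · rw [abs_sub_comm, ← ha]
    linarith
  · have : F.B - F'.B = θ * a - (F'.B - F.B + θ * a) := by ring
    rw [this]
    exact (ltg_s2 (ltg_m2 hθ ha0) lB).trans (by linarith)
  · have : F.P - F'.P = -(2 * (r * a)) - (F'.P - F.P - 2 * r * a) := by ring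
    rw [this]
    exact (ltg_s2 (ltg_n1 (ltg_c2 (ltg_m2 hr ha0))) lP).trans (by linarith)
  · have : F.Y - F'.Y = θ * (2 * (F.X * a) + a ^ 2) - (F'.Y - F.Y + θ * (2 * F.X * a + a ^ 2)) := by ring
    rw [this]
    exact (ltg_s2 (ltg_m2 hθ (ltg_a2 (ltg_c2 (ltg_m2 hX ha0)) haa)) lY).trans (by linarith)
  · have : F.N - F'.N = -(F.P * a + r * a ^ 2) - (F'.N - F.N - (F.P * a + r * a ^ 2)) := by ring
    rw [this]
    exact (ltg_s2 (ltg_n1 bN) lN).trans (by linarith)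
  · have : F.D - F'.D = θ * (F.P * a + r * a ^ 2) - (F'.D - F.D + θ * (F.P * a + r * a ^ 2)) := by ring
    rw [this]
    exact (ltg_s2 (ltg_m2 hθ bN) lD).trans (by linarith)

/-! ## 2. (LIP) the forms are linear and bounded -/

theorem ltg_lin (c : Frz) (F' F : Ph) :
    c.fH F' - c.fH F = c.fH (ltgSub F' F) ∧ c.fJ F' - c.fJ F = c.fJ (ltgSub F' F) ∧ c.fK F' - c.fK F = c.fK (ltgSub F' F) ∧
    c.fL F' - c.fL F = c.fL (ltgSub F' F) ∧ c.fJ' F' - c.fJ' F = c.fJ' (ltgSub F' F) ∧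
    c.fK' F' - c.fK' F = c.fK' (ltgSub F' F) ∧ c.fx F' - c.fx F = c.fx (ltgSub F' F) ∧
    c.fy F' - c.fy F = c.fy (ltgSub F' F) ∧ c.fw F' - c.fw F = c.fw (ltgSub F' F) := by
  refine ⟨?_, ?_, ?_, ?_, ?_, ?_, ?_, ?_, ?_⟩ <;>
    simp only [Frz.fH, Frz.fJ, Frz.fK, Frz.fL, Frz.fJ', Frz.fK', Frz.fx, Frz.fy, Frz.fw, ltgSub] <;> ring

/-- the forms of a small phase are small -/
theorem ltg_form_bd {c : Frz} {d : Ph} {K ρ : ℝ} (hK : 1 ≤ K) (hc : c.Bd K) (hd : d.Bd ρ) :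
    |c.fH d| ≤ 10 * K ^ 3 * ρ ∧ |c.fJ d| ≤ 10 * K ^ 3 * ρ ∧ |c.fK d| ≤ 10 * K ^ 3 * ρ ∧ |c.fL d| ≤ 10 * K ^ 3 * ρ ∧
    |c.fJ' d| ≤ 10 * K ^ 3 * ρ ∧ |c.fK' d| ≤ 10 * K ^ 3 * ρ ∧ |c.fx d| ≤ 10 * K ^ 3 * ρ ∧ |c.fy d| ≤ 10 * K ^ 3 * ρ ∧
    |c.fw d| ≤ 10 * K ^ 3 * ρ := by
  obtain ⟨cX, cP, cβ, cκ, cθ, cA⟩ := hc
  obtain ⟨dX, dB, dP, dY, dN, dD⟩ := hd
  have hρ : 0 ≤ ρ := (abs_nonneg _).trans dX
  have z0 := ltg_kz hK (show 0 ≤ 3 by norm_num) hρ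
  have z1 := ltg_kz hK (show 1 ≤ 3 by norm_num) hρ
  have z2 := ltg_kz hK (show 2 ≤ 3 by norm_num) hρ
  have bH : |c.fH d| ≤ ρ + 2 * (K * ρ) := by
    have : c.fH d = d.Y - 2 * (c.X * d.B) := by simp only [Frz.fH]; ring
    rw [this]
    exact ltg_s2 dY (ltg_c2 (ltg_m2 cX dB))
  have bJ : |c.fJ d| ≤ ρ + K * ρ := ltg_s2 dN (ltg_m2 cP dX)
  have bK : |c.fK d| ≤ ρ + K * ρ := ltg_s2 dD (ltg_m2 cP dB)
  have bL : |c.fL d| ≤ ρ + 2 * (K * ρ) + 2 * (K * ρ) := by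
    have : c.fL d = d.P - 2 * (c.β * d.X) + 2 * (c.κ * d.B) := by simp only [Frz.fL]; ring
    rw [this]
    exact ltg_a2 (ltg_s2 dP (ltg_c2 (ltg_m2 cβ dX))) (ltg_c2 (ltg_m2 cκ dB))
  have bJ' : |c.fJ' d| ≤ ρ + K * ρ + K * (ρ + 2 * (K * ρ)) := ltg_s2 bJ (ltg_m2 cκ bH)
  have bK' : |c.fK' d| ≤ ρ + K * ρ + K * (ρ + 2 * (K * ρ)) := ltg_s2 bK (ltg_m2 cβ bH)
  have bx : |c.fx d| ≤ ρ + K * ρ + K * (ρ + 2 * (K * ρ)) + K * (ρ + K * ρ + K * (ρ + 2 * (K * ρ))) :=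
    ltg_a2 bK' (ltg_m2 cθ bJ')
  have cA2 : |c.A / 2| ≤ K := by
    rw [abs_div, abs_two]
    linarith
  have by' : |c.fy d| ≤ ρ + K * ρ + K * (ρ + 2 * (K * ρ)) + K * (ρ + 2 * (K * ρ) + 2 * (K * ρ)) :=
    ltg_s2 bJ' (ltg_m2 cA2 bL)
  have bw : |c.fw d| ≤ ρ + K * ρ := ltg_a2 dB (ltg_m2 cθ dX)
  refine ⟨bH.trans ?_, bJ.trans ?_, bK.trans ?_, bL.trans ?_, bJ'.trans ?_, bK'.trans ?_, bx.trans ?_, by'.trans ?_,
    bw.trans ?_⟩ <;> linarith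

theorem ltg_near_sub {F F' : Ph} {R : ℝ} (h : F.Near F' R) : (ltgSub F' F).Bd R := by
  obtain ⟨h1, h2, h3, h4, h5, h6⟩ := h
  exact ⟨by rw [abs_sub_comm] at h1; exact h1, by rw [abs_sub_comm] at h2; exact h2, by rw [abs_sub_comm] at h3; exact h3,
    by rw [abs_sub_comm] at h4; exact h4, by rw [abs_sub_comm] at h5; exact h5, by rw [abs_sub_comm] at h6; exact h6⟩

/-- **(LIP)** -/
theorem ltg_lip {c : Frz} {F F' : Ph} {K R : ℝ} (hK : 1 ≤ K) (hc : c.Bd K) (h : F.Near F' R) :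
    |c.fH F' - c.fH F| ≤ 10 * K ^ 3 * R ∧ |c.fJ F' - c.fJ F| ≤ 10 * K ^ 3 * R ∧ |c.fK F' - c.fK F| ≤ 10 * K ^ 3 * R ∧
    |c.fL F' - c.fL F| ≤ 10 * K ^ 3 * R ∧ |c.fJ' F' - c.fJ' F| ≤ 10 * K ^ 3 * R ∧ |c.fK' F' - c.fK' F| ≤ 10 * K ^ 3 * R ∧
    |c.fx F' - c.fx F| ≤ 10 * K ^ 3 * R ∧ |c.fy F' - c.fy F| ≤ 10 * K ^ 3 * R ∧ |c.fw F' - c.fw F| ≤ 10 * K ^ 3 * R := by
  obtain ⟨l1, l2, l3, l4, l5, l6, l7, l8, l9⟩ := ltg_lin c F' F
  rw [l1, l2, l3, l4, l5, l6, l7, l8, l9]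
  exact ltg_form_bd hK hc (ltg_near_sub h)

end Claimed.Agent.R256

namespace Claimed.Agent.R256

/-! ## 3. (ANN), (W), (XT) -/

/-- **(ANN)** the forms `fL, fJ', fK', fx, fy` are annihilated by the fibre of a mark on the line of the frame -/
theorem ltg_ann {F F' : Ph} {θ r θ' r' K e a μ : ℝ} {c : Frz} (hK : 1 ≤ K) (he : 0 ≤ e) (hF' : F'.Bd K)
    (hθ : |θ| ≤ K) (hr : |r| ≤ K) (hc : c.Bd K) (h : F.SameFib θ r F' θ' r' e) (ha : a = F'.X - F.X)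
    (hμ : |F.X - c.X| + |F.P - c.P| + |r - c.β - c.κ * θ| ≤ μ) :
    |c.fL F' - c.fL F| ≤ 70 * K ^ 6 * (a ^ 2 + |a| * μ + e) ∧ |c.fJ' F' - c.fJ' F| ≤ 70 * K ^ 6 * (a ^ 2 + |a| * μ + e) ∧
    |c.fK' F' - c.fK' F| ≤ 70 * K ^ 6 * (a ^ 2 + |a| * μ + e) ∧ |c.fx F' - c.fx F| ≤ 70 * K ^ 6 * (a ^ 2 + |a| * μ + e) ∧
    |c.fy F' - c.fy F| ≤ 70 * K ^ 6 * (a ^ 2 + |a| * μ + e) := by
  obtain ⟨lB, lP, lY, lN, lD⟩ := ltg_leg hK he hF' hθ h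
  rw [← ha] at lB lP lY lN lD
  obtain ⟨cX, cP, cβ, cκ, cθ, cA⟩ := hc
  obtain ⟨_, _, _, l4, l5, l6, l7, l8, _⟩ := ltg_lin c F' F
  rw [l4, l5, l6, l7, l8]
  have mX : |F.X - c.X| ≤ μ := by linarith [abs_nonneg (F.P - c.P), abs_nonneg (r - c.β - c.κ * θ)]
  have mP : |F.P - c.P| ≤ μ := by linarith [abs_nonneg (F.X - c.X), abs_nonneg (r - c.β - c.κ * θ)]
  have mr : |r - c.β - c.κ * θ| ≤ μ := by linarith [abs_nonneg (F.X - c.X), abs_nonneg (F.P - c.P)]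
  have hμ0 : 0 ≤ μ := (abs_nonneg _).trans mX
  have ha0 : |a| ≤ |a| := le_rfl
  have haa : |a ^ 2| ≤ |a| ^ 2 := ltg_sq ha0
  have han : 0 ≤ |a| := abs_nonneg a
  obtain ⟨E, hE⟩ : ∃ E, E = 7 * K ^ 3 * e := ⟨_, rfl⟩
  rw [← hE] at lB lP lY lN lD
  have bH : |c.fH (ltgSub F' F)| ≤ K * |a| ^ 2 + 2 * (K * (μ * |a|)) + E + 2 * (K * E) := by
    have : c.fH (ltgSub F' F) = -(θ * a ^ 2) - 2 * (θ * ((F.X - c.X) * a))
        + (F'.Y - F.Y + θ * (2 * F.X * a + a ^ 2)) - 2 * (c.X * (F'.B - F.B + θ * a)) := by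
      simp only [Frz.fH, ltgSub]; ring
    rw [this]
    exact ltg_s2 (ltg_a2 (ltg_s2 (ltg_n1 (ltg_m2 hθ haa)) (ltg_c2 (ltg_m2 hθ (ltg_m2 mX ha0)))) lY) (ltg_c2 (ltg_m2 cX lB))
  have bJ : |c.fJ (ltgSub F' F)| ≤ μ * |a| + K * |a| ^ 2 + E := by
    have : c.fJ (ltgSub F' F) = (F.P - c.P) * a + r * a ^ 2 + (F'.N - F.N - (F.P * a + r * a ^ 2)) := by
      simp only [Frz.fJ, ltgSub]; rw [ha]; ring
    rw [this]
    exact ltg_a2 (ltg_a2 (ltg_m2 mP ha0) (ltg_m2 hr haa)) lN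
  have bK : |c.fK (ltgSub F' F)| ≤ K * (μ * |a|) + K * (K * |a| ^ 2) + E + K * E := by
    have : c.fK (ltgSub F' F) = -(θ * ((F.P - c.P) * a)) - θ * (r * a ^ 2)
        + (F'.D - F.D + θ * (F.P * a + r * a ^ 2)) - c.P * (F'.B - F.B + θ * a) := by
      simp only [Frz.fK, ltgSub]; ring
    rw [this]
    exact ltg_s2 (ltg_a2 (ltg_s2 (ltg_n1 (ltg_m2 hθ (ltg_m2 mP ha0))) (ltg_m2 hθ (ltg_m2 hr haa))) lD) (ltg_m2 cP lB)
  have bL : |c.fL (ltgSub F' F)| ≤ 2 * (|a| * μ) + E + 2 * (K * E) := by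
    have : c.fL (ltgSub F' F) = 2 * (a * (r - c.β - c.κ * θ)) + (F'.P - F.P - 2 * r * a)
        + 2 * (c.κ * (F'.B - F.B + θ * a)) := by
      simp only [Frz.fL, ltgSub]; rw [ha]; ring
    rw [this]
    exact ltg_a2 (ltg_a2 (ltg_c2 (ltg_m2 ha0 mr)) lP) (ltg_c2 (ltg_m2 cκ lB))
  have bJ' := ltg_s2 bJ (ltg_m2 cκ bH)
  have bK' := ltg_s2 bK (ltg_m2 cβ bH)
  have bx := ltg_a2 bK' (ltg_m2 cθ bJ')
  have cA2 : |c.A / 2| ≤ K := by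
    rw [abs_div, abs_two]
    linarith
  have by' := ltg_s2 bJ' (ltg_m2 cA2 bL)
  have e2 : a ^ 2 = |a| ^ 2 := (sq_abs a).symm
  rw [e2]
  have hZ1 : 0 ≤ |a| ^ 2 := by positivity
  have hZ2 : 0 ≤ |a| * μ := by positivity
  have u0 := ltg_kz hK (show 0 ≤ 6 by norm_num) hZ1
  have u1 := ltg_kz hK (show 1 ≤ 6 by norm_num) hZ1
  have u2 := ltg_kz hK (show 2 ≤ 6 by norm_num) hZ1
  have u3 := ltg_kz hK (show 3 ≤ 6 by norm_num) hZ1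
  have v0 := ltg_kz hK (show 0 ≤ 6 by norm_num) hZ2
  have v1 := ltg_kz hK (show 1 ≤ 6 by norm_num) hZ2
  have v2 := ltg_kz hK (show 2 ≤ 6 by norm_num) hZ2
  have v3 := ltg_kz hK (show 3 ≤ 6 by norm_num) hZ2
  have w0 := ltg_kz hK (show 0 ≤ 6 by norm_num) he
  have w3 := ltg_kz hK (show 3 ≤ 6 by norm_num) he
  have w4 := ltg_kz hK (show 4 ≤ 6 by norm_num) he
  have w5 := ltg_kz hK (show 5 ≤ 6 by norm_num) he
  rw [hE] at bL bJ' bK' bx by'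
  refine ⟨bL.trans ?_, bJ'.trans ?_, bK'.trans ?_, bx.trans ?_, by'.trans ?_⟩ <;> linarith

/-- **(W)** -/
theorem ltg_w {F F' : Ph} {θ r θ' r' K e : ℝ} (c : Frz) (hK : 1 ≤ K) (he : 0 ≤ e) (hF' : F'.Bd K)
    (hθ : |θ| ≤ K) (h : F.SameFib θ r F' θ' r' e) :
    |c.fw F' - c.fw F - (c.θ - θ) * (F'.X - F.X)| ≤ 7 * K ^ 3 * e := by
  obtain ⟨lB, -⟩ := ltg_leg hK he hF' hθ h
  have : c.fw F' - c.fw F - (c.θ - θ) * (F'.X - F.X) = F'.B - F.B + θ * (F'.X - F.X) := by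
    simp only [Frz.fw]; ring
  rw [this]
  exact lB

/-- inversion of `fw` along a fibre -/
theorem ltg_w_inv {F F' : Ph} {θ r θ' r' K e : ℝ} (c : Frz) (hK : 1 ≤ K) (he : 0 ≤ e) (hF' : F'.Bd K)
    (hθ : |θ| ≤ K) (h : F.SameFib θ r F' θ' r' e) :
    |c.θ - θ| * |F'.X - F.X| ≤ |c.fw F' - c.fw F| + 7 * K ^ 3 * e := by
  have h1 := ltg_w c hK he hF' hθ h
  rw [← abs_mul]
  have h2 := abs_sub_abs_le_abs_sub ((c.θ - θ) * (F'.X - F.X)) (c.fw F' - c.fw F)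
  rw [abs_sub_comm ((c.θ - θ) * (F'.X - F.X)) (c.fw F' - c.fw F)] at h2
  linarith

/-- **(XT)** the reading of the output against `fx` -/
theorem ltg_xt (c : Frz) (F : Ph) (rb : ℝ) : c.fxt F c.θ rb - c.fx F = (c.β + c.κ * c.θ - rb) * c.fH F := by
  simp only [Frz.fxt, Frz.fx, Frz.fK', Frz.fJ']; ring

/-- `fxt` only uses the contact frame -/
theorem ltg_xt_frame {c c' : Frz} (hX : c.X = c'.X) (hP : c.P = c'.P) (F : Ph) (θb rb : ℝ) :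
    c.fxt F θb rb = c'.fxt F θb rb := by
  simp only [Frz.fxt, Frz.fK, Frz.fJ, Frz.fH, hX, hP]

/-- two-point form of (XT): in a common parent of width `R` -/
theorem ltg_xt_two {c : Frz} {F F' : Ph} {K R rb : ℝ} (hK : 1 ≤ K) (hc : c.Bd K) (h : F.Near F' R) :
    |(c.fxt F' c.θ rb - c.fxt F c.θ rb) - (c.fx F' - c.fx F)| ≤ |c.β + c.κ * c.θ - rb| * (10 * K ^ 3 * R) := by
  have e1 : (c.fxt F' c.θ rb - c.fxt F c.θ rb) - (c.fx F' - c.fx F) = (c.β + c.κ * c.θ - rb) * (c.fH F' - c.fH F) := by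
    have h1 := ltg_xt c F rb
    have h2 := ltg_xt c F' rb
    linear_combination h2 - h1
  rw [e1]
  exact ltg_m2 le_rfl (ltg_lip hK hc h).1

end Claimed.Agent.R256

namespace Claimed.Agent.R256

/-! ## 4. (MOT) the motion of the mark at `R` -/

/-- the configuration of (MOT): two targets `(F,θ,r)`, `(F',θ',r')` on the fibres through the SAME `FR` with the marks `(θR,rR)`, `(θR',rR')` of the
line `(βR,κR)`; `(βF,κF)` = line of the first target; `|X' - X| ≤ e6`. -/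
structure LtgMot (K e e6 : ℝ) (FR F F' : Ph) (βR κR βF κF θR rR θ r θR' rR' θ' r' : ℝ) (c : Frz) : Prop where
  K1 : 1 ≤ K
  e0 : 0 ≤ e
  bFR : FR.Bd K
  bF : F.Bd K
  bF' : F'.Bd K
  bc : c.Bd K
  bκR : |κR| ≤ K
  bθ : |θ| ≤ K
  bθR : |θR| ≤ K
  bθR' : |θR'| ≤ K
  brR : |rR| ≤ K
  brR' : |rR'| ≤ K
  fib : FR.SameFib θR rR F θ r e
  fib' : FR.SameFib θR' rR' F' θ' r' e
  line : |rR - βR - κR * θR| ≤ e
  line' : |rR' - βR - κR * θR'| ≤ e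
  tline : |r - βF - κF * θ| ≤ e
  dX : |F'.X - F.X| ≤ e6

/-- the main part of the increment of the target when the mark at `R` moves by `h` (angle difference `A` fixed) -/
def ltgDm (FR : Ph) (κR θR rR h A : ℝ) : Ph :=
  ⟨0, -(h * A), 2 * (κR * (h * A)), -(h * (2 * FR.X * A + A ^ 2)), κR * (h * A ^ 2),
    -(h * (FR.P * A + rR * A ^ 2)) - (θR + h) * (κR * (h * A ^ 2))⟩

theorem ltg_dm_eqns_cite : True := by
  have := @ltgDm.eq_1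
  trivial

section mot

variable {K e e6 : ℝ} {FR F F' : Ph} {βR κR βF κF θR rR θ r θR' rR' θ' r' : ℝ} {c : Frz}

/-- the increment of the target is `ltgDm` up to `22 K³ (e + e6)` -/
theorem ltg_mot_dec (H : LtgMot K e e6 FR F F' βR κR βF κF θR rR θ r θR' rR' θ' r' c) :
    (ltgSub (ltgSub F' F) (ltgDm FR κR θR rR (θR' - θR) (F.X - FR.X))).Bd (22 * K ^ 3 * (e + e6)) := by
  have hK := H.K1
  have he := H.e0
  obtain ⟨lB, lP, lY, lN, lD⟩ := ltg_leg hK he H.bF H.bθR H.fib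
  obtain ⟨mB, mP, mY, mN, mD⟩ := ltg_leg hK he H.bF' H.bθR' H.fib'
  have he6 : 0 ≤ e6 := (abs_nonneg _).trans H.dX
  have hα := H.dX
  have hA : |F.X - FR.X| ≤ 2 * K := by
    have := ltg_s2 H.bF.1 H.bFR.1
    linarith
  have hA' : |F'.X - FR.X| ≤ 2 * K := by
    have := ltg_s2 H.bF'.1 H.bFR.1
    linarith
  have hz : |(rR' - βR - κR * θR') - (rR - βR - κR * θR)| ≤ e + e := ltg_s2 H.line' H.line
  have hXR : |FR.X| ≤ K := H.bFR.1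
  have hPR : |FR.P| ≤ K := H.bFR.2.2.1
  obtain ⟨E, hE⟩ : ∃ E, E = 7 * K ^ 3 * e := ⟨_, rfl⟩
  rw [← hE] at lB lP lY lN lD mB mP mY mN mD
  have hAA : |(F.X - FR.X) + (F'.X - FR.X)| ≤ 2 * K + 2 * K := ltg_a2 hA hA'
  have bN0 : |FR.P * (F'.X - F.X) + rR' * ((F'.X - F.X) * ((F.X - FR.X) + (F'.X - FR.X)))
      + ((rR' - βR - κR * θR') - (rR - βR - κR * θR)) * (F.X - FR.X) ^ 2|
      ≤ K * e6 + K * (e6 * (2 * K + 2 * K)) + (e + e) * (2 * K) ^ 2 :=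
    ltg_a2 (ltg_a2 (ltg_m2 hPR hα) (ltg_m2 H.brR' (ltg_m2 hα hAA))) (ltg_m2 hz (ltg_sq hA))
  have a0 := ltg_kz hK (show 0 ≤ 3 by norm_num) he
  have a1 := ltg_kz hK (show 1 ≤ 3 by norm_num) he
  have a2 := ltg_kz hK (show 2 ≤ 3 by norm_num) he
  have b0 := ltg_kz hK (show 0 ≤ 3 by norm_num) he6
  have b1 := ltg_kz hK (show 1 ≤ 3 by norm_num) he6
  have b2 := ltg_kz hK (show 2 ≤ 3 by norm_num) he6
  refine ⟨?_, ?_, ?_, ?_, ?_, ?_⟩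
  · have : (ltgSub (ltgSub F' F) (ltgDm FR κR θR rR (θR' - θR) (F.X - FR.X))).X = F'.X - F.X := by
      simp only [ltgSub, ltgDm]; ring
    rw [this]
    exact hα.trans (by linarith)
  · have : (ltgSub (ltgSub F' F) (ltgDm FR κR θR rR (θR' - θR) (F.X - FR.X))).B
        = (F'.B - FR.B + θR' * (F'.X - FR.X)) - (F.B - FR.B + θR * (F.X - FR.X)) - θR' * (F'.X - F.X) := by
      simp only [ltgSub, ltgDm]; ring
    rw [this]
    exact (ltg_s2 (ltg_s2 mB lB) (ltg_m2 H.bθR' hα)).trans (by rw [hE]; linarith)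
  · have : (ltgSub (ltgSub F' F) (ltgDm FR κR θR rR (θR' - θR) (F.X - FR.X))).P
        = (F'.P - FR.P - 2 * rR' * (F'.X - FR.X)) - (F.P - FR.P - 2 * rR * (F.X - FR.X)) + 2 * (rR' * (F'.X - F.X))
          + 2 * (((rR' - βR - κR * θR') - (rR - βR - κR * θR)) * (F.X - FR.X)) := by
      simp only [ltgSub, ltgDm]; ring
    rw [this]
    exact (ltg_a2 (ltg_a2 (ltg_s2 mP lP) (ltg_c2 (ltg_m2 H.brR' hα))) (ltg_c2 (ltg_m2 hz hA))).trans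
      (by rw [hE]; linarith)
  · have : (ltgSub (ltgSub F' F) (ltgDm FR κR θR rR (θR' - θR) (F.X - FR.X))).Y
        = (F'.Y - FR.Y + θR' * (2 * FR.X * (F'.X - FR.X) + (F'.X - FR.X) ^ 2))
          - (F.Y - FR.Y + θR * (2 * FR.X * (F.X - FR.X) + (F.X - FR.X) ^ 2))
          - θR' * ((F'.X - F.X) * (2 * FR.X + ((F.X - FR.X) + (F'.X - FR.X)))) := by
      simp only [ltgSub, ltgDm]; ring
    rw [this]
    exact (ltg_s2 (ltg_s2 mY lY) (ltg_m2 H.bθR' (ltg_m2 hα (ltg_a2 (ltg_c2 hXR) hAA)))).trans (by rw [hE]; linarith)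
  · have : (ltgSub (ltgSub F' F) (ltgDm FR κR θR rR (θR' - θR) (F.X - FR.X))).N
        = (F'.N - FR.N - (FR.P * (F'.X - FR.X) + rR' * (F'.X - FR.X) ^ 2))
          - (F.N - FR.N - (FR.P * (F.X - FR.X) + rR * (F.X - FR.X) ^ 2))
          + (FR.P * (F'.X - F.X) + rR' * ((F'.X - F.X) * ((F.X - FR.X) + (F'.X - FR.X)))
      + ((rR' - βR - κR * θR') - (rR - βR - κR * θR)) * (F.X - FR.X) ^ 2) := by
      simp only [ltgSub, ltgDm]; ring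
    rw [this]
    exact (ltg_a2 (ltg_s2 mN lN) bN0).trans (by rw [hE]; linarith)
  · have : (ltgSub (ltgSub F' F) (ltgDm FR κR θR rR (θR' - θR) (F.X - FR.X))).D
        = (F'.D - FR.D + θR' * (FR.P * (F'.X - FR.X) + rR' * (F'.X - FR.X) ^ 2))
          - (F.D - FR.D + θR * (FR.P * (F.X - FR.X) + rR * (F.X - FR.X) ^ 2))
          - θR' * (FR.P * (F'.X - F.X) + rR' * ((F'.X - F.X) * ((F.X - FR.X) + (F'.X - FR.X)))
      + ((rR' - βR - κR * θR') - (rR - βR - κR * θR)) * (F.X - FR.X) ^ 2) := by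
      simp only [ltgSub, ltgDm]; ring
    rw [this]
    exact (ltg_s2 (ltg_s2 mD lD) (ltg_m2 H.bθR' bN0)).trans (by rw [hE]; linarith)

/-- the forms of the main part -/
theorem ltg_dm_forms (c : Frz) (FR : Ph) (κR θR rR h A : ℝ) :
    c.fL (ltgDm FR κR θR rR h A) = 2 * (h * (A * (κR - c.κ))) ∧
    c.fJ' (ltgDm FR κR θR rR h A) = h * (A ^ 2 * (κR - c.κ)) - 2 * (c.κ * (h * (A * (c.X - (FR.X + A))))) ∧
    c.fy (ltgDm FR κR θR rR h A) = h * (A * ((A - c.A) * (κR - c.κ))) - 2 * (c.κ * (h * (A * (c.X - (FR.X + A))))) ∧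
    c.fx (ltgDm FR κR θR rR h A) = A ^ 2 * (h * ((rR - κR * θR - c.β) + c.θ * (κR - c.κ))) - κR * (h ^ 2 * A ^ 2)
      + A * (h * (c.P - (FR.P + 2 * rR * A))) - 2 * ((c.β + c.θ * c.κ) * (A * (h * (c.X - (FR.X + A))))) := by
  refine ⟨?_, ?_, ?_, ?_⟩ <;>
    simp only [Frz.fH, Frz.fJ, Frz.fK, Frz.fL, Frz.fJ', Frz.fK', Frz.fx, Frz.fy, ltgDm] <;> ring

theorem ltg_sub_near {F F' : Ph} {R : ℝ} (h : (ltgSub F' F).Bd R) : F.Near F' R := by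
  obtain ⟨h1, h2, h3, h4, h5, h6⟩ := h
  simp only [ltgSub] at h1 h2 h3 h4 h5 h6
  exact ⟨by rw [abs_sub_comm]; exact h1, by rw [abs_sub_comm]; exact h2, by rw [abs_sub_comm]; exact h3,
    by rw [abs_sub_comm]; exact h4, by rw [abs_sub_comm]; exact h5, by rw [abs_sub_comm]; exact h6⟩

/-- **(MOT, parent)** -/
theorem ltg_mot_near (H : LtgMot K e e6 FR F F' βR κR βF κF θR rR θ r θR' rR' θ' r' c) :
    F.Near F' (22 * K ^ 4 * (|θR' - θR| + e6 + e)) := by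
  have hK := H.K1
  have he := H.e0
  have he6 : 0 ≤ e6 := (abs_nonneg _).trans H.dX
  obtain ⟨d1, d2, d3, d4, d5, d6⟩ := ltg_mot_dec H
  have hA : |F.X - FR.X| ≤ 2 * K := by
    have := ltg_s2 H.bF.1 H.bFR.1
    linarith
  have hXR : |FR.X| ≤ K := H.bFR.1
  have hPR : |FR.P| ≤ K := H.bFR.2.2.1
  have hh : |θR' - θR| ≤ |θR' - θR| := le_rfl
  have hn : 0 ≤ |θR' - θR| := abs_nonneg _
  have hθ' : |θR + (θR' - θR)| ≤ K := by
    have : θR + (θR' - θR) = θR' := by ring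
    rw [this]
    exact H.bθR'
  have a3 := ltg_kz hK (show 3 ≤ 4 by norm_num) he
  have a0 := ltg_kz hK (show 0 ≤ 4 by norm_num) he
  have b3 := ltg_kz hK (show 3 ≤ 4 by norm_num) he6
  have b0 := ltg_kz hK (show 0 ≤ 4 by norm_num) he6
  have c0 := ltg_kz hK (show 0 ≤ 4 by norm_num) hn
  have c1 := ltg_kz hK (show 1 ≤ 4 by norm_num) hn
  have c2 := ltg_kz hK (show 2 ≤ 4 by norm_num) hn
  have c3 := ltg_kz hK (show 3 ≤ 4 by norm_num) hn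
  have m2 : |(ltgDm FR κR θR rR (θR' - θR) (F.X - FR.X)).B| ≤ |θR' - θR| * (2 * K) := ltg_n1 (ltg_m2 hh hA)
  have m3 : |(ltgDm FR κR θR rR (θR' - θR) (F.X - FR.X)).P| ≤ 2 * (K * (|θR' - θR| * (2 * K))) :=
    ltg_c2 (ltg_m2 H.bκR (ltg_m2 hh hA))
  have m4 : |(ltgDm FR κR θR rR (θR' - θR) (F.X - FR.X)).Y| ≤ |θR' - θR| * (2 * K * (2 * K) + (2 * K) ^ 2) :=
    ltg_n1 (ltg_m2 hh (ltg_a2 (ltg_m2 (ltg_c2 hXR) hA) (ltg_sq hA)))
  have m5 : |(ltgDm FR κR θR rR (θR' - θR) (F.X - FR.X)).N| ≤ K * (|θR' - θR| * (2 * K) ^ 2) :=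
    ltg_m2 H.bκR (ltg_m2 hh (ltg_sq hA))
  have m6 : |(ltgDm FR κR θR rR (θR' - θR) (F.X - FR.X)).D|
      ≤ |θR' - θR| * (K * (2 * K) + K * (2 * K) ^ 2) + K * (K * (|θR' - θR| * (2 * K) ^ 2)) :=
    ltg_s2 (ltg_n1 (ltg_m2 hh (ltg_a2 (ltg_m2 hPR hA) (ltg_m2 H.brR (ltg_sq hA))))) (ltg_m2 hθ' m5)
  refine ltg_sub_near ⟨?_, ?_, ?_, ?_, ?_, ?_⟩
  · exact H.dX.trans (by linarith)
  · have : (ltgSub F' F).B = (ltgDm FR κR θR rR (θR' - θR) (F.X - FR.X)).B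
        + (ltgSub (ltgSub F' F) (ltgDm FR κR θR rR (θR' - θR) (F.X - FR.X))).B := by
      simp only [ltgSub]; ring
    rw [this]
    exact (ltg_a2 m2 d2).trans (by linarith)
  · have : (ltgSub F' F).P = (ltgDm FR κR θR rR (θR' - θR) (F.X - FR.X)).P
        + (ltgSub (ltgSub F' F) (ltgDm FR κR θR rR (θR' - θR) (F.X - FR.X))).P := by
      simp only [ltgSub]; ring
    rw [this]
    exact (ltg_a2 m3 d3).trans (by linarith)
  · have : (ltgSub F' F).Y = (ltgDm FR κR θR rR (θR' - θR) (F.X - FR.X)).Y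
        + (ltgSub (ltgSub F' F) (ltgDm FR κR θR rR (θR' - θR) (F.X - FR.X))).Y := by
      simp only [ltgSub]; ring
    rw [this]
    exact (ltg_a2 m4 d4).trans (by linarith)
  · have : (ltgSub F' F).N = (ltgDm FR κR θR rR (θR' - θR) (F.X - FR.X)).N
        + (ltgSub (ltgSub F' F) (ltgDm FR κR θR rR (θR' - θR) (F.X - FR.X))).N := by
      simp only [ltgSub]; ring
    rw [this]
    exact (ltg_a2 m5 d5).trans (by linarith)
  · have : (ltgSub F' F).D = (ltgDm FR κR θR rR (θR' - θR) (F.X - FR.X)).D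
        + (ltgSub (ltgSub F' F) (ltgDm FR κR θR rR (θR' - θR) (F.X - FR.X))).D := by
      simp only [ltgSub]; ring
    rw [this]
    exact (ltg_a2 m6 d6).trans (by linarith)

end mot

end Claimed.Agent.R256

namespace Claimed.Agent.R256

section mot2

variable {K e e6 μ : ℝ} {FR F F' : Ph} {βR κR βF κF θR rR θ r θR' rR' θ' r' : ℝ} {c : Frz}

/-- **(MOT)** `fx`, `fy` do not see the motion of the mark at `R`; `fJ'` and `fL` see it with the factors `(κR-κF) A²`, `2 (κR-κF) A`. -/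
theorem ltg_mot_main (H : LtgMot K e e6 FR F F' βR κR βF κF θR rR θ r θR' rR' θ' r' c)
    (hμ : |F.X - c.X| + |F.P - c.P| + |βF - c.β| + |κF - c.κ| + |θ - c.θ| + |F.X - FR.X - c.A| ≤ μ) :
    |c.fx F' - c.fx F| ≤ 300 * K ^ 6 * (|θR' - θR| * (μ + |θR' - θR|) + e6 + e) ∧
    |c.fy F' - c.fy F| ≤ 300 * K ^ 6 * (|θR' - θR| * (μ + |θR' - θR|) + e6 + e) ∧
    |κR - κF| * (F.X - FR.X) ^ 2 * |θR' - θR|
      ≤ |c.fJ' F' - c.fJ' F| + 300 * K ^ 6 * (|θR' - θR| * (μ + |θR' - θR|) + e6 + e) ∧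
    2 * |F.X - FR.X| * |κR - κF| * |θR' - θR|
      ≤ |c.fL F' - c.fL F| + 300 * K ^ 6 * (|θR' - θR| * (μ + |θR' - θR|) + e6 + e) := by
  have hK := H.K1
  have he := H.e0
  have he6 : 0 ≤ e6 := (abs_nonneg _).trans H.dX
  obtain ⟨cX, cP, cβ, cκ, cθ, cA⟩ := H.bc
  -- the error part
  obtain ⟨_, _, _, gL, gJ', _, gx, gy, _⟩ := ltg_form_bd hK H.bc (ltg_mot_dec H)
  obtain ⟨_, _, _, l4, l5, _, l7, l8, _⟩ := ltg_lin c F' F
  obtain ⟨_, _, _, k4, k5, _, k7, k8, _⟩ := ltg_lin c (ltgSub F' F) (ltgDm FR κR θR rR (θR' - θR) (F.X - FR.X))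
  obtain ⟨fL, fJ', fy, fx⟩ := ltg_dm_forms c FR κR θR rR (θR' - θR) (F.X - FR.X)
  obtain ⟨_, lP, _, _, _⟩ := ltg_leg hK he H.bF H.bθR H.fib
  obtain ⟨sθ, sr, _⟩ := H.fib
  -- the small quantities
  have n1 := abs_nonneg (F.X - c.X)
  have n2 := abs_nonneg (F.P - c.P)
  have n3 := abs_nonneg (βF - c.β)
  have n4 := abs_nonneg (κF - c.κ)
  have n5 := abs_nonneg (θ - c.θ)
  have n6 := abs_nonneg (F.X - FR.X - c.A)
  have mX : |c.X - (FR.X + (F.X - FR.X))| ≤ μ := by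
    have : c.X - (FR.X + (F.X - FR.X)) = -(F.X - c.X) := by ring
    rw [this, abs_neg]
    linarith
  have mP : |F.P - c.P| ≤ μ := by linarith
  have mβ : |βF - c.β| ≤ μ := by linarith
  have mκ : |κF - c.κ| ≤ μ := by linarith
  have mθ : |c.θ - θ| ≤ μ := by rw [abs_sub_comm]; linarith
  have mA : |F.X - FR.X - c.A| ≤ μ := by linarith
  have hμ0 : 0 ≤ μ := n2.trans mP
  have hA : |F.X - FR.X| ≤ 2 * K := by
    have := ltg_s2 H.bF.1 H.bFR.1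
    linarith
  have hh : |θR' - θR| ≤ |θR' - θR| := le_rfl
  have hh2 : |θR' - θR| ≤ 2 * K := by
    have := ltg_s2 H.bθR' H.bθR
    linarith
  have hn : 0 ≤ |θR' - θR| := abs_nonneg _
  have hκc : |κR - c.κ| ≤ K + K := ltg_s2 H.bκR cκ
  -- the bracket
  have bre : |(rR - r) + (r - βF - κF * θ) + κR * (θ - θR)| ≤ e + e + K * e := by
    refine ltg_a2 (ltg_a2 sr H.tline) (ltg_m2 H.bκR ?_)
    rw [abs_sub_comm]
    exact sθ
  have brμ : |(βF - c.β) + (κF - c.κ) * θ + (κR - c.κ) * (c.θ - θ)| ≤ μ + μ * K + (K + K) * μ :=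
    ltg_a2 (ltg_a2 mβ (ltg_m2 mκ H.bθ)) (ltg_m2 hκc mθ)
  have b1 : |(θR' - θR) * ((rR - κR * θR - c.β) + c.θ * (κR - c.κ))|
      ≤ 2 * K * (e + e + K * e) + |θR' - θR| * (μ + μ * K + (K + K) * μ) := by
    have : (θR' - θR) * ((rR - κR * θR - c.β) + c.θ * (κR - c.κ))
        = (θR' - θR) * ((rR - r) + (r - βF - κF * θ) + κR * (θ - θR))
          + (θR' - θR) * ((βF - c.β) + (κF - c.κ) * θ + (κR - c.κ) * (c.θ - θ)) := by ring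
    rw [this]
    exact ltg_a2 (ltg_m2 hh2 bre) (ltg_m2 hh brμ)
  have b2 : |(θR' - θR) * (c.P - (FR.P + 2 * rR * (F.X - FR.X)))| ≤ |θR' - θR| * μ + 2 * K * (7 * K ^ 3 * e) := by
    have : (θR' - θR) * (c.P - (FR.P + 2 * rR * (F.X - FR.X)))
        = -((θR' - θR) * (F.P - c.P)) + (θR' - θR) * (F.P - FR.P - 2 * rR * (F.X - FR.X)) := by ring
    rw [this]
    exact ltg_a2 (ltg_n1 (ltg_m2 hh mP)) (ltg_m2 hh2 lP)
  have b3 : |(F.X - FR.X) * ((θR' - θR) * (c.X - (FR.X + (F.X - FR.X))))| ≤ 2 * K * (|θR' - θR| * μ) :=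
    ltg_m2 hA (ltg_m2 hh mX)
  have b3' : |(θR' - θR) * ((F.X - FR.X) * (c.X - (FR.X + (F.X - FR.X))))| ≤ |θR' - θR| * (2 * K * μ) :=
    ltg_m2 hh (ltg_m2 hA mX)
  have Bx : |c.fx (ltgDm FR κR θR rR (θR' - θR) (F.X - FR.X))|
      ≤ (2 * K) ^ 2 * (2 * K * (e + e + K * e) + |θR' - θR| * (μ + μ * K + (K + K) * μ))
        + K * (|θR' - θR| ^ 2 * (2 * K) ^ 2) + 2 * K * (|θR' - θR| * μ + 2 * K * (7 * K ^ 3 * e))
        + 2 * ((K + K * K) * (2 * K * (|θR' - θR| * μ))) := by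
    rw [fx]
    exact ltg_s2 (ltg_a2 (ltg_s2 (ltg_m2 (ltg_sq hA) b1) (ltg_m2 H.bκR (ltg_m2 (ltg_sq hh) (ltg_sq hA)))) (ltg_m2 hA b2))
      (ltg_c2 (ltg_m2 (ltg_a2 cβ (ltg_m2 cθ cκ)) b3))
  have By : |c.fy (ltgDm FR κR θR rR (θR' - θR) (F.X - FR.X))|
      ≤ |θR' - θR| * (2 * K * (μ * (K + K))) + 2 * (K * (|θR' - θR| * (2 * K * μ))) := by
    rw [fy]
    exact ltg_s2 (ltg_m2 hh (ltg_m2 hA (ltg_m2 mA hκc))) (ltg_c2 (ltg_m2 cκ b3'))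
  -- monomials
  have hZ1 : 0 ≤ |θR' - θR| * μ := by positivity
  have hZ2 : 0 ≤ |θR' - θR| ^ 2 := by positivity
  have u0 := ltg_kz hK (show 0 ≤ 6 by norm_num) hZ1
  have u1 := ltg_kz hK (show 1 ≤ 6 by norm_num) hZ1
  have u2 := ltg_kz hK (show 2 ≤ 6 by norm_num) hZ1
  have u3 := ltg_kz hK (show 3 ≤ 6 by norm_num) hZ1
  have v0 := ltg_kz hK (show 0 ≤ 6 by norm_num) hZ2
  have v3 := ltg_kz hK (show 3 ≤ 6 by norm_num) hZ2
  have w0 := ltg_kz hK (show 0 ≤ 6 by norm_num) he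
  have w3 := ltg_kz hK (show 3 ≤ 6 by norm_num) he
  have w4 := ltg_kz hK (show 4 ≤ 6 by norm_num) he
  have w5 := ltg_kz hK (show 5 ≤ 6 by norm_num) he
  have x0 := ltg_kz hK (show 0 ≤ 6 by norm_num) he6
  refine ⟨?_, ?_, ?_, ?_⟩
  · have : c.fx F' - c.fx F = c.fx (ltgDm FR κR θR rR (θR' - θR) (F.X - FR.X))
        + c.fx (ltgSub (ltgSub F' F) (ltgDm FR κR θR rR (θR' - θR) (F.X - FR.X))) := by
      rw [l7, ← k7]; ring
    rw [this]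
    exact (ltg_a2 Bx gx).trans (by linarith)
  · have : c.fy F' - c.fy F = c.fy (ltgDm FR κR θR rR (θR' - θR) (F.X - FR.X))
        + c.fy (ltgSub (ltgSub F' F) (ltgDm FR κR θR rR (θR' - θR) (F.X - FR.X))) := by
      rw [l8, ← k8]; ring
    rw [this]
    exact (ltg_a2 By gy).trans (by linarith)
  · have e1 : |κR - κF| * (F.X - FR.X) ^ 2 * |θR' - θR| = |(θR' - θR) * ((F.X - FR.X) ^ 2 * (κR - κF))| := by
      rw [abs_mul, abs_mul, abs_of_nonneg (sq_nonneg (F.X - FR.X))]; ring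
    have e2 : (θR' - θR) * ((F.X - FR.X) ^ 2 * (κR - κF))
        = (c.fJ' F' - c.fJ' F) - c.fJ' (ltgSub (ltgSub F' F) (ltgDm FR κR θR rR (θR' - θR) (F.X - FR.X)))
          - (θR' - θR) * ((F.X - FR.X) ^ 2 * (κF - c.κ))
          + 2 * (c.κ * ((θR' - θR) * ((F.X - FR.X) * (c.X - (FR.X + (F.X - FR.X)))))) := by
      rw [l5, ← k5, fJ']; ring
    rw [e1, e2]
    exact (ltg_a2 (ltg_s2 (ltg_s2 le_rfl gJ') (ltg_m2 hh (ltg_m2 (ltg_sq hA) mκ))) (ltg_c2 (ltg_m2 cκ b3'))).trans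
      (by linarith)
  · have e1 : 2 * |F.X - FR.X| * |κR - κF| * |θR' - θR| = |2 * ((θR' - θR) * ((F.X - FR.X) * (κR - κF)))| := by
      rw [abs_mul, abs_mul, abs_mul, abs_two]; ring
    have e2 : 2 * ((θR' - θR) * ((F.X - FR.X) * (κR - κF)))
        = (c.fL F' - c.fL F) - c.fL (ltgSub (ltgSub F' F) (ltgDm FR κR θR rR (θR' - θR) (F.X - FR.X)))
          - 2 * ((θR' - θR) * ((F.X - FR.X) * (κF - c.κ))) := by
      rw [l4, ← k4, fL]; ring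
    rw [e1, e2]
    exact (ltg_s2 (ltg_s2 le_rfl gL) (ltg_c2 (ltg_m2 hh (ltg_m2 hA mκ)))).trans (by linarith)

end mot2

end Claimed.Agent.R256
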