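import Claimed.Agent.R256.LT.Sum
import Claimed.Agent.R256.LT.Geo
import Claimed.Agent.R255.Iso.Grid

/-!
# Row 256, unit LT: KIT for the leaves of `App.lean` / `Layer.lean`      (helper170, for architect helper46)

Dyadic grids (`ltpk_lev_*`, `ltpk_cell_*`, `ltpk_trep_*`; continuing `R255/Iso/Grid.lean`), sizes under `Hyp`/`Sm` (`K = δ^(-τ) ≥ 1000`, `K⁴ ≤ 2^kn ≤ 2K⁴`),
frozen coefficients (`ltpk_frz_bd`, `ltpk_frz_*`), entropy of a reading (`ltpk_read`, `ltpk_read0`), information algebra (`ltpk_mi_read`, `ltpk_mi_cond`).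
All statements are PROVED.
-/

set_option autoImplicit false

namespace Claimed.Agent.R256

open scoped BigOperators
open Classical
open Claimed.Agent.R255
open Claimed.Agent.R255.FLaw

/-! ## 1. dyadic grids -/

theorem ltpk_lev_add (δ u g : ℝ) (h0 : 0 < δ) (h1 : δ < 1) (hu : 0 ≤ u) (hg : 0 ≤ g) :
    tlev δ u + tlev δ g ≤ tlev δ (u + g) + 1 := by
  have hl := ig_logb_pos δ h0 h1
  unfold tlev
  have a1 := Nat.ceil_lt_add_one (mul_nonneg hu hl.le)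
  have a2 := Nat.ceil_lt_add_one (mul_nonneg hg hl.le)
  have a3 := Nat.le_ceil ((u + g) * Real.logb 2 (1 / δ))
  have h : ((⌈u * Real.logb 2 (1 / δ)⌉₊ + ⌈g * Real.logb 2 (1 / δ)⌉₊ : ℕ) : ℝ)
      < ((⌈(u + g) * Real.logb 2 (1 / δ)⌉₊ + 2 : ℕ) : ℝ) := by
    push_cast
    have e : (u + g) * Real.logb 2 (1 / δ) = u * Real.logb 2 (1 / δ) + g * Real.logb 2 (1 / δ) := add_mul _ _ _
    linarith
  have := Nat.cast_lt.1 h
  omega

theorem ltpk_trep_near (δ p v : ℝ) : |v - trep δ p v| ≤ 1 / 2 ^ (tlev δ p) := by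
  have a1 := ig_trep_le δ p v
  have a2 := ig_lt_trep δ p v
  unfold msh at a2
  rw [abs_of_nonneg (by linarith)]
  linarith

theorem ltpk_msh_le_one (δ p : ℝ) : (1 : ℝ) / 2 ^ (tlev δ p) ≤ 1 := by
  rw [div_le_one (by positivity)]
  exact one_le_pow₀ (by norm_num)

theorem ltpk_trep_abs (δ p v : ℝ) : |trep δ p v| ≤ |v| + 1 := by
  have a1 := ltpk_trep_near δ p v
  have a2 := ltpk_msh_le_one δ p
  have a3 : |trep δ p v| ≤ |v| + |v - trep δ p v| := by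
    have : trep δ p v = v - (v - trep δ p v) := by ring
    calc |trep δ p v| = |v - (v - trep δ p v)| := by rw [← this]
      _ ≤ |v| + |v - trep δ p v| := abs_sub _ _
  linarith

theorem ltpk_trep_congr {δ p v v' : ℝ} (h : tcell δ p v = tcell δ p v') : trep δ p v = trep δ p v' := by
  unfold trep
  rw [h]

theorem ltpk_cell_near {δ p v v' : ℝ} (h : tcell δ p v = tcell δ p v') : |v - v'| ≤ 1 / 2 ^ (tlev δ p) := by
  have a1 := ig_trep_le δ p v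
  have a2 := ig_lt_trep δ p v
  have b1 := ig_trep_le δ p v'
  have b2 := ig_lt_trep δ p v'
  rw [ltpk_trep_congr h] at a1 a2
  unfold msh at a2 b2
  rw [abs_le]
  constructor <;> linarith

theorem ltpk_cell_nest {δ p p' v v' : ℝ} (h0 : 0 < δ) (h1 : δ < 1) (hp : p ≤ p') (h : tcell δ p' v = tcell δ p' v') :
    tcell δ p v = tcell δ p v' := by
  rw [ig_cell_nest δ p p' v h0 h1 hp, ig_cell_nest δ p p' v' h0 h1 hp, h]

/-- `δ^(-p) ≤ 2^(tlev δ p) ≤ 2 δ^(-p)` -/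
theorem ltpk_pow_lev (δ p : ℝ) (h0 : 0 < δ) (h1 : δ < 1) (hp : 0 ≤ p) :
    δ ^ (-p) ≤ (2 : ℝ) ^ (tlev δ p) ∧ (2 : ℝ) ^ (tlev δ p) ≤ 2 * δ ^ (-p) :=
  ⟨ig_pow_lev_ge δ p h0, ig_pow_lev_le δ p h0 h1 hp⟩

/-- phases in the same cell are near -/
theorem ltpk_ph_near {δ p : ℝ} {F F' : Ph} (h : F.cell δ p = F'.cell δ p) : F.Near F' (1 / 2 ^ (tlev δ p)) := by
  unfold Ph.cell at h
  simp only [Prod.mk.injEq] at h
  obtain ⟨h1, h2, h3, h4, h5, h6⟩ := h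
  exact ⟨ltpk_cell_near h1, ltpk_cell_near h2, ltpk_cell_near h3, ltpk_cell_near h4, ltpk_cell_near h5, ltpk_cell_near h6⟩

/-- nesting of the phase cells -/
theorem ltpk_ph_nest {δ p p' : ℝ} {F F' : Ph} (h0 : 0 < δ) (h1 : δ < 1) (hp : p ≤ p') (h : F.cell δ p' = F'.cell δ p') :
    F.cell δ p = F'.cell δ p := by
  unfold Ph.cell at h ⊢
  simp only [Prod.mk.injEq] at h ⊢
  obtain ⟨a1, a2, a3, a4, a5, a6⟩ := h
  exact ⟨ltpk_cell_nest h0 h1 hp a1, ltpk_cell_nest h0 h1 hp a2, ltpk_cell_nest h0 h1 hp a3,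
    ltpk_cell_nest h0 h1 hp a4, ltpk_cell_nest h0 h1 hp a5, ltpk_cell_nest h0 h1 hp a6⟩

/-! ## 2. information algebra -/

/-- `I(Z;W|D) ≤ I(V;W|D) + H(Z|V,D)` -/
theorem ltpk_mi_read {Ω : Type} [Fintype Ω] (P : FLaw Ω) {tZ tV tW tD : Type} (Z : Ω → tZ) (V : Ω → tV) (W : Ω → tW) (D : Ω → tD) :
    P.miC Z W D ≤ P.miC V W D + P.entC Z (pair V D) := by
  have s1 : P.miC W Z D ≤ P.miC W (pair Z V) D :=
    ent_miC_mono P W (pair Z V) Z D fun ω ω' _ _ h _ => congrArg Prod.fst h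
  have s2 := ent_miC_chain P W Z V D
  have s3 := ent_miC_le_right P W Z (pair V D)
  rw [ent_miC_comm P Z W D, ent_miC_comm P V W D]
  linarith

/-- `I(V;W|x,D) ≤ I(V;W|D) + H(x|V,D)` -/
theorem ltpk_mi_cond {Ω : Type} [Fintype Ω] (P : FLaw Ω) {tX tV tW tD : Type} (X : Ω → tX) (V : Ω → tV) (W : Ω → tW) (D : Ω → tD) :
    P.miC V W (pair X D) ≤ P.miC V W D + P.entC X (pair V D) := by
  have s1 := ent_miC_chain P W V X D
  have s2 := ent_miC_chain P W X V D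
  have s3 := ent_miC_le_right P W X (pair V D)
  have s4 := ent_miC_nonneg P W X D
  have s5 : P.miC W (pair V X) D = P.miC W (pair X V) D := by
    refine le_antisymm ?_ ?_
    · exact ent_miC_mono P W (pair X V) (pair V X) D fun ω ω' _ _ h _ => by
        simp only [FLaw.pair, Prod.mk.injEq] at h ⊢
        exact ⟨h.2, h.1⟩
    · exact ent_miC_mono P W (pair V X) (pair X V) D fun ω ω' _ _ h _ => by
        simp only [FLaw.pair, Prod.mk.injEq] at h ⊢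
        exact ⟨h.2, h.1⟩
  rw [ent_miC_comm P V W (pair X D), ent_miC_comm P V W D]
  linarith

/-! ## 3. sizes under `Hyp`, `Sm` -/

section sizes

variable {Ω : Type} [Fintype Ω] {T : LtData Ω}

theorem ltpk_ell_pos (T : LtData Ω) (h0 : 0 < T.δ) (h1 : T.δ < 1) : 0 < T.ℓ := by
  unfold LtData.ℓ lg
  exact Real.log_pos (by rw [one_div]; exact (one_lt_inv₀ h0).2 h1)

/-- `log (δ^(-e)) = e ℓ` -/
theorem ltpk_log_rpow (T : LtData Ω) (h0 : 0 < T.δ) (e : ℝ) : Real.log (T.δ ^ (-e)) = e * T.ℓ := by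
  unfold LtData.ℓ lg
  rw [Real.log_rpow h0, one_div, Real.log_inv]
  ring

/-- `K⁴ ≤ 2^kn` -/
theorem ltpk_K4 (T : LtData Ω) (h0 : 0 < T.δ) (τ : ℝ) : (T.δ ^ (-τ)) ^ 4 ≤ (2 : ℝ) ^ (tlev T.δ (4 * τ)) := by
  have h := ig_pow_lev_ge T.δ (4 * τ) h0
  have e : T.δ ^ (-(4 * τ)) = (T.δ ^ (-τ)) ^ 4 := by
    rw [← Real.rpow_natCast, ← Real.rpow_mul h0.le]
    congr 1
    push_cast
    ring
  rwa [e] at h

/-- `2^kn ≤ 2 K⁴` -/
theorem ltpk_K4' (T : LtData Ω) (h0 : 0 < T.δ) (h1 : T.δ < 1) {τ : ℝ} (hτ : 0 ≤ τ) :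
    (2 : ℝ) ^ (tlev T.δ (4 * τ)) ≤ 2 * (T.δ ^ (-τ)) ^ 4 := by
  have h := ig_pow_lev_le T.δ (4 * τ) h0 h1 (by linarith)
  have e : T.δ ^ (-(4 * τ)) = (T.δ ^ (-τ)) ^ 4 := by
    rw [← Real.rpow_natCast, ← Real.rpow_mul h0.le]
    congr 1
    push_cast
    ring
  rwa [e] at h

/-- the frozen coefficients are bounded by `3K` -/
theorem ltpk_frz_bd {d g τ χ ε ζ : ℝ} {Q : Finset ℝ} {M : ℝ → ℝ} {G : Ω → Prop} (H : T.Hyp d g τ χ ε Q M G) (S : T.Sm τ χ ε ζ)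
    {x : Ω × Ω} (hx : T.P2.p x ≠ 0) : (T.frz ε x).Bd (3 * T.δ ^ (-τ)) := by
  obtain ⟨s1, s2, -⟩ := ltl_supp T x hx
  obtain ⟨⟨bX, -, bP, -, -, -⟩, bβ, bκ, bm⟩ := H.size x.1 s1
  obtain ⟨⟨bX', -, -, -, -, -⟩, -, -, -⟩ := H.size x.2 s2
  have hK := S.big
  have bθ := (bm 0).1
  have bg : |T.gap x| ≤ 2 * T.δ ^ (-τ) := by
    unfold LtData.gap
    exact (abs_sub _ _).trans (by linarith)
  refine ⟨?_, ?_, ?_, ?_, ?_, ?_⟩
  · exact (ltpk_trep_abs _ _ _).trans (by linarith)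
  · exact (ltpk_trep_abs _ _ _).trans (by linarith)
  · exact (ltpk_trep_abs _ _ _).trans (by linarith)
  · exact (ltpk_trep_abs _ _ _).trans (by linarith)
  · exact (ltpk_trep_abs _ _ _).trans (by linarith)
  · exact (ltpk_trep_abs _ _ _).trans (by linarith)

/-- `log 2 ≤ χ ℓ`, more precisely `100 log 1000 ≤ χ ℓ` -/
theorem ltpk_chi_ell {τ χ ε ζ : ℝ} (S : T.Sm τ χ ε ζ) (h0 : 0 < T.δ) (h1 : T.δ < 1) : 100 * Real.log 1000 ≤ χ * T.ℓ := by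
  have hℓ := ltpk_ell_pos T h0 h1
  have a1 : Real.log 1000 ≤ τ * T.ℓ := by
    rw [← ltpk_log_rpow T h0 τ]
    exact Real.log_le_log (by norm_num) S.big
  have a2 : 100 * τ * T.ℓ ≤ χ * T.ℓ := mul_le_mul_of_nonneg_right S.τχ hℓ.le
  linarith

/-- powers of `K = δ^(-τ)` are `≤ δ^(-5χ)` -/
theorem ltpk_Kpow_le {τ χ ε ζ : ℝ} (S : T.Sm τ χ ε ζ) (h0 : 0 < T.δ) (h1 : T.δ < 1) {n : ℕ} (hn : n ≤ 500) :
    (T.δ ^ (-τ)) ^ n ≤ T.δ ^ (-(5 * χ)) := by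
  rw [← Real.rpow_natCast, ← Real.rpow_mul h0.le]
  refine Real.rpow_le_rpow_of_exponent_ge h0 h1.le ?_
  have a1 : (n : ℝ) ≤ 500 := by exact_mod_cast hn
  have a2 := S.τpos
  have a3 := S.τχ
  nlinarith

/-- entropy of a reading without exceptional event, lists of size `≤ δ^(-5χ)` -/
theorem ltpk_read0 {τ χ ε ζ : ℝ} (S : T.Sm τ χ ε ζ) (h0 : 0 < T.δ) (h1 : T.δ < 1) {tA tB : Type} (A : Ω × Ω → tA) (B : Ω × Ω → tB)
    {N : ℝ} (hN : N ≤ T.δ ^ (-(5 * χ))) (h : T.P2.NVal (fun _ => True) B A N) : T.P2.entC B A ≤ T.er χ ζ := by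
  have hℓ := ltpk_ell_pos T h0 h1
  have a1 := ent_entC_le_log_nval T.P2 B A (ltk_nval_mono T.P2 h (fun _ h => h) (fun _ _ h => h) ⟨id, fun _ => rfl⟩ hN)
  rw [ltpk_log_rpow T h0] at a1
  have a4 : 0 ≤ ζ * T.ℓ := mul_nonneg S.ζ0 hℓ.le
  unfold LtData.er
  nlinarith

/-- entropy of a reading: lists `≤ δ^(-4χ)`, at most `δ^(-100)` values, exceptional event of mass `≤ ζ` -/
theorem ltpk_read {τ χ ε ζ : ℝ} (S : T.Sm τ χ ε ζ) (h0 : 0 < T.δ) (h1 : T.δ < 1) {tA tB : Type} (A : Ω × Ω → tA) (B : Ω × Ω → tB)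
    (Gd : Ω × Ω → Prop) (hG : T.P2.pr (fun x => ¬ Gd x) ≤ ζ) (h : T.P2.NVal Gd B A (T.δ ^ (-(4 * χ))))
    (hM : ∃ U : Finset tB, (U.card : ℝ) ≤ T.δ ^ (-(100 : ℝ)) ∧ ∀ x, T.P2.p x ≠ 0 → B x ∈ U) : T.P2.entC B A ≤ T.er χ ζ := by
  have hℓ := ltpk_ell_pos T h0 h1
  have hχ : 0 ≤ χ := by
    have := S.τpos
    have := S.τχ
    linarith
  have hN : 1 ≤ T.δ ^ (-(4 * χ)) := Real.one_le_rpow_of_pos_of_le_one_of_nonpos h0 h1.le (by linarith)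
  have a1 := ent_ambiguity T.P2 A B (fun x => ¬ Gd x) hN
    (ltk_nval_mono T.P2 h (fun _ h => not_not.1 h) (fun _ _ h => h) ⟨id, fun _ => rfl⟩ le_rfl) hM hG
  rw [ltpk_log_rpow T h0, ltpk_log_rpow T h0] at a1
  have a2 := ltpk_chi_ell S h0 h1
  have a3 : Real.log 2 ≤ Real.log 1000 := Real.log_le_log (by norm_num) (by norm_num)
  have a4 : (0 : ℝ) ≤ Real.log 1000 := Real.log_nonneg (by norm_num)
  unfold LtData.er
  nlinarith

/-! ## 4. forms and their cells -/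

/-- the class of the forms that are used: Lipschitz with the constant of `ltg_lip` -/
def LtLip (f : Frz → Ph → ℝ) : Prop :=
  ∀ (c : Frz) (F F' : Ph) (K R : ℝ), 1 ≤ K → c.Bd K → F.Near F' R → |f c F' - f c F| ≤ 10 * K ^ 3 * R

theorem ltpk_lip_H : LtLip Frz.fH := fun _ _ _ _ _ hK hc h => (ltg_lip hK hc h).1
theorem ltpk_lip_L : LtLip Frz.fL := fun _ _ _ _ _ hK hc h => (ltg_lip hK hc h).2.2.2.1
theorem ltpk_lip_J' : LtLip Frz.fJ' := fun _ _ _ _ _ hK hc h => (ltg_lip hK hc h).2.2.2.2.1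
theorem ltpk_lip_K' : LtLip Frz.fK' := fun _ _ _ _ _ hK hc h => (ltg_lip hK hc h).2.2.2.2.2.1
theorem ltpk_lip_x : LtLip Frz.fx := fun _ _ _ _ _ hK hc h => (ltg_lip hK hc h).2.2.2.2.2.2.1
theorem ltpk_lip_y : LtLip Frz.fy := fun _ _ _ _ _ hK hc h => (ltg_lip hK hc h).2.2.2.2.2.2.2.1
theorem ltpk_lip_w : LtLip Frz.fw := fun _ _ _ _ _ hK hc h => (ltg_lip hK hc h).2.2.2.2.2.2.2.2

/-- two samples with the same phase cell at depth `p` and the same frozen form: the values of the form are `270 K³ 2^(-n_p)` close -/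
theorem ltpk_form_close {d g τ χ ε ζ : ℝ} {Q : Finset ℝ} {M : ℝ → ℝ} {G : Ω → Prop} (H : T.Hyp d g τ χ ε Q M G) (S : T.Sm τ χ ε ζ)
    {f : Frz → Ph → ℝ} (hf : LtLip f) {p : ℝ} {x x' : Ω × Ω} (hx : T.P2.p x ≠ 0) (hF : T.Fb2 p x = T.Fb2 p x')
    (hc : ∀ F, f (T.frz ε x) F = f (T.frz ε x') F) :
    |f (T.frz ε x) (T.F x.1) - f (T.frz ε x') (T.F x'.1)| ≤ 270 * (T.δ ^ (-τ)) ^ 3 * (1 / 2 ^ (tlev T.δ p)) := by
  have hK := S.big
  have h1 := hf (T.frz ε x) (T.F x'.1) (T.F x.1) (3 * T.δ ^ (-τ)) _ (by linarith) (ltpk_frz_bd H S hx)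
    (ltpk_ph_near (δ := T.δ) (p := p) hF.symm)
  rw [← hc (T.F x'.1)]
  refine h1.trans (le_of_eq ?_)
  ring

/-- the label `A` fixes the phase cell at depth `p` and the frozen form: it reads the cell of the form at depth `v` -/
theorem ltpk_form_read {d g τ χ ε ζ : ℝ} {Q : Finset ℝ} {M : ℝ → ℝ} {G : Ω → Prop} (H : T.Hyp d g τ χ ε Q M G) (S : T.Sm τ χ ε ζ)
    {f : Frz → Ph → ℝ} (hf : LtLip f) (p v : ℝ) {tA : Type} (A : Ω × Ω → tA) (hA1 : ∀ x x', A x = A x' → T.Fb2 p x = T.Fb2 p x')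
    (hA2 : ∀ x x', A x = A x' → ∀ F, f (T.frz ε x) F = f (T.frz ε x') F) :
    T.P2.NVal (fun _ => True) (T.c2 v (fun x => f (T.frz ε x) (T.F x.1))) A
      (270 * (T.δ ^ (-τ)) ^ 3 * (1 / 2 ^ (tlev T.δ p)) * 2 ^ (tlev T.δ v) + 2) := by
  have hK := S.big
  exact ltk_nval_close T.P2 (fun _ => True) A (fun x => f (T.frz ε x) (T.F x.1)) (tlev T.δ v) (by positivity)
    (fun x x' hx _ _ _ hA => ltpk_form_close H S hf hx (hA1 x x' hA) (hA2 x x' hA))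

/-! ## 5. which labels fix which frozen coefficients -/

theorem ltpk_frz_XP (T : LtData Ω) (h0 : 0 < T.δ) (h1 : T.δ < 1) {ε q : ℝ} (hq : ε ≤ q) {x x' : Ω × Ω} (h : T.Fb2 q x = T.Fb2 q x') :
    (T.frz ε x).X = (T.frz ε x').X ∧ (T.frz ε x).P = (T.frz ε x').P := by
  have h2 : (T.F x.1).cell T.δ ε = (T.F x'.1).cell T.δ ε := ltpk_ph_nest h0 h1 hq h
  unfold Ph.cell at h2
  simp only [Prod.mk.injEq] at h2
  exact ⟨ltpk_trep_congr h2.1, ltpk_trep_congr h2.2.2.1⟩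

theorem ltpk_frz_Om0 (T : LtData Ω) {ε : ℝ} {x x' : Ω × Ω} (h : T.Om0 ε x = T.Om0 ε x') :
    (T.frz ε x).β = (T.frz ε x').β ∧ (T.frz ε x).κ = (T.frz ε x').κ :=
  ⟨ltpk_trep_congr (congrArg Prod.fst h), ltpk_trep_congr (congrArg Prod.snd h)⟩

theorem ltpk_frz_OmT (T : LtData Ω) {ε : ℝ} {x x' : Ω × Ω} (h : T.OmT ε x = T.OmT ε x') :
    (T.frz ε x).β = (T.frz ε x').β ∧ (T.frz ε x).κ = (T.frz ε x').κ ∧ (T.frz ε x).θ = (T.frz ε x').θ :=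
  ⟨(ltpk_frz_Om0 T (congrArg Prod.fst h)).1, (ltpk_frz_Om0 T (congrArg Prod.fst h)).2,
    ltpk_trep_congr (congrArg (fun w => w.2.1.1) h)⟩

theorem ltpk_frz_Om (T : LtData Ω) {ε : ℝ} {x x' : Ω × Ω} (h : T.Om ε x = T.Om ε x') :
    (T.frz ε x).β = (T.frz ε x').β ∧ (T.frz ε x).κ = (T.frz ε x').κ ∧ (T.frz ε x).θ = (T.frz ε x').θ ∧
      (T.frz ε x).A = (T.frz ε x').A :=
  ⟨(ltpk_frz_OmT T (congrArg Prod.fst h)).1, (ltpk_frz_OmT T (congrArg Prod.fst h)).2.1,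
    (ltpk_frz_OmT T (congrArg Prod.fst h)).2.2, ltpk_trep_congr (congrArg Prod.snd h)⟩

theorem ltpk_dep_H {c c' : Frz} (hX : c.X = c'.X) (F : Ph) : c.fH F = c'.fH F := by
  simp only [Frz.fH, hX]

theorem ltpk_dep_K' {c c' : Frz} (hX : c.X = c'.X) (hP : c.P = c'.P) (hβ : c.β = c'.β) (F : Ph) : c.fK' F = c'.fK' F := by
  simp only [Frz.fK', Frz.fK, Frz.fH, hX, hP, hβ]

theorem ltpk_dep_J' {c c' : Frz} (hX : c.X = c'.X) (hP : c.P = c'.P) (hκ : c.κ = c'.κ) (F : Ph) : c.fJ' F = c'.fJ' F := by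
  simp only [Frz.fJ', Frz.fJ, Frz.fH, hX, hP, hκ]

theorem ltpk_dep_L {c c' : Frz} (hβ : c.β = c'.β) (hκ : c.κ = c'.κ) (F : Ph) : c.fL F = c'.fL F := by
  simp only [Frz.fL, hβ, hκ]

theorem ltpk_dep_x {c c' : Frz} (hX : c.X = c'.X) (hP : c.P = c'.P) (hβ : c.β = c'.β) (hκ : c.κ = c'.κ) (hθ : c.θ = c'.θ) (F : Ph) :
    c.fx F = c'.fx F := by
  simp only [Frz.fx, ltpk_dep_K' hX hP hβ F, ltpk_dep_J' hX hP hκ F, hθ]

theorem ltpk_dep_y {c c' : Frz} (hX : c.X = c'.X) (hP : c.P = c'.P) (hβ : c.β = c'.β) (hκ : c.κ = c'.κ) (hA : c.A = c'.A) (F : Ph) :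
    c.fy F = c'.fy F := by
  simp only [Frz.fy, ltpk_dep_L hβ hκ F, ltpk_dep_J' hX hP hκ F, hA]

theorem ltpk_dep_w {c c' : Frz} (hθ : c.θ = c'.θ) (F : Ph) : c.fw F = c'.fw F := by
  simp only [Frz.fw, hθ]

end sizes

end Claimed.Agent.R256
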