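import Claimed.Agent.R256.LT.BoostB

/-!
# Row 256, unit LT, file 2: BOOST-E = the projection step on ONE DOUBLE LAYER, in expected-entropy form      (architect helper46)

PAPER-FREE.  Replaces Prop. names:projection-rule + linear prefix rates (04 l.1085-1530) wherever the paper says
"residual rate `≥ β`, slopes Frostman `γ`  ⟹  rate of the projection `≥ min(1, β+γ)`"  (06 l.216-290; 05 int:boost).
No random rates, no linear layers, no Lebesgue points: the only regularity is ONE number, the DEFECT (a conditional mutual information).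

SETTING (`Bst`).  One finite law `P`, scale `ρ`, `L = log 1/ρ`, `n₁ = tlev ρ 1` (dyadic level of `ρ`).  Parent data `D`; point name `Z`, with real coordinates
`a b` (functions of `(Z,D)`); record `W` with slope `u` (function of `(W,D)`); all reals in `[-1,1]`.  Projection `a + u b`, tested at the scale `ρ²`.
  `u0`  = left end of the `ρ`-cell of `u`;     `y = a + u0 b`;     `parent = (D, ρ-cell of u, ρ-cell of y)`   (the TUBE);
  `par = (u - u0) 2^n₁ ∈ [0,1)`;     `tgt = (a + u b - left end of the cell of y) 2^n₁ ∈ [-1,2]`;     `T1` = `ρ`-cell of `tgt`  (= `ρ²`-cell of the projection).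
HYPOTHESES (`Bst.Hyp β γ κ N`), tolerance `κ`:
  `info`    `I(Z;W|D) ≤ κ L`;
  `slope`   `sur(par_d | parent) ≥ (γ d - κ) L` off probability `κ`, `d` in the mesh `{k/N}`;
  `resid`   `sur(b_d | W, parent) ≥ (β d - κ) L` off probability `κ`;
  `defect`  `H(T1 | W, parent) - H(T1 | b_1, W, parent) ≤ κ L`.
CONCLUSION (`ltb_boost`)   `H(T1 | W, parent) ≥ (min(1,β+γ) - η) L`.

PROOF from `R255.rt_chain` (Rate/Chains.lean; = `RW.ex_W1` in the dress "slice, source, target, parameter").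
 0. `ltb_chain_unif`: `κ₀, N₀` of `rt_chain` uniform for `σ ∈ [0, min(1,β+γ) - η/2]` (trivial slice `Sl = Unit`, `a0 = 0`, `A = 2`): `ChainData.Hyp` is monotone
    (`|σ-σ'| + κ ≤ κ'`), finite subcover of the interval as in the proof of `RW.ex_W2`.
 1. `ltb_class`: if the conclusion fails, `{sur(T1|W,parent) < (m-η/2)L}` has mass `> η/2` (`ltk_ent_ge`); `ltk_info_tail` with the defect:
    `sur(T1|b_1,W,parent) ≥ sur(T1|W,parent) - κ₀L/2` off mass `η/4`; pigeonhole the class `σ = k κ₀/2` of `sur(T1|W,parent)/L`: event of mass `≥ η κ₀/12`.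
 2. remove the bad events of `slope`, `resid` (`(N+1)` each) : `κ ≤ η κ₀/(100 (N+1))`.
 3. `ltb_parent`: choose one value `e` of `parent` with `P(H|e) ≥ h/2` and `P(i(Z;W|parent) > κ₀ L | e) ≤ h/8`
    (`I(Z;W|parent) ≤ I(Z;W|D)`: chain rule twice, `ltb_info_parent`; `ltk_info_tail`).
 4. `ltb_dict`: `ChainData` at `e`: `Pt = Set.range Z`, `Lb = Set.range W`, `π p θ = P(Z=p, W=θ | e)`, `src = b`, `par`, `tgt` as above (junk values: `a = ȳ`, `b = 0`, `u = u0`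
    for points / labels that do not occur with `e`), `tr = 0`, `rel` exact.  All fields of `Hyp` are the surprise inequalities at the pairs of `H`.
-/

set_option autoImplicit false

namespace Claimed.Agent.R256

open scoped BigOperators
open Classical
open Claimed.Agent.R255
open Claimed.Agent.R255.FLaw

/-- the data of one double layer -/
structure Bst (Ω : Type) [Fintype Ω] where
  P : FLaw Ω
  ρ : ℝ
  tD : Type
  tW : Type
  tZ : Type
  D : Ω → tD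
  W : Ω → tW
  Z : Ω → tZ
  a : Ω → ℝ
  b : Ω → ℝ
  u : Ω → ℝ

namespace Bst

variable {Ω : Type} [Fintype Ω] (B : Bst Ω)

/-- `L = log (1/ρ)` -/
noncomputable def L : ℝ := lg B.ρ

/-- left end of the `ρ`-cell of the slope -/
noncomputable def u0 (ω : Ω) : ℝ := trep B.ρ 1 (B.u ω)

/-- the projection in the direction `u0` -/
noncomputable def y (ω : Ω) : ℝ := B.a ω + B.u0 ω * B.b ω

/-- the tube -/
noncomputable def parent (ω : Ω) : B.tD × ℤ × ℤ := (B.D ω, tcell B.ρ 1 (B.u ω), tcell B.ρ 1 (B.y ω))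

/-- rescaled slope -/
noncomputable def par (ω : Ω) : ℝ := (B.u ω - B.u0 ω) * 2 ^ (tlev B.ρ 1)

/-- rescaled projection -/
noncomputable def tgt (ω : Ω) : ℝ := (B.a ω + B.u ω * B.b ω - trep B.ρ 1 (B.y ω)) * 2 ^ (tlev B.ρ 1)

/-- the fine cell of the projection -/
noncomputable def T1 (ω : Ω) : ℤ := bbin B.ρ 1 (B.tgt ω)

/-- prefix of the rescaled slope -/
noncomputable def parb (d : ℝ) (ω : Ω) : ℤ := bbin B.ρ d (B.par ω)

/-- prefix of the residual coordinate -/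
noncomputable def bb (d : ℝ) (ω : Ω) : ℤ := bbin B.ρ d (B.b ω)

/-- record and tube -/
noncomputable def WP (ω : Ω) : B.tW × (B.tD × ℤ × ℤ) := (B.W ω, B.parent ω)

/-- the hypotheses of BOOST-E -/
structure Hyp (β γ κ : ℝ) (N : ℕ) : Prop where
  ρpos : 0 < B.ρ
  ρlt : B.ρ < 1
  bdd : ∀ ω, B.P.p ω ≠ 0 → |B.a ω| ≤ 1 ∧ |B.b ω| ≤ 1 ∧ |B.u ω| ≤ 1
  detZ : ∀ ω ω', B.Z ω = B.Z ω' → B.D ω = B.D ω' → B.a ω = B.a ω' ∧ B.b ω = B.b ω'
  detW : ∀ ω ω', B.W ω = B.W ω' → B.D ω = B.D ω' → B.u ω = B.u ω'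
  info : B.P.miC B.Z B.W B.D ≤ κ * B.L
  slope : ∀ d ∈ mesh N, B.P.pr (fun ω => B.P.surC (B.parb d) B.parent ω < (γ * d - κ) * B.L) ≤ κ
  resid : ∀ d ∈ mesh N, B.P.pr (fun ω => B.P.surC (B.bb d) B.WP ω < (β * d - κ) * B.L) ≤ κ
  defect : B.P.entC B.T1 B.WP - B.P.entC B.T1 (pair (B.bb 1) B.WP) ≤ κ * B.L

end Bst

/-! ## geometry of the tube (helper170) -/

/-- the rescaled position inside a dyadic cell -/
theorem ltb_frac (ρ v : ℝ) : 0 ≤ (v - trep ρ 1 v) * 2 ^ (tlev ρ 1) ∧ (v - trep ρ 1 v) * 2 ^ (tlev ρ 1) ≤ 1 := by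
  have hp : (0 : ℝ) < 2 ^ (tlev ρ 1) := by positivity
  have e : (v - trep ρ 1 v) * 2 ^ (tlev ρ 1) = v * 2 ^ (tlev ρ 1) - (⌊v * 2 ^ (tlev ρ 1)⌋ : ℝ) := by
    unfold trep tcell
    field_simp
  rw [e]
  exact ⟨by linarith [Int.floor_le (v * 2 ^ (tlev ρ 1))], by linarith [Int.lt_floor_add_one (v * 2 ^ (tlev ρ 1))]⟩

/-- the representative only depends on the cell -/
theorem ltb_trep_congr {ρ v v' : ℝ} (h : tcell ρ 1 v = tcell ρ 1 v') : trep ρ 1 v = trep ρ 1 v' := by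
  unfold trep
  rw [h]

/-- target = position in the tube + parameter * source -/
theorem ltb_tgt_eq {Ω : Type} [Fintype Ω] (B : Bst Ω) (ω : Ω) :
    B.tgt ω = (B.y ω - trep B.ρ 1 (B.y ω)) * 2 ^ (tlev B.ρ 1) + B.par ω * B.b ω := by
  obtain ⟨t, ht⟩ : ∃ t, t = trep B.ρ 1 (B.y ω) := ⟨_, rfl⟩
  have hy : B.y ω = B.a ω + B.u0 ω * B.b ω := rfl
  unfold Bst.tgt Bst.par
  rw [← ht, hy]
  ring

/-- `I(Z;W|tube) ≤ I(Z;W|D)`: the tube is a rectangle in `(Z, W)` given `D` -/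
theorem ltb_info_parent {Ω : Type} [Fintype Ω] (B : Bst Ω)
    (detZ : ∀ ω ω', B.Z ω = B.Z ω' → B.D ω = B.D ω' → B.a ω = B.a ω' ∧ B.b ω = B.b ω')
    (detW : ∀ ω ω', B.W ω = B.W ω' → B.D ω = B.D ω' → B.u ω = B.u ω') :
    B.P.miC B.Z B.W B.parent ≤ B.P.miC B.Z B.W B.D := by
  have s1 : B.P.miC B.Z B.W (pair (fun ω => tcell B.ρ 1 (B.u ω)) B.D) ≤ B.P.miC B.Z B.W B.D :=
    ltb_miC_refine B.P B.Z B.W B.D (fun ω => tcell B.ρ 1 (B.u ω)) (fun ω ω' hW hD => by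
      show tcell B.ρ 1 (B.u ω) = tcell B.ρ 1 (B.u ω')
      rw [detW ω ω' hW hD])
  have s2 : B.P.miC B.W B.Z (pair (fun ω => tcell B.ρ 1 (B.y ω)) (pair (fun ω => tcell B.ρ 1 (B.u ω)) B.D))
      ≤ B.P.miC B.W B.Z (pair (fun ω => tcell B.ρ 1 (B.u ω)) B.D) :=
    ltb_miC_refine B.P B.W B.Z (pair (fun ω => tcell B.ρ 1 (B.u ω)) B.D) (fun ω => tcell B.ρ 1 (B.y ω))
      (fun ω ω' hZ hc => by
        have hu : tcell B.ρ 1 (B.u ω) = tcell B.ρ 1 (B.u ω') := congrArg Prod.fst hc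
        have hD : B.D ω = B.D ω' := congrArg Prod.snd hc
        obtain ⟨ha, hb⟩ := detZ ω ω' hZ hD
        have hy : B.y ω = B.y ω' := by
          unfold Bst.y Bst.u0
          rw [ha, hb, ltb_trep_congr hu]
        show tcell B.ρ 1 (B.y ω) = tcell B.ρ 1 (B.y ω')
        rw [hy])
  have s3 : B.P.miC B.Z B.W B.parent
      = B.P.miC B.Z B.W (pair (fun ω => tcell B.ρ 1 (B.y ω)) (pair (fun ω => tcell B.ρ 1 (B.u ω)) B.D)) :=
    ltb_miC_congr B.P B.Z B.W _ _ (fun ω ω' => by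
      simp only [Bst.parent, FLaw.pair, Prod.mk.injEq]
      tauto)
  rw [s3, ent_miC_comm]
  refine s2.trans ?_
  rw [ent_miC_comm]
  exact s1

/-- **BOOST-E** -/
theorem ltb_boost (β γ η : ℝ) (hβ : 0 < β) (hγ : 0 < γ) (hη : 0 < η) :
    ∃ N : ℕ, 0 < N ∧ ∃ κ : ℝ, 0 < κ ∧ ∃ ρ₀ : ℝ, 0 < ρ₀ ∧
      ∀ (Ω : Type) [Fintype Ω] (B : Bst Ω), B.ρ < ρ₀ → B.Hyp β γ κ N →
        (min 1 (β + γ) - η) * B.L ≤ B.P.entC B.T1 B.WP := by
  obtain ⟨N, hN, κ, hκ, ρ₀, hρ₀, hcore⟩ := ltb_core β γ η hβ hγ hη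
  refine ⟨N, hN, κ, hκ, ρ₀, hρ₀, ?_⟩
  intro Ω _ B hρ hy
  have hT : B.T1 = fun ω => bbin B.ρ 1 ((B.y ω - trep B.ρ 1 (B.y ω)) * 2 ^ (tlev B.ρ 1) + B.par ω * B.b ω) :=
    funext fun ω => by
      unfold Bst.T1
      rw [ltb_tgt_eq]
  have hdef := hy.defect
  rw [hT] at hdef ⊢
  refine hcore Ω B.P B.tZ B.tW (B.tD × ℤ × ℤ) B.Z B.W B.parent B.b
    (fun ω => (B.y ω - trep B.ρ 1 (B.y ω)) * 2 ^ (tlev B.ρ 1)) B.par B.ρ hy.ρpos hy.ρlt hρ ?_ ?_ ?_
    ((ltb_info_parent B hy.detZ hy.detW).trans hy.info) hy.slope hy.resid hdef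
  · intro ω ω' _ _ hP hZ
    have hD : B.D ω = B.D ω' := congrArg Prod.fst hP
    have hu : tcell B.ρ 1 (B.u ω) = tcell B.ρ 1 (B.u ω') := congrArg (fun z => z.2.1) hP
    obtain ⟨ha, hb⟩ := hy.detZ ω ω' hZ hD
    have hyy : B.y ω = B.y ω' := by
      unfold Bst.y Bst.u0
      rw [ha, hb, ltb_trep_congr hu]
    refine ⟨hb, ?_⟩
    show (B.y ω - trep B.ρ 1 (B.y ω)) * 2 ^ (tlev B.ρ 1) = (B.y ω' - trep B.ρ 1 (B.y ω')) * 2 ^ (tlev B.ρ 1)
    rw [hyy]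
  · intro ω ω' _ _ hP hW
    have hD : B.D ω = B.D ω' := congrArg Prod.fst hP
    have hu := hy.detW ω ω' hW hD
    unfold Bst.par Bst.u0
    rw [hu]
  · intro ω hω
    exact ⟨(hy.bdd ω hω).2.1, (ltb_frac B.ρ (B.y ω)).1, (ltb_frac B.ρ (B.y ω)).2,
      (ltb_frac B.ρ (B.u ω)).1, (ltb_frac B.ρ (B.u ω)).2⟩

end Claimed.Agent.R256
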