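import Claimed.Agent.R256.LT.Sum
import Claimed.Agent.R256.LT.Boost
import Claimed.Agent.R256.LT.AppKit

/-!
# Row 256, unit LT, file 8: the two applications of BOOST-E on a double layer `[q, q+2z]`      (architect helper46)

`T.mkB ε τ q z fa fb sl D : Bst (Ω × Ω)`:  law `P2`, scale `ρ = δ^z` (`L = z ℓ`, `tlev ρ 1 = tlev δ z`), record `W = Ω`, parent label `D`;
  `kn = tlev δ (4τ)` (`2^kn ∈ [K⁴, 2K⁴)`, `K = δ^(-τ)`), `nq = tlev δ q`, `lv = 2 tlev ρ 1 + 3`;   `c = frz ε x`, `F̄ = (F x.1).rep δ q` (left ends of the parent cell);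
  exact source `αex = (fa c F - fa c F̄) 2^nq / 2^(2kn)`, `βex = (fb c F - fb c F̄) 2^nq / 2^kn`;   `a, b` = roundings at the level `lv`, `Z` = their integer names;   `u = sl / 2^kn`.
  So `a + u b = (fa + sl fb)(c; F - F̄) 2^(nq - 2kn) + O(2^-lv)`.
* `B1` (06 l.216-226):  `(fa,fb,sl) = (fK', fJ', θ̄_0)`, projection `fx`;  `D = (C, F_q, Om0)`.       Slopes: time marks, Frostman `d` by `time`;  residual `J'`, rate `d` by (L-res).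
* `B2` (06 l.227-290):  `(fa,fb,sl) = (fJ', fL, -Ā/2)`, projection `fy`;  `D = ((C, F_q, OmT), x_{q+2z})`.   Slopes: `A = X_F - X_R`, Frostman `g'` on the WINDOW `[z,2z]` of the profile `M`;  residual `L`, rate `d`.
Dictionary of depths: `T1` = cell of the projection at the level `nq - 2kn + 2 tlev δ z`, i.e. depth `q+2z` up to a factor `≤ 8·2^(2kn) ≤ K^9`; the tube = depth `q+z` up to the same factor;
`bb dm` = cell of `fb` at depth `q + dm z` up to `4·2^kn`;  `parb dm` = cell of `sl` at depth `z + dm z` up to `4·2^kn`.  All comparisons are readings with lists `≤ δ^(-4χ)`.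

LEAVES, for `i = 1, 2`:  `ltp?_str` (structure), `ltp?_info`, `ltp?_slope`, `ltp?_resid`, `ltp?_defect`, `ltp?_concl`.   GLUE: `ltp_x`, `ltp_y`.
Plans.
 slope:  `ltk_transfer` with `T = parb dm`, `Y = parent`, `U` = cell of the slope variable at the mesh depth `vU = ⌊(z + dm z) ns⌋/ns`,
   B1: `Y' = (Zs x.1, θ_0-cell at depth z)`, `sur(U|Y') ≥ (d (vU - z) - τ) ℓ` (`time`, `ltl_fst_surC`);
   B2: `Y' = (x.1, X_R-cell at depth z)`, `sur(U|Y') = sur_P(X_vU|C,S_0)(x.2) - sur_P(X_z|C,S_0)(x.2)` (`ltl_post_surC`, nested cells), `sur_P(X_v|C,S_0) = (M v ± 2τ) ℓ ± t` (`prof`, `stat`, `ltk_lp`, `ltk_info_tail`), window.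
 resid:  `ltk_transfer` with `T = bb dm`, `Y = WP`, `Y' = Yr ε q`, `U` = `θ̃`-cell at the mesh depth `⌊(q + dm z) ns⌋/ns`  (MOT: `Yr` reads `F_q`, the tube, `x_{q+2z}`; `(bb dm, F_q, Yr)` reads `U` up to `δ^(-3χ) K^c`);
   then `ltk_info_tail` (budget `hb`) removes `(X_{F,6}, Ω)` from the conditioning, `ltl_snd_surC` + `time`.
 info:   `Z` is read from `(F_{q+3z}, D)`;  B2: eq. (act:child-cmi) of the paper.
 defect, concl: entropy algebra in the header of `Main.lean` / docstrings.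
-/

set_option autoImplicit false

namespace Claimed.Agent.R256

open scoped BigOperators
open Classical Finset
open Claimed.Agent.R255
open Claimed.Agent.R255.FLaw

/-- rounding to the dyadic level `lv` -/
noncomputable def ltRnd (lv : ℕ) (t : ℝ) : ℝ := (⌊t * 2 ^ lv⌋ : ℝ) / 2 ^ lv

/-- left ends of the six cells -/
noncomputable def Ph.rep (δ p : ℝ) (F : Ph) : Ph :=
  ⟨trep δ p F.X, trep δ p F.B, trep δ p F.P, trep δ p F.Y, trep δ p F.N, trep δ p F.D⟩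

namespace LtData

variable {Ω : Type} [Fintype Ω] (T : LtData Ω)

/-- exact normalised source coordinate (`j = 2` for `a`, `j = 1` for `b`) -/
noncomputable def srcEx (ε τ q : ℝ) (j : ℕ) (f : Frz → Ph → ℝ) (x : Ω × Ω) : ℝ :=
  (f (T.frz ε x) (T.F x.1) - f (T.frz ε x) ((T.F x.1).rep T.δ q)) * 2 ^ (tlev T.δ q) / 2 ^ (j * tlev T.δ (4 * τ))

/-- the rounding level -/
noncomputable def lvl (z : ℝ) : ℕ := 2 * tlev (T.δ ^ z) 1 + 3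

/-- the common constructor -/
noncomputable def mkB (ε τ q z : ℝ) (fa fb : Frz → Ph → ℝ) (sl : Ω × Ω → ℝ) {tD : Type} (D : Ω × Ω → tD) : Bst (Ω × Ω) where
  P := T.P2
  ρ := T.δ ^ z
  tD := tD
  tW := ((ℤ × ℤ) × (ℤ × ℤ) × (ℤ × ℤ)) × ℤ
  tZ := ℤ × ℤ
  D := D
  W := T.Om ε
  Z := fun x => (⌊T.srcEx ε τ q 2 fa x * 2 ^ (T.lvl z)⌋, ⌊T.srcEx ε τ q 1 fb x * 2 ^ (T.lvl z)⌋)
  a := fun x => ltRnd (T.lvl z) (T.srcEx ε τ q 2 fa x)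
  b := fun x => ltRnd (T.lvl z) (T.srcEx ε τ q 1 fb x)
  u := fun x => sl x / 2 ^ (tlev T.δ (4 * τ))

/-- first application: `x = K' + θ̄_0 J'` -/
noncomputable def B1 (ε τ q z : ℝ) : Bst (Ω × Ω) :=
  T.mkB ε τ q z Frz.fK' Frz.fJ' (fun x => (T.frz ε x).θ) (fun x => (T.C x.1, T.Fb2 q x, T.Om0 ε x))

/-- second application: `y = J' - (Ā/2) L`, conditioned on `x` at child accuracy -/
noncomputable def B2 (ε τ q z : ℝ) : Bst (Ω × Ω) :=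
  T.mkB ε τ q z Frz.fJ' Frz.fL (fun x => - (T.frz ε x).A / 2)
    (fun x => ((T.C x.1, T.Fb2 q x, T.OmT ε x), T.c2 (q + 2 * z) (T.vx ε) x))

/-- `φ_x(b,a) = H(x_b | E_a)` -/
noncomputable def φx (ε b a : ℝ) : ℝ := T.P2.entC (T.c2 b (T.vx ε)) (T.E ε a)

/-- `φ_xy(b,a) = H((x,y)_b | E_a)` -/
noncomputable def φxy (ε b a : ℝ) : ℝ := T.P2.entC (pair (T.c2 b (T.vx ε)) (T.c2 b (T.vy ε))) (T.E ε a)

/-- time budget of the layer `[q,v]` -/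
noncomputable def bud2 (ε q v : ℝ) : ℝ :=
  T.P2.miC (T.c2 v T.θR) (pair (T.Xb2 6) (T.Om ε)) (pair (fun x => T.Zs x.2) (T.c2 q T.θR))

/-- smallness of the errors relative to the layer length `z` and the tolerance `κ` of BOOST-E -/
structure Sz (κ z ε χ ζ : ℝ) (ns : ℕ) : Prop where
  κpos : 0 < κ
  κ1 : κ ≤ 1
  zpos : 0 < z
  z8 : 8 * z ≤ ε
  grid : 10 ≤ κ * z * ns
  χz : 1000 * χ ≤ κ ^ 2 * z
  ζz : 2000 * ζ ≤ κ ^ 2 * z
  dl : T.δ ^ (κ * z / 100) ≤ κ / 100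
  big2 : 1000 ≤ κ ^ 2 * (z * T.ℓ)

end LtData

variable {Ω : Type} [Fintype Ω] {T : LtData Ω}

/-- LEAF P0.  `lg (δ^z) = z ℓ`, `tlev (δ^z) d = tlev δ (d z)`. -/
theorem ltp_scale (T : LtData Ω) (h0 : 0 < T.δ) (z d : ℝ) : lg (T.δ ^ z) = z * T.ℓ ∧ tlev (T.δ ^ z) d = tlev T.δ (d * z) := by
  have e : Real.log (1 / T.δ ^ z) = z * Real.log (1 / T.δ) := by
    rw [one_div, one_div, Real.log_inv, Real.log_inv, Real.log_rpow h0]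
    ring
  refine ⟨e, ?_⟩
  unfold tlev Real.logb
  rw [e]
  congr 1
  ring

/-! ## Auxiliary lemmas on the common constructor (helper170) -/

/-- rounding keeps `[-1,1]` -/
theorem ltp_rnd_abs (lv : ℕ) {t : ℝ} (ht : |t| ≤ 1) : |ltRnd lv t| ≤ 1 := by
  unfold ltRnd
  have hp : (0 : ℝ) < 2 ^ lv := by positivity
  rw [abs_le] at ht ⊢
  constructor
  · rw [le_div_iff₀ hp]
    have h1 : (-(2 ^ lv : ℤ)) ≤ ⌊t * 2 ^ lv⌋ := Int.le_floor.2 (by push_cast; nlinarith)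
    have h2 : ((-(2 ^ lv : ℤ) : ℤ) : ℝ) ≤ (⌊t * 2 ^ lv⌋ : ℝ) := by exact_mod_cast h1
    push_cast at h2
    linarith
  · rw [div_le_iff₀ hp]
    have := Int.floor_le (t * 2 ^ lv)
    nlinarith

/-- a phase is near the left ends of its cell -/
theorem ltp_rep_near (δ p : ℝ) (F : Ph) : (F.rep δ p).Near F (1 / 2 ^ (tlev δ p)) := by
  unfold Ph.rep
  refine ⟨?_, ?_, ?_, ?_, ?_, ?_⟩ <;> (rw [abs_sub_comm]; exact ltpk_trep_near _ _ _)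

/-- the exact normalised sources are bounded by `1` -/
theorem ltp_src_abs {d g τ χ ε ζ : ℝ} {Q : Finset ℝ} {M : ℝ → ℝ} {G : Ω → Prop} (H : T.Hyp d g τ χ ε Q M G) (S : T.Sm τ χ ε ζ)
    (q : ℝ) {f : Frz → Ph → ℝ} (hf : LtLip f) {j : ℕ} (hj : 1 ≤ j) {x : Ω × Ω} (hx : T.P2.p x ≠ 0) :
    |T.srcEx ε τ q j f x| ≤ 1 := by
  have hK := S.big
  obtain ⟨K, hKd⟩ : ∃ K, K = T.δ ^ (-τ) := ⟨_, rfl⟩
  rw [← hKd] at hK
  have hc := ltpk_frz_bd H S hx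
  rw [← hKd] at hc
  have h1 := hf (T.frz ε x) _ _ (3 * K) _ (by linarith) hc (ltp_rep_near T.δ q (T.F x.1))
  have h4 := ltpk_K4 T H.δpos τ
  rw [← hKd] at h4
  have hp : (0 : ℝ) < 2 ^ (tlev T.δ q) := by positivity
  have h5 : (2 : ℝ) ^ (tlev T.δ (4 * τ)) ≤ 2 ^ (j * tlev T.δ (4 * τ)) :=
    pow_le_pow_right₀ (by norm_num) (Nat.le_mul_of_pos_left _ hj)
  have hpk : (0 : ℝ) < 2 ^ (j * tlev T.δ (4 * τ)) := by positivity
  unfold LtData.srcEx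
  rw [abs_div, abs_mul, abs_of_pos hp, abs_of_pos hpk, div_le_one hpk]
  have h6 : |f (T.frz ε x) (T.F x.1) - f (T.frz ε x) ((T.F x.1).rep T.δ q)| * 2 ^ (tlev T.δ q) ≤ 10 * (3 * K) ^ 3 := by
    calc _ ≤ 10 * (3 * K) ^ 3 * (1 / 2 ^ (tlev T.δ q)) * 2 ^ (tlev T.δ q) := mul_le_mul_of_nonneg_right h1 hp.le
      _ = 10 * (3 * K) ^ 3 := by field_simp
  have h7 : 10 * (3 * K) ^ 3 ≤ K ^ 4 := by
    have : 0 ≤ K ^ 3 := by positivity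
    nlinarith
  linarith

/-- the structure of the common constructor -/
theorem ltp_mk_str {d g τ χ ε ζ : ℝ} {Q : Finset ℝ} {M : ℝ → ℝ} {G : Ω → Prop} (H : T.Hyp d g τ χ ε Q M G) (S : T.Sm τ χ ε ζ)
    {q z : ℝ} (hz : 0 < z) {fa fb : Frz → Ph → ℝ} (hfa : LtLip fa) (hfb : LtLip fb) (sl : Ω × Ω → ℝ) {tD : Type} (D : Ω × Ω → tD)
    (hsl : ∀ x, T.P2.p x ≠ 0 → |sl x| ≤ 3 * T.δ ^ (-τ)) (hW : ∀ x x', T.Om ε x = T.Om ε x' → sl x = sl x') :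
    0 < (T.mkB ε τ q z fa fb sl D).ρ ∧ (T.mkB ε τ q z fa fb sl D).ρ < 1 ∧
    (∀ x, (T.mkB ε τ q z fa fb sl D).P.p x ≠ 0 → |(T.mkB ε τ q z fa fb sl D).a x| ≤ 1 ∧
      |(T.mkB ε τ q z fa fb sl D).b x| ≤ 1 ∧ |(T.mkB ε τ q z fa fb sl D).u x| ≤ 1) ∧
    (∀ x x', (T.mkB ε τ q z fa fb sl D).Z x = (T.mkB ε τ q z fa fb sl D).Z x' →
      (T.mkB ε τ q z fa fb sl D).D x = (T.mkB ε τ q z fa fb sl D).D x' →
      (T.mkB ε τ q z fa fb sl D).a x = (T.mkB ε τ q z fa fb sl D).a x' ∧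
      (T.mkB ε τ q z fa fb sl D).b x = (T.mkB ε τ q z fa fb sl D).b x') ∧
    (∀ x x', (T.mkB ε τ q z fa fb sl D).W x = (T.mkB ε τ q z fa fb sl D).W x' →
      (T.mkB ε τ q z fa fb sl D).D x = (T.mkB ε τ q z fa fb sl D).D x' →
      (T.mkB ε τ q z fa fb sl D).u x = (T.mkB ε τ q z fa fb sl D).u x') := by
  refine ⟨Real.rpow_pos_of_pos H.δpos z, Real.rpow_lt_one H.δpos.le H.δlt hz, ?_, ?_, ?_⟩
  · intro x hx
    refine ⟨ltp_rnd_abs _ (ltp_src_abs H S q hfa (by norm_num) hx), ltp_rnd_abs _ (ltp_src_abs H S q hfb le_rfl hx), ?_⟩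
    show |sl x / 2 ^ (tlev T.δ (4 * τ))| ≤ 1
    have hK := S.big
    have h4 := ltpk_K4 T H.δpos τ
    have h5 := hsl x hx
    have hpk : (0 : ℝ) < 2 ^ (tlev T.δ (4 * τ)) := by positivity
    rw [abs_div, abs_of_pos hpk, div_le_one hpk]
    obtain ⟨K, hKd⟩ : ∃ K, K = T.δ ^ (-τ) := ⟨_, rfl⟩
    rw [← hKd] at hK h4 h5
    have h8 : (3 : ℝ) ≤ K ^ 3 := le_trans (by norm_num) (pow_le_pow_left₀ (by norm_num) hK 3)
    have h7 : 3 * K ≤ K ^ 4 := by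
      have e : K ^ 4 = K ^ 3 * K := by ring
      rw [e]
      exact mul_le_mul_of_nonneg_right h8 (by linarith)
    linarith
  · intro x x' hZ _
    have h1 : ⌊T.srcEx ε τ q 2 fa x * 2 ^ (T.lvl z)⌋ = ⌊T.srcEx ε τ q 2 fa x' * 2 ^ (T.lvl z)⌋ := congrArg Prod.fst hZ
    have h2 : ⌊T.srcEx ε τ q 1 fb x * 2 ^ (T.lvl z)⌋ = ⌊T.srcEx ε τ q 1 fb x' * 2 ^ (T.lvl z)⌋ := congrArg Prod.snd hZ
    constructor
    · show ltRnd (T.lvl z) (T.srcEx ε τ q 2 fa x) = ltRnd (T.lvl z) (T.srcEx ε τ q 2 fa x')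
      unfold ltRnd
      rw [h1]
    · show ltRnd (T.lvl z) (T.srcEx ε τ q 1 fb x) = ltRnd (T.lvl z) (T.srcEx ε τ q 1 fb x')
      unfold ltRnd
      rw [h2]
  · intro x x' hWx _
    show sl x / 2 ^ (tlev T.δ (4 * τ)) = sl x' / 2 ^ (tlev T.δ (4 * τ))
    rw [hW x x' hWx]

theorem ltp_rep_congr {δ p : ℝ} {F F' : Ph} (h : F.cell δ p = F'.cell δ p) : F.rep δ p = F'.rep δ p := by
  unfold Ph.cell at h
  simp only [Prod.mk.injEq] at h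
  obtain ⟨a1, a2, a3, a4, a5, a6⟩ := h
  unfold Ph.rep
  rw [ltpk_trep_congr a1, ltpk_trep_congr a2, ltpk_trep_congr a3, ltpk_trep_congr a4, ltpk_trep_congr a5, ltpk_trep_congr a6]

/-- the rounded source is read from the phase cell at depth `q + 3z` -/
theorem ltp_src_read {d g τ χ ε ζ : ℝ} {Q : Finset ℝ} {M : ℝ → ℝ} {G : Ω → Prop} (H : T.Hyp d g τ χ ε Q M G) (S : T.Sm τ χ ε ζ)
    {q z : ℝ} (hz : 0 ≤ z) (hq : ε ≤ q) {f : Frz → Ph → ℝ} (hf : LtLip f) {j : ℕ} (hj : 1 ≤ j) {tA : Type} (A : Ω × Ω → tA)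
    (hA1 : ∀ x x', A x = A x' → T.Fb2 (q + 3 * z) x = T.Fb2 (q + 3 * z) x')
    (hA2 : ∀ x x', A x = A x' → ∀ F, f (T.frz ε x) F = f (T.frz ε x') F) :
    T.P2.NVal (fun _ => True) (fun x => ⌊T.srcEx ε τ q j f x * 2 ^ (T.lvl z)⌋) A 11 := by
  have hq0 : 0 ≤ q := by
    have := S.τpos
    have := S.τχ
    have := S.χε
    linarith
  have hcl := ltk_nval_close T.P2 (fun _ => True) A (T.srcEx ε τ q j f) (T.lvl z) (R := 9 / 2 ^ (T.lvl z)) (by positivity)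
    (fun x x' hx hx' _ _ hA => ?_)
  · refine ltk_nval_mono T.P2 hcl (fun _ h => h) (fun _ _ h => h) ⟨id, fun _ => rfl⟩ (le_of_eq ?_)
    field_simp
    norm_num
  · have hFq : T.Fb2 q x = T.Fb2 q x' := ltpk_ph_nest H.δpos H.δlt (by linarith) (hA1 x x' hA)
    have hrep : (T.F x.1).rep T.δ q = (T.F x'.1).rep T.δ q := ltp_rep_congr hFq
    have h1 := ltpk_form_close H S hf hx (hA1 x x' hA) (hA2 x x' hA)
    have e : T.srcEx ε τ q j f x - T.srcEx ε τ q j f x'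
        = (f (T.frz ε x) (T.F x.1) - f (T.frz ε x') (T.F x'.1)) * 2 ^ (tlev T.δ q) / 2 ^ (j * tlev T.δ (4 * τ)) := by
      unfold LtData.srcEx
      rw [hrep, hA2 x x' hA ((T.F x'.1).rep T.δ q)]
      ring
    obtain ⟨A1, hA1d⟩ : ∃ A1, A1 = |f (T.frz ε x) (T.F x.1) - f (T.frz ε x') (T.F x'.1)| := ⟨_, rfl⟩
    obtain ⟨K, hKd⟩ : ∃ K, K = T.δ ^ (-τ) := ⟨_, rfl⟩
    have hK := S.big
    have h4 := ltpk_K4 T H.δpos τ
    rw [← hKd] at hK h4 h1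
    rw [← hA1d] at h1
    have hp1 : (0 : ℝ) < 2 ^ (tlev T.δ q) := by positivity
    have hp3 : (0 : ℝ) < 2 ^ (tlev T.δ (q + 3 * z)) := by positivity
    have hpL : (0 : ℝ) < 2 ^ (T.lvl z) := by positivity
    have hpk : (0 : ℝ) < 2 ^ (j * tlev T.δ (4 * τ)) := by positivity
    have h5 : (2 : ℝ) ^ (tlev T.δ (4 * τ)) ≤ 2 ^ (j * tlev T.δ (4 * τ)) :=
      pow_le_pow_right₀ (by norm_num) (Nat.le_mul_of_pos_left _ hj)
    have hlev : tlev T.δ q + T.lvl z ≤ tlev T.δ (q + 3 * z) + 5 := by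
      have l0 : tlev (T.δ ^ z) 1 = tlev T.δ z := by
        rw [(ltp_scale T H.δpos z 1).2, one_mul]
      have l1 := ltpk_lev_add T.δ q z H.δpos H.δlt hq0 hz
      have l2 := ltpk_lev_add T.δ (q + z) z H.δpos H.δlt (by linarith) hz
      have l3 := ig_lev_mono T.δ (q + z + z) (q + 3 * z) H.δpos H.δlt (by linarith)
      unfold LtData.lvl
      rw [l0]
      omega
    have hpow : (2 : ℝ) ^ (tlev T.δ q) * 2 ^ (T.lvl z) ≤ 32 * 2 ^ (tlev T.δ (q + 3 * z)) := by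
      rw [← pow_add]
      calc (2 : ℝ) ^ (tlev T.δ q + T.lvl z) ≤ 2 ^ (tlev T.δ (q + 3 * z) + 5) := pow_le_pow_right₀ (by norm_num) hlev
        _ = 32 * 2 ^ (tlev T.δ (q + 3 * z)) := by rw [pow_add]; ring
    have hA0 : 0 ≤ A1 := by rw [hA1d]; exact abs_nonneg _
    have h6 : A1 * 2 ^ (tlev T.δ (q + 3 * z)) ≤ 270 * K ^ 3 := by
      calc A1 * 2 ^ (tlev T.δ (q + 3 * z)) ≤ 270 * K ^ 3 * (1 / 2 ^ (tlev T.δ (q + 3 * z))) * 2 ^ (tlev T.δ (q + 3 * z)) :=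
            mul_le_mul_of_nonneg_right h1 hp3.le
        _ = 270 * K ^ 3 := by field_simp
    have h7 : A1 * (2 ^ (tlev T.δ q) * 2 ^ (T.lvl z)) ≤ 9 * K ^ 4 := by
      calc A1 * (2 ^ (tlev T.δ q) * 2 ^ (T.lvl z)) ≤ A1 * (32 * 2 ^ (tlev T.δ (q + 3 * z))) :=
            mul_le_mul_of_nonneg_left hpow hA0
        _ = 32 * (A1 * 2 ^ (tlev T.δ (q + 3 * z))) := by ring
        _ ≤ 32 * (270 * K ^ 3) := by linarith
        _ ≤ 9 * K ^ 4 := by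
            have : 0 ≤ K ^ 3 := by positivity
            nlinarith
    rw [e, abs_div, abs_mul, abs_of_pos hp1, abs_of_pos hpk, ← hA1d, div_le_div_iff₀ hpk hpL]
    calc A1 * 2 ^ (tlev T.δ q) * 2 ^ (T.lvl z) = A1 * (2 ^ (tlev T.δ q) * 2 ^ (T.lvl z)) := by ring
      _ ≤ 9 * K ^ 4 := h7
      _ ≤ 9 * 2 ^ (j * tlev T.δ (4 * τ)) := by linarith

/-- the name `Z` of the common constructor is read from the phase cell at depth `q + 3z` -/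
theorem ltp_Z_read {d g τ χ ε ζ : ℝ} {Q : Finset ℝ} {M : ℝ → ℝ} {G : Ω → Prop} (H : T.Hyp d g τ χ ε Q M G) (S : T.Sm τ χ ε ζ)
    {q z : ℝ} (hz : 0 ≤ z) (hq : ε ≤ q) {fa fb : Frz → Ph → ℝ} (hfa : LtLip fa) (hfb : LtLip fb) (sl : Ω × Ω → ℝ)
    {tD : Type} (D : Ω × Ω → tD)
    (hDa : ∀ x x', D x = D x' → ∀ F, fa (T.frz ε x) F = fa (T.frz ε x') F)
    (hDb : ∀ x x', D x = D x' → ∀ F, fb (T.frz ε x) F = fb (T.frz ε x') F) :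
    T.P2.entC (T.mkB ε τ q z fa fb sl D).Z (pair (T.Fb2 (q + 3 * z)) D) ≤ T.er χ ζ := by
  have r1 := ltp_src_read H S hz hq hfa (j := 2) (by norm_num) (pair (T.Fb2 (q + 3 * z)) D)
    (fun x x' h => congrArg Prod.fst h) (fun x x' h => hDa x x' (congrArg Prod.snd h))
  have r2 := ltp_src_read H S hz hq hfb (j := 1) le_rfl (pair (T.Fb2 (q + 3 * z)) D)
    (fun x x' h => congrArg Prod.fst h) (fun x x' h => hDb x x' (congrArg Prod.snd h))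
  have r2' := ltk_nval_mono T.P2 r2 (G' := fun _ => True)
    (A' := pair (fun x => ⌊T.srcEx ε τ q 2 fa x * 2 ^ (T.lvl z)⌋) (pair (T.Fb2 (q + 3 * z)) D))
    (fun _ h => h) (fun _ _ h => congrArg Prod.snd h) ⟨id, fun _ => rfl⟩ le_rfl
  have r3 := ltk_nval_comp T.P2 (fun _ => True) _ _ _ (by norm_num) r1 r2'
  have r4 := ltk_nval_mono T.P2 r3 (G' := fun _ => True) (A' := pair (T.Fb2 (q + 3 * z)) D)
    (B' := (T.mkB ε τ q z fa fb sl D).Z) (fun _ h => h) (fun _ _ h => h) ⟨fun w => (w.2, w.1), fun _ => rfl⟩ le_rfl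
  refine ltpk_read0 S H.δpos H.δlt _ _ ?_ r4
  have hK := S.big
  have h1 := ltpk_Kpow_le S H.δpos H.δlt (n := 1) (by norm_num)
  rw [pow_one] at h1
  linarith

/-! ## First application -/

/-- LEAF P1-str -/
theorem ltp1_str {d g τ χ ε ζ : ℝ} {Q : Finset ℝ} {M : ℝ → ℝ} {G : Ω → Prop} (H : T.Hyp d g τ χ ε Q M G) (S : T.Sm τ χ ε ζ)
    {q z : ℝ} (hz : 0 < z) (hq : ε ≤ q) :
    0 < (T.B1 ε τ q z).ρ ∧ (T.B1 ε τ q z).ρ < 1 ∧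
    (∀ x, (T.B1 ε τ q z).P.p x ≠ 0 → |(T.B1 ε τ q z).a x| ≤ 1 ∧ |(T.B1 ε τ q z).b x| ≤ 1 ∧ |(T.B1 ε τ q z).u x| ≤ 1) ∧
    (∀ x x', (T.B1 ε τ q z).Z x = (T.B1 ε τ q z).Z x' → (T.B1 ε τ q z).D x = (T.B1 ε τ q z).D x' →
      (T.B1 ε τ q z).a x = (T.B1 ε τ q z).a x' ∧ (T.B1 ε τ q z).b x = (T.B1 ε τ q z).b x') ∧
    (∀ x x', (T.B1 ε τ q z).W x = (T.B1 ε τ q z).W x' → (T.B1 ε τ q z).D x = (T.B1 ε τ q z).D x' →
      (T.B1 ε τ q z).u x = (T.B1 ε τ q z).u x') := by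
  refine ltp_mk_str H S hz ltpk_lip_K' ltpk_lip_J' _ _ (fun x hx => (ltpk_frz_bd H S hx).2.2.2.2.1) (fun x x' h => ?_)
  have h1 : tcell T.δ ε (T.θ 0 x.1) = tcell T.δ ε (T.θ 0 x'.1) := congrArg (fun w => w.1.2.1.1) h
  exact ltpk_trep_congr h1

/-- LEAF P1-info -/
theorem ltp1_info {d g τ χ ε ζ κ : ℝ} {Q : Finset ℝ} {M : ℝ → ℝ} {G : Ω → Prop} {ns : ℕ} (H : T.Hyp d g τ χ ε Q M G)
    (S : T.Sm τ χ ε ζ) (hG : T.P2.pr (fun x => ¬ T.G2 G χ x) ≤ ζ) {q z : ℝ} (Z : T.Sz κ z ε χ ζ ns) (hq : ε ≤ q) (hq3 : q + 3 * z ≤ 3) :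
    (T.B1 ε τ q z).P.miC (T.B1 ε τ q z).Z (T.B1 ε τ q z).W (T.B1 ε τ q z).D
      ≤ T.P2.miC (T.Fb2 (q + 3 * z)) (T.Om ε) (fun x => (T.C x.1, T.Fb2 q x, T.Om0 ε x)) + T.er χ ζ := by
  have h1 := ltpk_mi_read T.P2 (T.B1 ε τ q z).Z (T.Fb2 (q + 3 * z)) (T.Om ε) (fun x => (T.C x.1, T.Fb2 q x, T.Om0 ε x))
  have h2 := ltp_Z_read H S Z.zpos.le hq ltpk_lip_K' ltpk_lip_J' (fun x => (T.frz ε x).θ)
    (fun x => (T.C x.1, T.Fb2 q x, T.Om0 ε x))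
    (fun x x' h F => ltpk_dep_K' (ltpk_frz_XP T H.δpos H.δlt hq (congrArg (fun w => w.2.1) h)).1
      (ltpk_frz_XP T H.δpos H.δlt hq (congrArg (fun w => w.2.1) h)).2 (ltpk_frz_Om0 T (congrArg (fun w => w.2.2) h)).1 F)
    (fun x x' h F => ltpk_dep_J' (ltpk_frz_XP T H.δpos H.δlt hq (congrArg (fun w => w.2.1) h)).1
      (ltpk_frz_XP T H.δpos H.δlt hq (congrArg (fun w => w.2.1) h)).2 (ltpk_frz_Om0 T (congrArg (fun w => w.2.2) h)).2 F)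
  exact h1.trans (add_le_add le_rfl h2)

/-! ## the slopes (prefix `ltps_`) -/

/-- a determined label is read by lists of size one -/
theorem ltps_det {Ω' : Type} [Fintype Ω'] {α β : Type} (P : FLaw Ω') (G : Ω' → Prop) (B : Ω' → β) (A : Ω' → α)
    (h : ∀ ω ω', A ω = A ω' → B ω = B ω') : P.NVal G B A 1 := by
  intro ω₀
  exact ⟨{B ω₀}, by simp, fun ω _ _ hA => Finset.mem_singleton.2 (h ω ω₀ hA)⟩

/-- the two readings of the slope lemmas, for an abstract exact slope variable `s` and side label `Y0` -/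
theorem ltps_reads {Ω' : Type} [Fintype Ω'] (B : Bst Ω') {tY : Type} (Y0 : Ω' → tY) (s : Ω' → ℝ) {δ z ε Kc dm vU : ℝ}
    (h0 : 0 < δ) (h1 : δ < 1) (hz : 0 < z) (hρ : B.ρ = δ ^ z) (h2z : 2 * z ≤ ε) (hKc : 0 ≤ Kc)
    (hdet : ∀ x x', Y0 x = Y0 x' → B.D x = B.D x' ∧ B.a x = B.a x' ∧ B.b x = B.b x')
    (hs1 : ∀ x x', Y0 x = Y0 x' → |B.u x - B.u x'| ≤ |s x - s x'| + 2 * δ ^ ε)
    (hs2 : ∀ x x', Y0 x = Y0 x' → |s x - s x'| ≤ Kc * |B.u x - B.u x'| + 2 * δ ^ ε)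
    (hdm0 : 0 ≤ dm) (hdm1 : dm ≤ 1) (hvz : z ≤ vU) (hvU : vU ≤ z + dm * z) :
    B.P.NVal (fun _ => True) B.parent (pair Y0 (fun x => tcell δ z (s x))) 8 ∧
    B.P.NVal (fun _ => True) (fun x => tcell δ vU (s x)) (pair (B.parb dm) (pair Y0 (fun x => tcell δ z (s x))))
      (8 * (2 * (Kc + 2) + 2)) := by
  have hρ0 : 0 < B.ρ := by rw [hρ]; exact Real.rpow_pos_of_pos h0 z
  have hρ1 : B.ρ < 1 := by rw [hρ]; exact Real.rpow_lt_one h0.le h1 hz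
  obtain ⟨l1, l2⟩ := ltl_sp_lev hρ0 hρ1 (zero_le_one' ℝ)
  rw [Real.rpow_one] at l1 l2
  have hpow : (0 : ℝ) < 2 ^ (tlev B.ρ 1) := by positivity
  have hδz : 0 < δ ^ z := Real.rpow_pos_of_pos h0 z
  have hεz : δ ^ ε ≤ δ ^ z := ltlo_anti h0 h1 (by linarith)
  -- the cell of the slope
  have r0 : B.P.NVal (fun _ => True) (fun x => tcell B.ρ 1 (B.u x)) (pair Y0 (fun x => tcell δ z (s x))) 8 := by
    have h := ltk_nval_close B.P (fun _ => True) (pair Y0 (fun x => tcell δ z (s x))) B.u (tlev B.ρ 1) (R := 3 * δ ^ z) (by positivity)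
      (fun x x' _ _ _ _ hA => by
        have a1 : Y0 x = Y0 x' := congrArg Prod.fst hA
        have a2 : tcell δ z (s x) = tcell δ z (s x') := congrArg Prod.snd hA
        have a3 := ltlo_cell_close h0 h1 hz.le a2
        have a4 := hs1 x x' a1
        linarith)
    refine ltk_nval_mono B.P h (fun _ h => h) (fun _ _ h => h) ⟨id, fun _ => rfl⟩ ?_
    rw [← hρ]
    linarith
  constructor
  · have r1 : B.P.NVal (fun _ => True) B.parent (pair (fun x => tcell B.ρ 1 (B.u x)) (pair Y0 (fun x => tcell δ z (s x)))) 1 :=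
      ltps_det B.P _ _ _ fun x x' hA => by
        have a0 : tcell B.ρ 1 (B.u x) = tcell B.ρ 1 (B.u x') := congrArg Prod.fst hA
        have a1 : Y0 x = Y0 x' := congrArg (fun o => o.2.1) hA
        obtain ⟨d1, d2, d3⟩ := hdet x x' a1
        have hy : B.y x = B.y x' := by
          unfold Bst.y Bst.u0
          rw [d2, d3, ltb_trep_congr a0]
        unfold Bst.parent
        rw [d1, a0, hy]
    have r2 := ltk_nval_comp B.P _ _ _ _ zero_le_one r0 r1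
    exact ltk_nval_mono B.P r2 (fun _ h => h) (fun _ _ h => h) ⟨Prod.fst, fun _ => rfl⟩ (by norm_num)
  · have r0' : B.P.NVal (fun _ => True) (fun x => tcell B.ρ 1 (B.u x)) (pair (B.parb dm) (pair Y0 (fun x => tcell δ z (s x)))) 8 :=
      ltk_nval_mono B.P r0 (fun _ h => h) (fun _ _ h => congrArg Prod.snd h) ⟨id, fun _ => rfl⟩ le_rfl
    have hvU0 : 0 ≤ vU := hz.le.trans hvz
    obtain ⟨-, m2⟩ := ltl_sp_lev h0 h1 hvU0
    have hδv : 0 < δ ^ vU := Real.rpow_pos_of_pos h0 vU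
    have r1 : B.P.NVal (fun _ => True) (fun x => tcell δ vU (s x))
        (pair (fun x => tcell B.ρ 1 (B.u x)) (pair (B.parb dm) (pair Y0 (fun x => tcell δ z (s x))))) (2 * (Kc + 2) + 2) := by
      have h := ltk_nval_close B.P (fun _ => True)
        (pair (fun x => tcell B.ρ 1 (B.u x)) (pair (B.parb dm) (pair Y0 (fun x => tcell δ z (s x))))) s (tlev δ vU)
        (R := (Kc + 2) * δ ^ vU) (by positivity)
        (fun x x' _ _ _ _ hA => by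
          have a0 : tcell B.ρ 1 (B.u x) = tcell B.ρ 1 (B.u x') := congrArg Prod.fst hA
          have a1 : B.parb dm x = B.parb dm x' := congrArg (fun o => o.2.1) hA
          have a2 : Y0 x = Y0 x' := congrArg (fun o => o.2.2.1) hA
          have hpar : |B.par x - B.par x'| ≤ B.ρ ^ dm := by
            rcases hdm0.lt_or_eq with hpos | hzero
            · unfold Bst.parb bbin at a1
              rw [if_neg (not_le.2 hpos), if_neg (not_le.2 hpos)] at a1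
              exact ltlo_cell_close hρ0 hρ1 hdm0 a1
            · rw [← hzero, Real.rpow_zero]
              have b1 := ltb_frac B.ρ (B.u x)
              have b2 := ltb_frac B.ρ (B.u x')
              unfold Bst.par Bst.u0
              rw [abs_le]
              constructor <;> linarith [b1.1, b1.2, b2.1, b2.2]
          have e : B.par x - B.par x' = (B.u x - B.u x') * 2 ^ (tlev B.ρ 1) := by
            unfold Bst.par Bst.u0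
            rw [ltb_trep_congr a0]
            ring
          rw [e, abs_mul, abs_of_pos hpow] at hpar
          have hρdm : 0 < B.ρ ^ dm := Real.rpow_pos_of_pos hρ0 dm
          have hu : |B.u x - B.u x'| ≤ B.ρ ^ dm * B.ρ := by
            have c1 : |B.u x - B.u x'| * 2 ^ (tlev B.ρ 1) ≤ B.ρ ^ dm * B.ρ * 2 ^ (tlev B.ρ 1) := by
              calc |B.u x - B.u x'| * 2 ^ (tlev B.ρ 1) ≤ B.ρ ^ dm * 1 := by rw [mul_one]; exact hpar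
                _ ≤ B.ρ ^ dm * (B.ρ * 2 ^ (tlev B.ρ 1)) := mul_le_mul_of_nonneg_left l1 hρdm.le
                _ = _ := by ring
            exact le_of_mul_le_mul_right c1 hpow
          have hu2 : B.ρ ^ dm * B.ρ ≤ δ ^ vU := by
            rw [hρ, ← Real.rpow_mul h0.le, ← Real.rpow_add h0]
            exact ltlo_anti h0 h1 (by linarith)
          have hε2 : δ ^ ε ≤ δ ^ vU := ltlo_anti h0 h1 (by nlinarith)
          have a4 := hs2 x x' a2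
          have a5 : Kc * |B.u x - B.u x'| ≤ Kc * δ ^ vU := mul_le_mul_of_nonneg_left (hu.trans hu2) hKc
          linarith)
      refine ltk_nval_mono B.P h (fun _ h => h) (fun _ _ h => h) ⟨id, fun _ => rfl⟩ ?_
      have : (Kc + 2) * δ ^ vU * 2 ^ (tlev δ vU) = (Kc + 2) * (δ ^ vU * 2 ^ (tlev δ vU)) := by ring
      rw [this]
      have := mul_le_mul_of_nonneg_left m2 (by linarith : (0 : ℝ) ≤ Kc + 2)
      linarith
    have r2 := ltk_nval_comp B.P _ _ _ _ (by linarith : (0 : ℝ) ≤ 2 * (Kc + 2) + 2) r0' r1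
    exact ltk_nval_mono B.P r2 (fun _ h => h) (fun _ _ h => h) ⟨Prod.fst, fun _ => rfl⟩ le_rfl

/-- the transfer of the slope lemmas -/
theorem ltps_transfer {Ω' : Type} [Fintype Ω'] (B : Bst Ω') {tY : Type} (Y0 : Ω' → tY) (s : Ω' → ℝ) {δ z ε Kc dm vU : ℝ}
    (h0 : 0 < δ) (h1 : δ < 1) (hz : 0 < z) (hρ : B.ρ = δ ^ z) (h2z : 2 * z ≤ ε) (hKc : 0 ≤ Kc)
    (hdet : ∀ x x', Y0 x = Y0 x' → B.D x = B.D x' ∧ B.a x = B.a x' ∧ B.b x = B.b x')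
    (hs1 : ∀ x x', Y0 x = Y0 x' → |B.u x - B.u x'| ≤ |s x - s x'| + 2 * δ ^ ε)
    (hs2 : ∀ x x', Y0 x = Y0 x' → |s x - s x'| ≤ Kc * |B.u x - B.u x'| + 2 * δ ^ ε)
    (hdm0 : 0 ≤ dm) (hdm1 : dm ≤ 1) (hvz : z ≤ vU) (hvU : vU ≤ z + dm * z) (t : ℝ) :
    B.P.pr (fun x => B.P.surC (B.parb dm) B.parent x
      < B.P.surC (fun x => tcell δ vU (s x)) (pair Y0 (fun x => tcell δ z (s x))) x
        - Real.log 8 - Real.log (8 * (2 * (Kc + 2) + 2)) - 3 * t) ≤ 3 * Real.exp (-t) := by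
  obtain ⟨r1, r2⟩ := ltps_reads B Y0 s h0 h1 hz hρ h2z hKc hdet hs1 hs2 hdm0 hdm1 hvz hvU
  have h := ltk_transfer B.P (fun _ => True) (B.parb dm) (fun x => tcell δ vU (s x)) B.parent (pair Y0 (fun x => tcell δ z (s x)))
    (by norm_num : (0 : ℝ) < 8) (by linarith : (0 : ℝ) < 8 * (2 * (Kc + 2) + 2)) r1 r2 t
  refine le_trans (ent_pr_mono B.P fun x _ hx => ?_) h
  exact ⟨trivial, hx⟩

theorem ltps_lg {δ : ℝ} (h0 : 0 < δ) (z : ℝ) : lg (δ ^ z) = z * lg δ := by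
  unfold lg
  rw [one_div, Real.log_inv, Real.log_rpow h0, one_div, Real.log_inv]
  ring

/-- two representatives -/
theorem ltps_rep_two {δ ε : ℝ} (h0 : 0 < δ) (h1 : δ < 1) (hε : 0 ≤ ε) (v v' : ℝ) :
    |trep δ ε v - trep δ ε v'| ≤ |v - v'| + 2 * δ ^ ε ∧ |v - v'| ≤ |trep δ ε v - trep δ ε v'| + 2 * δ ^ ε := by
  have a1 := ltlo_rep_close h0 h1 hε v
  have a2 := ltlo_rep_close h0 h1 hε v'
  constructor
  · have e : trep δ ε v - trep δ ε v' = (v - v') - (v - trep δ ε v) + (v' - trep δ ε v') := by ring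
    rw [e]
    have := ltg_a2 (ltg_s2 (le_refl |v - v'|) a1) a2
    linarith
  · have e : v - v' = (trep δ ε v - trep δ ε v') + (v - trep δ ε v) - (v' - trep δ ε v') := by ring
    have := ltg_s2 (ltg_a2 (le_refl |trep δ ε v - trep δ ε v'|) a1) a2
    rw [← e] at this
    linarith

/-- the numerology common to the two slope lemmas -/
theorem ltps_num {d g τ χ ε ζ κ z : ℝ} {Q : Finset ℝ} {M : ℝ → ℝ} {G : Ω → Prop} {ns : ℕ} (H : T.Hyp d g τ χ ε Q M G)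
    (S : T.Sm τ χ ε ζ) (Z : T.Sz κ z ε χ ζ ns) :
    0 < T.ℓ ∧ 100000 * τ ≤ κ * z ∧ z ≤ 1 ∧ (0 : ℝ) < ns ∧ 1 / (ns : ℝ) ≤ κ * z / 10 ∧ Real.log 8 ≤ τ * T.ℓ ∧
      1 ≤ (2 : ℝ) ^ (tlev T.δ (4 * τ)) ∧ Real.log (8 * (2 * (2 * (2 : ℝ) ^ (tlev T.δ (4 * τ)) + 2) + 2)) ≤ 5 * τ * T.ℓ ∧
      Real.exp (-(κ * z * T.ℓ / 10)) ≤ κ / 100 := by
  have h0 := H.δpos
  have h1 := H.δlt
  have hτ := S.τpos
  have hb := S.big
  have hℓ : 0 < T.ℓ := ltlo_lg_pos h0 h1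
  have hκ := Z.κpos
  have hκ1 := Z.κ1
  have hz := Z.zpos
  have hz1 : z ≤ 1 := by linarith [Z.z8, S.ε1]
  have hκz : κ ^ 2 * z ≤ κ * z := by
    have : κ ^ 2 ≤ κ := by nlinarith
    exact mul_le_mul_of_nonneg_right this hz.le
  have hτz : 100000 * τ ≤ κ * z := by linarith [S.τχ, Z.χz]
  have hns : (0 : ℝ) < ns := by
    have := Z.grid
    by_contra hcon
    have h00 : (ns : ℝ) = 0 := le_antisymm (not_lt.1 hcon) (Nat.cast_nonneg _)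
    rw [h00] at this
    linarith
  obtain ⟨K, hKd⟩ : ∃ K, K = T.δ ^ (-τ) := ⟨_, rfl⟩
  rw [← hKd] at hb
  have hlogK : Real.log K = τ * T.ℓ := by rw [hKd]; exact ltlo_log h0 τ
  have hK0 : 0 < K := by linarith
  refine ⟨hℓ, hτz, hz1, hns, ?_, ?_, one_le_pow₀ (by norm_num), ?_, ?_⟩
  · rw [div_le_div_iff₀ hns (by norm_num)]
    linarith [Z.grid]
  · rw [← hlogK]
    exact Real.log_le_log (by norm_num) (by linarith)
  · obtain ⟨-, l2⟩ := ltl_sp_lev h0 h1 (by linarith : (0 : ℝ) ≤ 4 * τ)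
    have hp : 0 < T.δ ^ (4 * τ) := Real.rpow_pos_of_pos h0 _
    have e4 : T.δ ^ (4 * τ) * K ^ 4 = 1 := by
      rw [hKd, ltlo_Kpow h0, ← Real.rpow_add h0]
      norm_num
    have hkn : (2 : ℝ) ^ (tlev T.δ (4 * τ)) ≤ 2 * K ^ 4 := by
      have : T.δ ^ (4 * τ) * (2 : ℝ) ^ (tlev T.δ (4 * τ)) ≤ T.δ ^ (4 * τ) * (2 * K ^ 4) := by
        calc T.δ ^ (4 * τ) * (2 : ℝ) ^ (tlev T.δ (4 * τ)) ≤ 2 := l2
          _ = T.δ ^ (4 * τ) * (2 * K ^ 4) := by rw [mul_left_comm, e4, mul_one]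
      exact le_of_mul_le_mul_left this hp
    have e5 : 5 * τ * T.ℓ = Real.log (K ^ 5) := by rw [Real.log_pow, hlogK]; push_cast; ring
    rw [e5]
    refine Real.log_le_log (by positivity) ?_
    have hK4 : 1 ≤ K ^ 4 := one_le_pow₀ (by linarith)
    have : K ^ 5 = K * K ^ 4 := by ring
    rw [this]
    nlinarith
  · have e : Real.exp (-(κ * z * T.ℓ / 10)) = T.δ ^ (κ * z / 10) := by
      rw [rt_rpow_lg T.δ _ h0]
      congr 1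
      show -(κ * z * lg T.δ / 10) = -(κ * z / 10 * lg T.δ)
      ring
    rw [e]
    exact (ltlo_anti h0 h1 (by nlinarith [mul_pos hκ hz])).trans Z.dl

/-- the mesh depth below `z + dm z` -/
theorem ltps_mesh {z dm : ℝ} {ns m : ℕ} (hns : (0 : ℝ) < ns) (hm : z = (m : ℝ) / ns) (hz1 : z ≤ 1) (hdm0 : 0 ≤ dm) (hdm1 : dm ≤ 1) :
    ∃ k : ℕ, k ≤ m ∧ m + k ≤ 3 * ns ∧ m ≤ 3 * ns ∧ (k : ℝ) / ns ≤ dm * z ∧ dm * z - 1 / ns ≤ (k : ℝ) / ns := by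
  have hmn : (m : ℝ) ≤ ns := by
    rw [hm, div_le_one hns] at hz1
    exact hz1
  have hmn' : m ≤ ns := by exact_mod_cast hmn
  have hx0 : 0 ≤ dm * (m : ℝ) := by positivity
  refine ⟨⌊dm * (m : ℝ)⌋₊, ?_, ?_, by omega, ?_, ?_⟩
  · have : (⌊dm * (m : ℝ)⌋₊ : ℝ) ≤ m := (Nat.floor_le hx0).trans (by nlinarith [Nat.cast_nonneg (α := ℝ) m])
    exact_mod_cast this
  · have : (⌊dm * (m : ℝ)⌋₊ : ℝ) ≤ m := (Nat.floor_le hx0).trans (by nlinarith [Nat.cast_nonneg (α := ℝ) m])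
    have h2 : ⌊dm * (m : ℝ)⌋₊ ≤ m := by exact_mod_cast this
    omega
  · rw [hm, div_le_iff₀ hns]
    have := Nat.floor_le hx0
    have e : dm * ((m : ℝ) / ns) * ns = dm * m := by field_simp
    rw [e]
    exact this
  · rw [hm, ← mul_div_assoc, ← sub_div]
    exact div_le_div_of_nonneg_right (by linarith [Nat.lt_floor_add_one (dm * (m : ℝ))]) hns.le

/-- LEAF P1-slope -/
theorem ltp1_slope {d g τ χ ε ζ κ : ℝ} {Q : Finset ℝ} {M : ℝ → ℝ} {G : Ω → Prop} {ns : ℕ} (H : T.Hyp d g τ χ ε Q M G)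
    (S : T.Sm τ χ ε ζ) (hG : T.P2.pr (fun x => ¬ T.G2 G χ x) ≤ ζ) (hd : 0 < d) (hd1 : d ≤ 1) {q z : ℝ} (Z : T.Sz κ z ε χ ζ ns)
    (hq : ε ≤ q) (hq3 : q + 3 * z ≤ 3) (hQ : ∀ k : ℕ, k ≤ 3 * ns → (k : ℝ) / ns ∈ Q) (m : ℕ) (hm : z = (m : ℝ) / ns) (N : ℕ) :
    ∀ dm ∈ mesh N, (T.B1 ε τ q z).P.pr (fun x => (T.B1 ε τ q z).P.surC ((T.B1 ε τ q z).parb dm) (T.B1 ε τ q z).parent x
      < (d * dm - κ) * (T.B1 ε τ q z).L) ≤ κ := by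
  intro dm hdm
  obtain ⟨kk, hkN, hdmk⟩ := hdm
  have hdm0 : 0 ≤ dm := by rw [hdmk]; positivity
  have hdm1 : dm ≤ 1 := by
    rw [hdmk]
    exact div_le_one_of_le₀ (by exact_mod_cast hkN) (Nat.cast_nonneg _)
  have h0 := H.δpos
  have h1 := H.δlt
  have hε : 0 ≤ ε := by linarith [S.τpos, S.τχ, S.χε]
  obtain ⟨hℓ, hτz, hz1, hns, hgrid, hlog8, hkn1, hlogN, hexp⟩ := ltps_num H S Z
  obtain ⟨k, hkm, hk3, hm3, hk1, hk2⟩ := ltps_mesh hns hm hz1 hdm0 hdm1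
  obtain ⟨vU, hvU⟩ : ∃ vU : ℝ, vU = ((m + k : ℕ) : ℝ) / ns := ⟨_, rfl⟩
  have evU : vU = z + (k : ℝ) / ns := by rw [hvU, hm]; push_cast; ring
  have hzQ : z ∈ Q := by rw [hm]; exact hQ m hm3
  have hvQ : vU ∈ Q := by rw [hvU]; exact hQ _ hk3
  have hzv : z ≤ vU := by rw [evU]; have : (0 : ℝ) ≤ (k : ℝ) / ns := by positivity
                          linarith
  have hpow : (0 : ℝ) < 2 ^ (tlev T.δ (4 * τ)) := by positivity
  have htr := ltps_transfer (T.B1 ε τ q z) (fun x : Ω × Ω => T.Zs x.1) (fun x => T.θ 0 x.1) (ε := ε) (Kc := 2 * 2 ^ (tlev T.δ (4 * τ)))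
    (dm := dm) (vU := vU) h0 h1 Z.zpos rfl (by linarith [Z.z8, Z.zpos]) (by positivity)
    (fun x x' hY => by
      obtain ⟨s1, s2, s3, s4⟩ := H.side x.1 x'.1 hY
      have fa : ∀ F : Ph, (T.frz ε x).fK' F = (T.frz ε x').fK' F := by
        intro F
        simp only [Frz.fK', Frz.fK, Frz.fH, LtData.frz, s2, s3]
      have fb : ∀ F : Ph, (T.frz ε x).fJ' F = (T.frz ε x').fJ' F := by
        intro F
        simp only [Frz.fJ', Frz.fJ, Frz.fH, LtData.frz, s2, s4]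
      refine ⟨?_, ?_, ?_⟩
      · show (T.C x.1, T.Fb2 q x, T.Om0 ε x) = (T.C x'.1, T.Fb2 q x', T.Om0 ε x')
        unfold LtData.Fb2 LtData.Fb LtData.Om0
        rw [s1, s2, s3, s4]
      · show ltRnd (T.lvl z) (T.srcEx ε τ q 2 Frz.fK' x) = ltRnd (T.lvl z) (T.srcEx ε τ q 2 Frz.fK' x')
        unfold LtData.srcEx
        rw [fa, fa, s2]
      · show ltRnd (T.lvl z) (T.srcEx ε τ q 1 Frz.fJ' x) = ltRnd (T.lvl z) (T.srcEx ε τ q 1 Frz.fJ' x')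
        unfold LtData.srcEx
        rw [fb, fb, s2])
    (fun x x' _ => by
      show |trep T.δ ε (T.θ 0 x.1) / 2 ^ (tlev T.δ (4 * τ)) - trep T.δ ε (T.θ 0 x'.1) / 2 ^ (tlev T.δ (4 * τ))| ≤ _
      rw [← sub_div, abs_div, abs_of_pos hpow]
      exact (div_le_self (abs_nonneg _) hkn1).trans (ltps_rep_two h0 h1 hε _ _).1)
    (fun x x' _ => by
      show _ ≤ 2 * 2 ^ (tlev T.δ (4 * τ)) * |trep T.δ ε (T.θ 0 x.1) / 2 ^ (tlev T.δ (4 * τ)) - trep T.δ ε (T.θ 0 x'.1) / 2 ^ (tlev T.δ (4 * τ))| + _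
      rw [← sub_div, abs_div, abs_of_pos hpow]
      have e : 2 * 2 ^ (tlev T.δ (4 * τ)) * (|trep T.δ ε (T.θ 0 x.1) - trep T.δ ε (T.θ 0 x'.1)| / 2 ^ (tlev T.δ (4 * τ)))
          = 2 * |trep T.δ ε (T.θ 0 x.1) - trep T.δ ε (T.θ 0 x'.1)| := by field_simp
      rw [e]
      have := (ltps_rep_two h0 h1 hε (T.θ 0 x.1) (T.θ 0 x'.1)).2
      linarith [abs_nonneg (trep T.δ ε (T.θ 0 x.1) - trep T.δ ε (T.θ 0 x'.1))])
    hdm0 hdm1 hzv (by rw [evU]; linarith) (κ * z * T.ℓ / 10)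
  have htime := H.time z hzQ vU hvQ hzv
  rw [← ltl_fst_pr T] at htime
  have hL : (T.B1 ε τ q z).L = z * T.ℓ := ltps_lg h0 z
  rw [hL]
  have hor := ent_pr_or_le T.P2
    (fun x => (T.B1 ε τ q z).P.surC ((T.B1 ε τ q z).parb dm) (T.B1 ε τ q z).parent x
      < (T.B1 ε τ q z).P.surC (fun x => tcell T.δ vU (T.θ 0 x.1)) (pair (fun x : Ω × Ω => T.Zs x.1) (fun x => tcell T.δ z (T.θ 0 x.1))) x
        - Real.log 8 - Real.log (8 * (2 * (2 * 2 ^ (tlev T.δ (4 * τ)) + 2) + 2)) - 3 * (κ * z * T.ℓ / 10))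
    (fun x => T.P.surC (T.cb vU (T.θ 0)) (pair T.Zs (T.cb z (T.θ 0))) x.1 < (d * (vU - z) - τ) * T.ℓ)
  have hsub : (T.B1 ε τ q z).P.pr (fun x => (T.B1 ε τ q z).P.surC ((T.B1 ε τ q z).parb dm) (T.B1 ε τ q z).parent x
      < (d * dm - κ) * (z * T.ℓ)) ≤ T.P2.pr (fun x => (T.B1 ε τ q z).P.surC ((T.B1 ε τ q z).parb dm) (T.B1 ε τ q z).parent x
      < (T.B1 ε τ q z).P.surC (fun x => tcell T.δ vU (T.θ 0 x.1)) (pair (fun x : Ω × Ω => T.Zs x.1) (fun x => tcell T.δ z (T.θ 0 x.1))) x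
        - Real.log 8 - Real.log (8 * (2 * (2 * 2 ^ (tlev T.δ (4 * τ)) + 2) + 2)) - 3 * (κ * z * T.ℓ / 10) ∨
      T.P.surC (T.cb vU (T.θ 0)) (pair T.Zs (T.cb z (T.θ 0))) x.1 < (d * (vU - z) - τ) * T.ℓ) := by
    refine ent_pr_mono T.P2 fun x _ hx => ?_
    by_contra hno
    push Not at hno
    obtain ⟨n1, n2⟩ := hno
    have e1 : (T.B1 ε τ q z).P.surC (fun x => tcell T.δ vU (T.θ 0 x.1)) (pair (fun x : Ω × Ω => T.Zs x.1) (fun x => tcell T.δ z (T.θ 0 x.1))) x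
        = T.P.surC (T.cb vU (T.θ 0)) (pair T.Zs (T.cb z (T.θ 0))) x.1 :=
      ltl_fst_surC T (T.cb vU (T.θ 0)) (pair T.Zs (T.cb z (T.θ 0))) x
    rw [e1] at n1
    have c1 : d * dm * z - κ * z / 10 ≤ d * (vU - z) := by
      rw [evU, add_sub_cancel_left]
      have : d * (dm * z - 1 / ns) ≤ d * ((k : ℝ) / ns) := mul_le_mul_of_nonneg_left hk2 hd.le
      have h3 : d * (1 / (ns : ℝ)) ≤ 1 * (1 / (ns : ℝ)) := mul_le_mul_of_nonneg_right hd1 (by positivity)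
      nlinarith
    have c2 : (d * dm * z - κ * z / 10 - τ) * T.ℓ ≤ (d * (vU - z) - τ) * T.ℓ := mul_le_mul_of_nonneg_right (by linarith) hℓ.le
    have c3 : 7 * τ * T.ℓ ≤ 6 * (κ * z) / 10 * T.ℓ := mul_le_mul_of_nonneg_right (by linarith [S.τpos]) hℓ.le
    nlinarith
  have hfin : 3 * Real.exp (-(κ * z * T.ℓ / 10)) + τ ≤ κ := by
    have : κ * z ≤ κ := by nlinarith [Z.κpos]
    linarith [S.τpos]
  exact hsub.trans (hor.trans ((add_le_add htr htime).trans hfin))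

/- LEAF P1-resid: `ltp1_resid` is PROVED in `LT/AppRes.lean` (helper61). -/

/-! ## The dictionary `T1` / tube / `bb 1`  <->  cells of the projection form (helper32) -/

/-- the projection `a + u b` -/
def ltpPi {Ω : Type} [Fintype Ω] (B : Bst Ω) (ω : Ω) : ℝ := B.a ω + B.u ω * B.b ω

theorem ltpd_eqns_cite : True := by
  have := @ltpPi.eq_1
  trivial

theorem ltpd_y_near {Ω : Type} [Fintype Ω] (B : Bst Ω) (ω : Ω) (hb : |B.b ω| ≤ 1) :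
    |ltpPi B ω - B.y ω| ≤ 1 / 2 ^ (tlev B.ρ 1) := by
  have e : ltpPi B ω - B.y ω = (B.u ω - trep B.ρ 1 (B.u ω)) * B.b ω := by
    unfold ltpPi Bst.y Bst.u0
    ring
  rw [e, abs_mul]
  have h1 : |B.u ω - trep B.ρ 1 (B.u ω)| ≤ 1 / 2 ^ (tlev B.ρ 1) := ltpk_trep_near _ _ _
  calc |B.u ω - trep B.ρ 1 (B.u ω)| * |B.b ω| ≤ 1 / 2 ^ (tlev B.ρ 1) * 1 :=
        mul_le_mul h1 hb (abs_nonneg _) (by positivity)
    _ = 1 / 2 ^ (tlev B.ρ 1) := mul_one _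

/-- same tube: the projections are `3 ρ` close -/
theorem ltpd_pi_tube {Ω : Type} [Fintype Ω] (B : Bst Ω) {ω ω' : Ω} (hb : |B.b ω| ≤ 1) (hb' : |B.b ω'| ≤ 1)
    (h : tcell B.ρ 1 (B.y ω) = tcell B.ρ 1 (B.y ω')) : |ltpPi B ω - ltpPi B ω'| ≤ 3 / 2 ^ (tlev B.ρ 1) := by
  have h1 := ltpd_y_near B ω hb
  have h2 := ltpd_y_near B ω' hb'
  have h3 : |B.y ω - B.y ω'| ≤ 1 / 2 ^ (tlev B.ρ 1) := ltpk_cell_near h
  have e : ltpPi B ω - ltpPi B ω' = (ltpPi B ω - B.y ω) + (B.y ω - B.y ω') - (ltpPi B ω' - B.y ω') := by ring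
  rw [e]
  have t1 := abs_sub ((ltpPi B ω - B.y ω) + (B.y ω - B.y ω')) (ltpPi B ω' - B.y ω')
  have t2 := abs_add_le (ltpPi B ω - B.y ω) (B.y ω - B.y ω')
  have e3 : (3 : ℝ) / 2 ^ (tlev B.ρ 1) = 1 / 2 ^ (tlev B.ρ 1) + 1 / 2 ^ (tlev B.ρ 1) + 1 / 2 ^ (tlev B.ρ 1) := by ring
  rw [e3]
  linarith

theorem ltpd_tgt_sub {Ω : Type} [Fintype Ω] (B : Bst Ω) {ω ω' : Ω} (h : tcell B.ρ 1 (B.y ω) = tcell B.ρ 1 (B.y ω')) :
    B.tgt ω - B.tgt ω' = (ltpPi B ω - ltpPi B ω') * 2 ^ (tlev B.ρ 1) := by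
  unfold Bst.tgt ltpPi
  rw [ltpk_trep_congr h]
  ring

theorem ltpd_T1_eq {Ω : Type} [Fintype Ω] (B : Bst Ω) (ω : Ω) : B.T1 ω = ⌊B.tgt ω * 2 ^ (tlev B.ρ 1)⌋ := by
  unfold Bst.T1 bbin
  rw [if_neg (by norm_num)]
  rfl

theorem ltpd_bb_eq {Ω : Type} [Fintype Ω] (B : Bst Ω) (ω : Ω) : B.bb 1 ω = ⌊B.b ω * 2 ^ (tlev B.ρ 1)⌋ := by
  unfold Bst.bb bbin
  rw [if_neg (by norm_num)]
  rfl

/-- same tube, same fine cell: the projections are `ρ²` close -/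
theorem ltpd_pi_fine {Ω : Type} [Fintype Ω] (B : Bst Ω) {ω ω' : Ω} (h : tcell B.ρ 1 (B.y ω) = tcell B.ρ 1 (B.y ω'))
    (hT : B.T1 ω = B.T1 ω') : |ltpPi B ω - ltpPi B ω'| ≤ 1 / (2 ^ (tlev B.ρ 1) * 2 ^ (tlev B.ρ 1)) := by
  have hp : (0 : ℝ) < 2 ^ (tlev B.ρ 1) := by positivity
  rw [ltpd_T1_eq, ltpd_T1_eq] at hT
  have h1 : |B.tgt ω - B.tgt ω'| ≤ 1 / 2 ^ (tlev B.ρ 1) := ltpk_cell_near (δ := B.ρ) (p := 1) hT
  rw [ltpd_tgt_sub B h, abs_mul, abs_of_pos hp] at h1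
  rw [le_div_iff₀ (mul_pos hp hp), ← mul_assoc]
  rw [le_div_iff₀ hp] at h1
  exact h1

theorem ltpd_rnd_near (lv : ℕ) (t : ℝ) : |ltRnd lv t - t| ≤ 1 / 2 ^ lv := by
  have hp : (0 : ℝ) < 2 ^ lv := by positivity
  have e : ltRnd lv t - t = ((⌊t * 2 ^ lv⌋ : ℝ) - t * 2 ^ lv) / 2 ^ lv := by
    unfold ltRnd
    field_simp
  rw [e, abs_div, abs_of_pos hp]
  refine div_le_div_of_nonneg_right ?_ hp.le
  have h1 := Int.floor_le (t * 2 ^ lv)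
  have h2 := Int.lt_floor_add_one (t * 2 ^ lv)
  rw [abs_le]
  constructor <;> linarith

/-- entropy algebra, upper half -/
theorem ltpd_ent_up {Ω : Type} [Fintype Ω] (P : FLaw Ω) {t1 t2 t3 t4 t5 : Type} (T1 : Ω → t1) (WP : Ω → t2) (v1 : Ω → t3)
    (v2 : Ω → t4) (Yc : Ω → t5) (hdet : ∀ ω ω', WP ω = WP ω' → Yc ω = Yc ω') :
    P.entC T1 WP ≤ P.entC v2 (pair v1 Yc) + P.entC v1 WP + P.entC T1 (pair v2 WP) := by
  have s1 : P.entC T1 WP ≤ P.entC (pair v2 T1) WP :=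
    ent_entC_mono P (pair v2 T1) T1 WP fun ω ω' _ _ h _ => congrArg Prod.snd h
  have s2 := ent_entC_chain P v2 T1 WP
  have s3 : P.entC v2 WP ≤ P.entC (pair v1 v2) WP :=
    ent_entC_mono P (pair v1 v2) v2 WP fun ω ω' _ _ h _ => congrArg Prod.snd h
  have s4 := ent_entC_chain P v1 v2 WP
  have s5 : P.entC v2 (pair v1 WP) ≤ P.entC v2 (pair v1 Yc) :=
    ent_entC_anti P v2 _ _ fun ω ω' _ _ h => by
      have h1 : v1 ω = v1 ω' := congrArg Prod.fst h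
      have h2 : WP ω = WP ω' := congrArg Prod.snd h
      exact Prod.ext h1 (hdet _ _ h2)
  linarith

/-- entropy algebra, lower half -/
theorem ltpd_ent_lo {Ω : Type} [Fintype Ω] (P : FLaw Ω) {t1 t2 t3 t4 : Type} (T1 : Ω → t1) (V : Ω → t2) (v2 : Ω → t3)
    (Y1 : Ω → t4) : P.entC v2 Y1 ≤ P.entC T1 V + P.entC V Y1 + P.entC v2 (pair T1 V) := by
  have s1 : P.entC v2 Y1 ≤ P.entC (pair (pair V T1) v2) Y1 :=
    ent_entC_mono P (pair (pair V T1) v2) v2 Y1 fun ω ω' _ _ h _ => congrArg Prod.snd h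
  have s2 := ent_entC_chain P (pair V T1) v2 Y1
  have s3 := ent_entC_chain P V T1 Y1
  have s4 : P.entC T1 (pair V Y1) ≤ P.entC T1 V := ent_entC_pair_le P T1 V Y1
  have s5 : P.entC v2 (pair (pair V T1) Y1) ≤ P.entC v2 (pair T1 V) :=
    ent_entC_anti P v2 _ _ fun ω ω' _ _ h =>
      Prod.ext (congrArg (fun w => w.1.2) h) (congrArg (fun w => w.1.1) h)
  linarith

/-- nested labels: exact chain rule -/
theorem ltpd_ent_nest {Ω : Type} [Fintype Ω] (P : FLaw Ω) {t1 t2 t3 : Type} (v1 : Ω → t1) (v2 : Ω → t2) (Y : Ω → t3)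
    (hn : ∀ ω ω', v2 ω = v2 ω' → v1 ω = v1 ω') : P.entC v2 (pair v1 Y) = P.entC v2 Y - P.entC v1 Y := by
  have s1 := ent_entC_chain P v1 v2 Y
  have s2 : P.entC (pair v1 v2) Y = P.entC v2 Y :=
    ent_entC_congr P _ _ _ _ (fun _ _ _ _ => Iff.rfl)
      (fun ω ω' _ _ _ => ⟨fun h => congrArg Prod.snd h, fun h => Prod.ext (hn ω ω' h) h⟩)
  linarith

/-- a metric reading with a list of size `≤ K⁹` costs at most `er` -/
theorem ltpd_close {τ χ ε ζ : ℝ} (S : T.Sm τ χ ε ζ) (h0 : 0 < T.δ) (h1 : T.δ < 1) {tA : Type} (A : Ω × Ω → tA) (v : Ω × Ω → ℝ)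
    (n : ℕ) {R : ℝ} (hR : 0 ≤ R) (h : ∀ x x', T.P2.p x ≠ 0 → T.P2.p x' ≠ 0 → A x = A x' → |v x - v x'| ≤ R)
    (hN : R * 2 ^ n + 2 ≤ (T.δ ^ (-τ)) ^ 9) : T.P2.entC (fun x => ⌊v x * 2 ^ n⌋) A ≤ T.er χ ζ :=
  ltpk_read0 S h0 h1 A _ (hN.trans (ltpk_Kpow_le S h0 h1 (by norm_num)))
    (ltk_nval_close T.P2 (fun _ => True) A v n hR (fun x x' hx hx' _ _ hA => h x x' hx hx' hA))

/-- standing assumptions on a constructor `mkB` whose projection is the form `f = fa + sl fb` -/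
structure LtpD (T : LtData Ω) (ε τ q : ℝ) (fa fb f : Frz → Ph → ℝ) (sl : Ω × Ω → ℝ) {tD : Type} (D : Ω × Ω → tD) : Prop where
  la : LtLip fa
  lb : LtLip fb
  sb : ∀ x, T.P2.p x ≠ 0 → |sl x| ≤ 3 * T.δ ^ (-τ)
  sW : ∀ x x', T.Om ε x = T.Om ε x' → sl x = sl x'
  fe : ∀ x F, fa (T.frz ε x) F + sl x * fb (T.frz ε x) F = f (T.frz ε x) F
  Dq : ∀ x x', D x = D x' → T.Fb2 q x = T.Fb2 q x'
  fxa : ∀ x x', T.Om ε x = T.Om ε x' → D x = D x' → ∀ F, fa (T.frz ε x) F = fa (T.frz ε x') F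
  fxb : ∀ x x', T.Om ε x = T.Om ε x' → D x = D x' → ∀ F, fb (T.frz ε x) F = fb (T.frz ε x') F

theorem LtpD.fxf {ε τ q : ℝ} {fa fb f : Frz → Ph → ℝ} {sl : Ω × Ω → ℝ} {tD : Type} {D : Ω × Ω → tD}
    (X : LtpD T ε τ q fa fb f sl D) {x x' : Ω × Ω} (hO : T.Om ε x = T.Om ε x') (hD : D x = D x') (F : Ph) :
    f (T.frz ε x) F = f (T.frz ε x') F := by
  rw [← X.fe, ← X.fe, X.fxa x x' hO hD, X.fxb x x' hO hD, X.sW x x' hO]

/-- levels, in multiplicative form -/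
theorem ltpd_levels (T : LtData Ω) (h0 : 0 < T.δ) (h1 : T.δ < 1) {q z : ℝ} (hq : 0 ≤ q) (hz : 0 ≤ z) :
    (2 : ℝ) ^ (tlev T.δ (q + z)) ≤ 2 ^ (tlev T.δ q) * 2 ^ (tlev (T.δ ^ z) 1) ∧
    (2 : ℝ) ^ (tlev T.δ q) * 2 ^ (tlev (T.δ ^ z) 1) ≤ 2 * 2 ^ (tlev T.δ (q + z)) ∧
    (2 : ℝ) ^ (tlev T.δ (q + 2 * z)) ≤ 2 ^ (tlev T.δ q) * (2 ^ (tlev (T.δ ^ z) 1) * 2 ^ (tlev (T.δ ^ z) 1)) ∧
    (2 : ℝ) ^ (tlev T.δ q) * (2 ^ (tlev (T.δ ^ z) 1) * 2 ^ (tlev (T.δ ^ z) 1)) ≤ 4 * 2 ^ (tlev T.δ (q + 2 * z)) ∧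
    (2 : ℝ) ^ (T.lvl z) = 8 * (2 ^ (tlev (T.δ ^ z) 1) * 2 ^ (tlev (T.δ ^ z) 1)) := by
  have l0 : tlev (T.δ ^ z) 1 = tlev T.δ z := by
    rw [(ltp_scale T h0 z 1).2, one_mul]
  have e2 : q + 2 * z = q + z + z := by ring
  have a1 := ig_lev_add_le T.δ q z
  have a2 := ltpk_lev_add T.δ q z h0 h1 hq hz
  have a3 := ig_lev_add_le T.δ (q + z) z
  have a4 := ltpk_lev_add T.δ (q + z) z h0 h1 (by linarith) hz
  unfold LtData.lvl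
  rw [l0, e2]
  refine ⟨?_, ?_, ?_, ?_, ?_⟩
  · rw [← pow_add]
    exact pow_le_pow_right₀ (by norm_num) a1
  · rw [← pow_add, ← pow_succ']
    exact pow_le_pow_right₀ (by norm_num) a2
  · rw [← pow_add, ← pow_add]
    exact pow_le_pow_right₀ (by norm_num) (by omega)
  · rw [← pow_add, ← pow_add, show (4 : ℝ) = 2 ^ 2 by norm_num, ← pow_add]
    exact pow_le_pow_right₀ (by norm_num) (by omega)
  · rw [← pow_add, show (8 : ℝ) = 2 ^ 3 by norm_num, ← pow_add]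
    congr 1
    omega

/-- `1 ≤ 2^(2kn) ≤ 4 K⁸` -/
theorem ltpd_k2 (T : LtData Ω) (h0 : 0 < T.δ) (h1 : T.δ < 1) {τ : ℝ} (hτ : 0 ≤ τ) :
    (1 : ℝ) ≤ 2 ^ (2 * tlev T.δ (4 * τ)) ∧ (2 : ℝ) ^ (2 * tlev T.δ (4 * τ)) ≤ 4 * (T.δ ^ (-τ)) ^ 8 := by
  refine ⟨one_le_pow₀ (by norm_num), ?_⟩
  have h := ltpk_K4' T h0 h1 hτ
  have hp : (0 : ℝ) ≤ 2 ^ (tlev T.δ (4 * τ)) := by positivity
  rw [two_mul, pow_add]
  calc (2 : ℝ) ^ (tlev T.δ (4 * τ)) * 2 ^ (tlev T.δ (4 * τ)) ≤ (2 * (T.δ ^ (-τ)) ^ 4) * (2 * (T.δ ^ (-τ)) ^ 4) :=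
        mul_le_mul h h hp (hp.trans h)
    _ = 4 * (T.δ ^ (-τ)) ^ 8 := by ring

theorem ltpd_inv {Δπ Δv s e₁ e₂ : ℝ} (hs : 0 < s) (h : |Δπ - Δv * s| ≤ e₁) (h2 : |Δπ| ≤ e₂) : |Δv| ≤ (e₁ + e₂) / s := by
  rw [le_div_iff₀ hs]
  have e : |Δv| * s = |Δv * s| := by rw [abs_mul, abs_of_pos hs]
  rw [e]
  have t : Δv * s = Δπ - (Δπ - Δv * s) := by ring
  rw [t]
  have := abs_sub Δπ (Δπ - Δv * s)
  linarith

theorem ltpd_dir {Δπ Δv s e₁ r : ℝ} (hs : 0 < s) (h : |Δπ - Δv * s| ≤ e₁) (h2 : |Δv| ≤ r) : |Δπ| ≤ e₁ + r * s := by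
  have e : |Δv * s| = |Δv| * s := by rw [abs_mul, abs_of_pos hs]
  have t : Δπ = (Δπ - Δv * s) + Δv * s := by ring
  have t2 := abs_add_le (Δπ - Δv * s) (Δv * s)
  rw [← t, e] at t2
  have := mul_le_mul_of_nonneg_right h2 hs.le
  linarith

theorem ltpd_K9 {K : ℝ} (hK : 1000 ≤ K) {c : ℝ} (hc : c ≤ 16 * K ^ 8) : c + 2 ≤ K ^ 9 := by
  have h8 : (1 : ℝ) ≤ K ^ 8 := one_le_pow₀ (by linarith)
  have e : K ^ 9 = K * K ^ 8 := by ring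
  rw [e]
  nlinarith

theorem ltpd_size1 {p Pq k2 N K : ℝ} (hp : 1 ≤ p) (hPq : 0 < Pq) (hk : 0 < k2) (hN0 : 0 ≤ N) (hN : N ≤ Pq * p)
    (hk2 : k2 ≤ 4 * K ^ 8) (hK : 1000 ≤ K) : (4 / (8 * (p * p)) + 3 / p) / (Pq / k2) * N + 2 ≤ K ^ 9 := by
  have hp0 : 0 < p := by linarith
  refine ltpd_K9 hK ?_
  have e1 : 4 / (8 * (p * p)) + 3 / p ≤ 4 / p := by
    have : 4 / (8 * (p * p)) ≤ 1 / p := by
      rw [div_le_div_iff₀ (by positivity) hp0]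
      nlinarith
    have e : (4 : ℝ) / p = 1 / p + 3 / p := by ring
    rw [e]
    linarith
  calc (4 / (8 * (p * p)) + 3 / p) / (Pq / k2) * N ≤ (4 / p) / (Pq / k2) * (Pq * p) :=
        mul_le_mul (div_le_div_of_nonneg_right e1 (by positivity)) hN hN0 (by positivity)
    _ = 4 * k2 := by field_simp
    _ ≤ 16 * K ^ 8 := by linarith

theorem ltpd_size4 {p Pq k2 N K : ℝ} (hp : 1 ≤ p) (hPq : 0 < Pq) (hk : 0 < k2) (hN0 : 0 ≤ N) (hN : N ≤ Pq * (p * p))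
    (hk2 : k2 ≤ 4 * K ^ 8) (hK : 1000 ≤ K) : (4 / (8 * (p * p)) + 1 / (p * p)) / (Pq / k2) * N + 2 ≤ K ^ 9 := by
  have hp0 : 0 < p := by linarith
  refine ltpd_K9 hK ?_
  have e1 : 4 / (8 * (p * p)) + 1 / (p * p) ≤ 2 / (p * p) := by
    have : 4 / (8 * (p * p)) ≤ 1 / (p * p) := by
      rw [div_le_div_iff₀ (by positivity) (by positivity)]
      nlinarith [mul_pos hp0 hp0]
    have e : (2 : ℝ) / (p * p) = 1 / (p * p) + 1 / (p * p) := by ring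
    rw [e]
    linarith
  calc (4 / (8 * (p * p)) + 1 / (p * p)) / (Pq / k2) * N ≤ (2 / (p * p)) / (Pq / k2) * (Pq * (p * p)) :=
        mul_le_mul (div_le_div_of_nonneg_right e1 (by positivity)) hN hN0 (by positivity)
    _ = 2 * k2 := by field_simp
    _ ≤ 16 * K ^ 8 := by
        have : (0 : ℝ) ≤ K ^ 8 := by positivity
        linarith

theorem ltpd_size2 {p Pq k2 N K : ℝ} (hp : 1 ≤ p) (hPq : 0 < Pq) (hk : 1 ≤ k2) (hN0 : 0 < N) (hN : Pq * (p * p) ≤ 4 * N)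
    (hK : 1000 ≤ K) : (4 / (8 * (p * p)) + 1 / N * (Pq / k2)) * p * p + 2 ≤ K ^ 9 := by
  have hp0 : 0 < p := by linarith
  have hk0 : 0 < k2 := by linarith
  refine ltpd_K9 hK ?_
  have e : (4 / (8 * (p * p)) + 1 / N * (Pq / k2)) * p * p = 1 / 2 + Pq * (p * p) / (N * k2) := by
    field_simp
    ring
  rw [e]
  have h1 : Pq * (p * p) / (N * k2) ≤ 4 := by
    rw [div_le_iff₀ (by positivity)]
    nlinarith
  have h8 : (1 : ℝ) ≤ K ^ 8 := one_le_pow₀ (by linarith)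
  linarith

section mk

variable {d g τ χ ε ζ : ℝ} {Q : Finset ℝ} {M : ℝ → ℝ} {G : Ω → Prop} {q z : ℝ} {fa fb f : Frz → Ph → ℝ} {sl : Ω × Ω → ℝ}
  {tD : Type} {D : Ω × Ω → tD}

theorem ltpd_bdd (H : T.Hyp d g τ χ ε Q M G) (S : T.Sm τ χ ε ζ) (hz : 0 < z) (X : LtpD T ε τ q fa fb f sl D) {x : Ω × Ω}
    (hx : T.P2.p x ≠ 0) : |(T.mkB ε τ q z fa fb sl D).a x| ≤ 1 ∧ |(T.mkB ε τ q z fa fb sl D).b x| ≤ 1 ∧
      |(T.mkB ε τ q z fa fb sl D).u x| ≤ 1 :=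
  (ltp_mk_str H S hz X.la X.lb sl D X.sb X.sW).2.2.1 x hx

/-- the projection is the normalised increment of the form `f`, up to the rounding -/
theorem ltpd_prj (H : T.Hyp d g τ χ ε Q M G) (S : T.Sm τ χ ε ζ) (hz : 0 < z) (X : LtpD T ε τ q fa fb f sl D) {x : Ω × Ω}
    (hx : T.P2.p x ≠ 0) :
    |ltpPi (T.mkB ε τ q z fa fb sl D) x - (f (T.frz ε x) (T.F x.1) - f (T.frz ε x) ((T.F x.1).rep T.δ q))
        * (2 ^ (tlev T.δ q) / 2 ^ (2 * tlev T.δ (4 * τ)))| ≤ 2 / 2 ^ (T.lvl z) := by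
  have hu : |sl x / 2 ^ (tlev T.δ (4 * τ))| ≤ 1 := (ltpd_bdd H S hz X hx).2.2
  obtain ⟨α, hα⟩ : ∃ α, α = T.srcEx ε τ q 2 fa x := ⟨_, rfl⟩
  obtain ⟨β, hβ⟩ : ∃ β, β = T.srcEx ε τ q 1 fb x := ⟨_, rfl⟩
  obtain ⟨u, hud⟩ : ∃ u, u = sl x / 2 ^ (tlev T.δ (4 * τ)) := ⟨_, rfl⟩
  have e1 : ltpPi (T.mkB ε τ q z fa fb sl D) x = ltRnd (T.lvl z) α + u * ltRnd (T.lvl z) β := by
    rw [hα, hβ, hud]
    rfl
  have e2 : (f (T.frz ε x) (T.F x.1) - f (T.frz ε x) ((T.F x.1).rep T.δ q))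
      * (2 ^ (tlev T.δ q) / 2 ^ (2 * tlev T.δ (4 * τ))) = α + u * β := by
    rw [hα, hβ, hud, ← X.fe, ← X.fe]
    unfold LtData.srcEx
    rw [one_mul, two_mul, pow_add]
    field_simp
    ring
  rw [e1, e2]
  have r1 := ltpd_rnd_near (T.lvl z) α
  have r2 := ltpd_rnd_near (T.lvl z) β
  have e3 : ltRnd (T.lvl z) α + u * ltRnd (T.lvl z) β - (α + u * β)
      = (ltRnd (T.lvl z) α - α) + u * (ltRnd (T.lvl z) β - β) := by ring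
  rw [e3]
  rw [← hud] at hu
  have t1 := abs_add_le (ltRnd (T.lvl z) α - α) (u * (ltRnd (T.lvl z) β - β))
  have t2 : |u * (ltRnd (T.lvl z) β - β)| ≤ 1 * (1 / 2 ^ (T.lvl z)) := ltg_m2 hu r2
  have e4 : (2 : ℝ) / 2 ^ (T.lvl z) = 1 / 2 ^ (T.lvl z) + 1 * (1 / 2 ^ (T.lvl z)) := by ring
  rw [e4]
  linarith

/-- two samples with the same record and the same parent label -/
theorem ltpd_two (H : T.Hyp d g τ χ ε Q M G) (S : T.Sm τ χ ε ζ) (hz : 0 < z) (X : LtpD T ε τ q fa fb f sl D) {x x' : Ω × Ω}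
    (hx : T.P2.p x ≠ 0) (hx' : T.P2.p x' ≠ 0) (hO : T.Om ε x = T.Om ε x') (hD : D x = D x') :
    |(ltpPi (T.mkB ε τ q z fa fb sl D) x - ltpPi (T.mkB ε τ q z fa fb sl D) x')
        - (f (T.frz ε x) (T.F x.1) - f (T.frz ε x') (T.F x'.1)) * (2 ^ (tlev T.δ q) / 2 ^ (2 * tlev T.δ (4 * τ)))|
      ≤ 4 / 2 ^ (T.lvl z) := by
  have h1 := ltpd_prj H S hz X hx
  have h2 := ltpd_prj H S hz X hx'
  have hrep : (T.F x.1).rep T.δ q = (T.F x'.1).rep T.δ q := ltp_rep_congr (X.Dq x x' hD)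
  rw [hrep, X.fxf hO hD ((T.F x'.1).rep T.δ q)] at h1
  obtain ⟨s, hs⟩ : ∃ s : ℝ, s = 2 ^ (tlev T.δ q) / 2 ^ (2 * tlev T.δ (4 * τ)) := ⟨_, rfl⟩
  rw [← hs] at h1 h2 ⊢
  have e : (ltpPi (T.mkB ε τ q z fa fb sl D) x - ltpPi (T.mkB ε τ q z fa fb sl D) x')
        - (f (T.frz ε x) (T.F x.1) - f (T.frz ε x') (T.F x'.1)) * s
      = (ltpPi (T.mkB ε τ q z fa fb sl D) x - (f (T.frz ε x) (T.F x.1) - f (T.frz ε x') ((T.F x'.1).rep T.δ q)) * s)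
        - (ltpPi (T.mkB ε τ q z fa fb sl D) x' - (f (T.frz ε x') (T.F x'.1) - f (T.frz ε x') ((T.F x'.1).rep T.δ q)) * s) := by
    ring
  rw [e]
  have t := abs_sub (ltpPi (T.mkB ε τ q z fa fb sl D) x - (f (T.frz ε x) (T.F x.1) - f (T.frz ε x') ((T.F x'.1).rep T.δ q)) * s)
    (ltpPi (T.mkB ε τ q z fa fb sl D) x' - (f (T.frz ε x') (T.F x'.1) - f (T.frz ε x') ((T.F x'.1).rep T.δ q)) * s)
  have e4 : (4 : ℝ) / 2 ^ (T.lvl z) = 2 / 2 ^ (T.lvl z) + 2 / 2 ^ (T.lvl z) := by ring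
  rw [e4]
  linarith

end mk

section rd

variable {d g τ χ ε ζ : ℝ} {Q : Finset ℝ} {M : ℝ → ℝ} {G : Ω → Prop} {q z : ℝ} {fa fb f : Frz → Ph → ℝ} {sl : Ω × Ω → ℝ}
  {tD : Type} {D : Ω × Ω → tD}

theorem ltpd_q0 (S : T.Sm τ χ ε ζ) (hq : ε ≤ q) : 0 ≤ q := by
  have := S.τpos
  have := S.τχ
  have := S.χε
  linarith

/-- (R1) the tube and the record read the cell of the form at the depth `q + z` -/
theorem ltpd_R1 (H : T.Hyp d g τ χ ε Q M G) (S : T.Sm τ χ ε ζ) (hz : 0 < z) (hq : ε ≤ q) (X : LtpD T ε τ q fa fb f sl D) :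
    T.P2.entC (T.c2 (q + z) (fun x => f (T.frz ε x) (T.F x.1))) (T.mkB ε τ q z fa fb sl D).WP ≤ T.er χ ζ := by
  obtain ⟨l1, -, -, -, l5⟩ := ltpd_levels T H.δpos H.δlt (ltpd_q0 S hq) hz.le
  obtain ⟨k1, k2⟩ := ltpd_k2 T H.δpos H.δlt S.τpos.le
  have hp1 : (1 : ℝ) ≤ 2 ^ (tlev (T.δ ^ z) 1) := one_le_pow₀ (by norm_num)
  have hs : (0 : ℝ) < 2 ^ (tlev T.δ q) / 2 ^ (2 * tlev T.δ (4 * τ)) := by positivity
  refine ltpd_close S H.δpos H.δlt _ (fun x => f (T.frz ε x) (T.F x.1)) (tlev T.δ (q + z))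
    (R := (4 / (8 * (2 ^ (tlev (T.δ ^ z) 1) * 2 ^ (tlev (T.δ ^ z) 1))) + 3 / 2 ^ (tlev (T.δ ^ z) 1))
      / (2 ^ (tlev T.δ q) / 2 ^ (2 * tlev T.δ (4 * τ)))) (by positivity) (fun x x' hx hx' hA => ?_) ?_
  · have hO : T.Om ε x = T.Om ε x' := congrArg Prod.fst hA
    have hD : D x = D x' := congrArg (fun w => w.2.1) hA
    have hy : tcell (T.δ ^ z) 1 ((T.mkB ε τ q z fa fb sl D).y x) = tcell (T.δ ^ z) 1 ((T.mkB ε τ q z fa fb sl D).y x') :=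
      congrArg (fun w => w.2.2.2) hA
    have h2 := ltpd_two H S hz X hx hx' hO hD
    rw [l5] at h2
    exact ltpd_inv hs h2 (ltpd_pi_tube (T.mkB ε τ q z fa fb sl D) (ltpd_bdd H S hz X hx).2.1 (ltpd_bdd H S hz X hx').2.1 hy)
  · exact ltpd_size1 hp1 (by positivity) (by positivity) (by positivity) l1 k2 S.big

/-- (R4) the fine cell, the tube and the record read the cell of the form at the depth `q + 2z` -/
theorem ltpd_R4 (H : T.Hyp d g τ χ ε Q M G) (S : T.Sm τ χ ε ζ) (hz : 0 < z) (hq : ε ≤ q) (X : LtpD T ε τ q fa fb f sl D) :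
    T.P2.entC (T.c2 (q + 2 * z) (fun x => f (T.frz ε x) (T.F x.1)))
      (pair (T.mkB ε τ q z fa fb sl D).T1 (T.mkB ε τ q z fa fb sl D).WP) ≤ T.er χ ζ := by
  obtain ⟨-, -, l3, -, l5⟩ := ltpd_levels T H.δpos H.δlt (ltpd_q0 S hq) hz.le
  obtain ⟨k1, k2⟩ := ltpd_k2 T H.δpos H.δlt S.τpos.le
  have hp1 : (1 : ℝ) ≤ 2 ^ (tlev (T.δ ^ z) 1) := one_le_pow₀ (by norm_num)
  have hs : (0 : ℝ) < 2 ^ (tlev T.δ q) / 2 ^ (2 * tlev T.δ (4 * τ)) := by positivity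
  refine ltpd_close S H.δpos H.δlt _ (fun x => f (T.frz ε x) (T.F x.1)) (tlev T.δ (q + 2 * z))
    (R := (4 / (8 * (2 ^ (tlev (T.δ ^ z) 1) * 2 ^ (tlev (T.δ ^ z) 1))) + 1 / (2 ^ (tlev (T.δ ^ z) 1) * 2 ^ (tlev (T.δ ^ z) 1)))
      / (2 ^ (tlev T.δ q) / 2 ^ (2 * tlev T.δ (4 * τ)))) (by positivity) (fun x x' hx hx' hA => ?_) ?_
  · have hT : (T.mkB ε τ q z fa fb sl D).T1 x = (T.mkB ε τ q z fa fb sl D).T1 x' := congrArg Prod.fst hA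
    have hO : T.Om ε x = T.Om ε x' := congrArg (fun w => w.2.1) hA
    have hD : D x = D x' := congrArg (fun w => w.2.2.1) hA
    have hy : tcell (T.δ ^ z) 1 ((T.mkB ε τ q z fa fb sl D).y x) = tcell (T.δ ^ z) 1 ((T.mkB ε τ q z fa fb sl D).y x') :=
      congrArg (fun w => w.2.2.2.2) hA
    have h2 := ltpd_two H S hz X hx hx' hO hD
    rw [l5] at h2
    exact ltpd_inv hs h2 (ltpd_pi_fine (T.mkB ε τ q z fa fb sl D) hy hT)
  · exact ltpd_size4 hp1 (by positivity) (by positivity) (by positivity) l3 k2 S.big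

/-- (R2) the cell of the form at the depth `q + 2z`, the tube and the record read the fine cell -/
theorem ltpd_R2 (H : T.Hyp d g τ χ ε Q M G) (S : T.Sm τ χ ε ζ) (hz : 0 < z) (hq : ε ≤ q) (X : LtpD T ε τ q fa fb f sl D) :
    T.P2.entC (T.mkB ε τ q z fa fb sl D).T1
      (pair (T.c2 (q + 2 * z) (fun x => f (T.frz ε x) (T.F x.1))) (T.mkB ε τ q z fa fb sl D).WP) ≤ T.er χ ζ := by
  obtain ⟨-, -, -, l4, l5⟩ := ltpd_levels T H.δpos H.δlt (ltpd_q0 S hq) hz.le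
  obtain ⟨k1, k2⟩ := ltpd_k2 T H.δpos H.δlt S.τpos.le
  have hp1 : (1 : ℝ) ≤ 2 ^ (tlev (T.δ ^ z) 1) := one_le_pow₀ (by norm_num)
  have hp0 : (0 : ℝ) < 2 ^ (tlev (T.δ ^ z) 1) := by positivity
  have hs : (0 : ℝ) < 2 ^ (tlev T.δ q) / 2 ^ (2 * tlev T.δ (4 * τ)) := by positivity
  have eT : (T.mkB ε τ q z fa fb sl D).T1 = fun x => ⌊(T.mkB ε τ q z fa fb sl D).tgt x * 2 ^ (tlev (T.δ ^ z) 1)⌋ :=
    funext fun x => ltpd_T1_eq _ x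
  rw [eT]
  refine ltpd_close S H.δpos H.δlt _ (T.mkB ε τ q z fa fb sl D).tgt (tlev (T.δ ^ z) 1)
    (R := (4 / (8 * (2 ^ (tlev (T.δ ^ z) 1) * 2 ^ (tlev (T.δ ^ z) 1)))
      + 1 / 2 ^ (tlev T.δ (q + 2 * z)) * (2 ^ (tlev T.δ q) / 2 ^ (2 * tlev T.δ (4 * τ)))) * 2 ^ (tlev (T.δ ^ z) 1))
    (by positivity) (fun x x' hx hx' hA => ?_) ?_
  · have hv : tcell T.δ (q + 2 * z) (f (T.frz ε x) (T.F x.1)) = tcell T.δ (q + 2 * z) (f (T.frz ε x') (T.F x'.1)) :=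
      congrArg Prod.fst hA
    have hO : T.Om ε x = T.Om ε x' := congrArg (fun w => w.2.1) hA
    have hD : D x = D x' := congrArg (fun w => w.2.2.1) hA
    have hy : tcell (T.δ ^ z) 1 ((T.mkB ε τ q z fa fb sl D).y x) = tcell (T.δ ^ z) 1 ((T.mkB ε τ q z fa fb sl D).y x') :=
      congrArg (fun w => w.2.2.2.2) hA
    have h2 := ltpd_two H S hz X hx hx' hO hD
    rw [l5] at h2
    have h3 := ltpd_dir hs h2 (ltpk_cell_near hv)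
    have h4 : (T.mkB ε τ q z fa fb sl D).tgt x - (T.mkB ε τ q z fa fb sl D).tgt x'
        = (ltpPi (T.mkB ε τ q z fa fb sl D) x - ltpPi (T.mkB ε τ q z fa fb sl D) x') * 2 ^ (tlev (T.δ ^ z) 1) :=
      ltpd_tgt_sub (T.mkB ε τ q z fa fb sl D) hy
    rw [h4, abs_mul, abs_of_pos hp0]
    exact mul_le_mul_of_nonneg_right h3 hp0.le
  · exact ltpd_size2 hp1 (by positivity) k1 (by positivity) l4 S.big

/-- the exact sources of two samples in the same phase cell at the depth `q + z` -/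
theorem ltpd_src_two (H : T.Hyp d g τ χ ε Q M G) (S : T.Sm τ χ ε ζ) (hz : 0 ≤ z) (hq : ε ≤ q) {h : Frz → Ph → ℝ} (hf : LtLip h)
    {j : ℕ} (hj : 1 ≤ j) {x x' : Ω × Ω} (hx : T.P2.p x ≠ 0) (hF : T.Fb2 (q + z) x = T.Fb2 (q + z) x')
    (hc : ∀ F, h (T.frz ε x) F = h (T.frz ε x') F) :
    |T.srcEx ε τ q j h x - T.srcEx ε τ q j h x'| ≤ 1 / 2 ^ (tlev (T.δ ^ z) 1) := by
  obtain ⟨-, l2, -, -, -⟩ := ltpd_levels T H.δpos H.δlt (ltpd_q0 S hq) hz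
  have hFq : T.Fb2 q x = T.Fb2 q x' := ltpk_ph_nest H.δpos H.δlt (by linarith) hF
  have hrep : (T.F x.1).rep T.δ q = (T.F x'.1).rep T.δ q := ltp_rep_congr hFq
  have h1 := ltpk_form_close H S hf hx hF hc
  have e : T.srcEx ε τ q j h x - T.srcEx ε τ q j h x'
      = (h (T.frz ε x) (T.F x.1) - h (T.frz ε x') (T.F x'.1)) * 2 ^ (tlev T.δ q) / 2 ^ (j * tlev T.δ (4 * τ)) := by
    unfold LtData.srcEx
    rw [hrep, hc ((T.F x'.1).rep T.δ q)]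
    ring
  obtain ⟨A1, hA1d⟩ : ∃ A1, A1 = |h (T.frz ε x) (T.F x.1) - h (T.frz ε x') (T.F x'.1)| := ⟨_, rfl⟩
  obtain ⟨K, hKd⟩ : ∃ K, K = T.δ ^ (-τ) := ⟨_, rfl⟩
  have hK := S.big
  have h4 := ltpk_K4 T H.δpos τ
  rw [← hKd] at hK h4 h1
  rw [← hA1d] at h1
  have hp1 : (0 : ℝ) < 2 ^ (tlev T.δ q) := by positivity
  have hp3 : (0 : ℝ) < 2 ^ (tlev T.δ (q + z)) := by positivity
  have hpL : (0 : ℝ) < 2 ^ (tlev (T.δ ^ z) 1) := by positivity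
  have hpk : (0 : ℝ) < 2 ^ (j * tlev T.δ (4 * τ)) := by positivity
  have h5 : (2 : ℝ) ^ (tlev T.δ (4 * τ)) ≤ 2 ^ (j * tlev T.δ (4 * τ)) :=
    pow_le_pow_right₀ (by norm_num) (Nat.le_mul_of_pos_left _ hj)
  have hA0 : 0 ≤ A1 := by rw [hA1d]; exact abs_nonneg _
  have h6 : A1 * 2 ^ (tlev T.δ (q + z)) ≤ 270 * K ^ 3 := by
    calc A1 * 2 ^ (tlev T.δ (q + z)) ≤ 270 * K ^ 3 * (1 / 2 ^ (tlev T.δ (q + z))) * 2 ^ (tlev T.δ (q + z)) :=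
          mul_le_mul_of_nonneg_right h1 hp3.le
      _ = 270 * K ^ 3 := by field_simp
  have h7 : A1 * (2 ^ (tlev T.δ q) * 2 ^ (tlev (T.δ ^ z) 1)) ≤ K ^ 4 := by
    calc A1 * (2 ^ (tlev T.δ q) * 2 ^ (tlev (T.δ ^ z) 1)) ≤ A1 * (2 * 2 ^ (tlev T.δ (q + z))) :=
          mul_le_mul_of_nonneg_left l2 hA0
      _ = 2 * (A1 * 2 ^ (tlev T.δ (q + z))) := by ring
      _ ≤ 2 * (270 * K ^ 3) := by linarith
      _ ≤ K ^ 4 := by
          have : 0 ≤ K ^ 3 := by positivity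
          nlinarith
  rw [e, abs_div, abs_mul, abs_of_pos hp1, abs_of_pos hpk, ← hA1d, div_le_div_iff₀ hpk hpL]
  calc A1 * 2 ^ (tlev T.δ q) * 2 ^ (tlev (T.δ ^ z) 1) = A1 * (2 ^ (tlev T.δ q) * 2 ^ (tlev (T.δ ^ z) 1)) := by ring
    _ ≤ K ^ 4 := h7
    _ ≤ 1 * 2 ^ (j * tlev T.δ (4 * τ)) := by linarith

/-- the same for the rounded sources -/
theorem ltpd_rnd_two {lv : ℕ} {s t p : ℝ} (hp : 1 ≤ p) (hlv : (2 : ℝ) ^ lv = 8 * (p * p)) (h : |s - t| ≤ 1 / p) :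
    |ltRnd lv s - ltRnd lv t| ≤ 2 / p := by
  have hp0 : 0 < p := by linarith
  have r1 := ltpd_rnd_near lv s
  have r2 := ltpd_rnd_near lv t
  rw [hlv] at r1 r2
  have e : ltRnd lv s - ltRnd lv t = (ltRnd lv s - s) + (s - t) - (ltRnd lv t - t) := by ring
  have t1 := abs_sub ((ltRnd lv s - s) + (s - t)) (ltRnd lv t - t)
  have t2 := abs_add_le (ltRnd lv s - s) (s - t)
  have e8 : 1 / (8 * (p * p)) ≤ 1 / (2 * p) := by
    rw [div_le_div_iff₀ (by positivity) (by positivity)]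
    nlinarith
  have e2 : (2 : ℝ) / p = 1 / (2 * p) + 1 / p + 1 / (2 * p) := by
    field_simp
    ring
  rw [e, e2]
  linarith

end rd

section gl

variable {d g τ χ ε ζ : ℝ} {Q : Finset ℝ} {M : ℝ → ℝ} {G : Ω → Prop} {q z : ℝ} {fa fb f : Frz → Ph → ℝ} {sl : Ω × Ω → ℝ}
  {tD : Type} {D : Ω × Ω → tD}

/-- (R3) a label which fixes the record, the parent label and the phase cell at the depth `q + z` reads `bb 1` and the tube -/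
theorem ltpd_R3 (H : T.Hyp d g τ χ ε Q M G) (S : T.Sm τ χ ε ζ) (hz : 0 < z) (hq : ε ≤ q) (X : LtpD T ε τ q fa fb f sl D)
    {tY : Type} (Y1 : Ω × Ω → tY) (hYO : ∀ x x', Y1 x = Y1 x' → T.Om ε x = T.Om ε x') (hYD : ∀ x x', Y1 x = Y1 x' → D x = D x')
    (hYF : ∀ x x', Y1 x = Y1 x' → T.Fb2 (q + z) x = T.Fb2 (q + z) x') :
    T.P2.entC (pair ((T.mkB ε τ q z fa fb sl D).bb 1) (T.mkB ε τ q z fa fb sl D).WP) Y1 ≤ 2 * T.er χ ζ := by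
  obtain ⟨-, -, -, -, l5⟩ := ltpd_levels T H.δpos H.δlt (ltpd_q0 S hq) hz.le
  have hp1 : (1 : ℝ) ≤ 2 ^ (tlev (T.δ ^ z) 1) := one_le_pow₀ (by norm_num)
  have hp0 : (0 : ℝ) < 2 ^ (tlev (T.δ ^ z) 1) := by positivity
  have hK := S.big
  have hK9 : (8 : ℝ) ≤ (T.δ ^ (-τ)) ^ 9 := by
    have := ltpd_K9 hK (c := 6) (by
      have : (1 : ℝ) ≤ (T.δ ^ (-τ)) ^ 8 := one_le_pow₀ (by linarith)
      linarith)
    linarith
  have ha : ∀ x x', T.P2.p x ≠ 0 → Y1 x = Y1 x' →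
      |(T.mkB ε τ q z fa fb sl D).a x - (T.mkB ε τ q z fa fb sl D).a x'| ≤ 2 / 2 ^ (tlev (T.δ ^ z) 1) := fun x x' hx hA =>
    ltpd_rnd_two hp1 l5 (ltpd_src_two H S hz.le hq X.la (by norm_num) hx (hYF x x' hA) (X.fxa x x' (hYO x x' hA) (hYD x x' hA)))
  have hb : ∀ x x', T.P2.p x ≠ 0 → Y1 x = Y1 x' →
      |(T.mkB ε τ q z fa fb sl D).b x - (T.mkB ε τ q z fa fb sl D).b x'| ≤ 2 / 2 ^ (tlev (T.δ ^ z) 1) := fun x x' hx hA =>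
    ltpd_rnd_two hp1 l5 (ltpd_src_two H S hz.le hq X.lb le_rfl hx (hYF x x' hA) (X.fxb x x' (hYO x x' hA) (hYD x x' hA)))
  have hu : ∀ x x', Y1 x = Y1 x' → (T.mkB ε τ q z fa fb sl D).u x = (T.mkB ε τ q z fa fb sl D).u x' := fun x x' hA => by
    show sl x / 2 ^ (tlev T.δ (4 * τ)) = sl x' / 2 ^ (tlev T.δ (4 * τ))
    rw [X.sW x x' (hYO x x' hA)]
  have s1 : T.P2.entC (pair ((T.mkB ε τ q z fa fb sl D).bb 1) (T.mkB ε τ q z fa fb sl D).WP) Y1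
      ≤ T.P2.entC (pair ((T.mkB ε τ q z fa fb sl D).bb 1)
          (fun x => ⌊(T.mkB ε τ q z fa fb sl D).y x * 2 ^ (tlev (T.δ ^ z) 1)⌋)) Y1 := by
    refine ent_entC_mono T.P2 _ _ Y1 fun x x' _ _ h hA => ?_
    have h1 : (T.mkB ε τ q z fa fb sl D).bb 1 x = (T.mkB ε τ q z fa fb sl D).bb 1 x' := congrArg Prod.fst h
    have h2 : tcell (T.δ ^ z) 1 ((T.mkB ε τ q z fa fb sl D).y x) = tcell (T.δ ^ z) 1 ((T.mkB ε τ q z fa fb sl D).y x') :=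
      congrArg Prod.snd h
    have h3 : (T.mkB ε τ q z fa fb sl D).WP x = (T.mkB ε τ q z fa fb sl D).WP x' := by
      show (T.Om ε x, (D x, tcell (T.δ ^ z) 1 ((T.mkB ε τ q z fa fb sl D).u x),
          tcell (T.δ ^ z) 1 ((T.mkB ε τ q z fa fb sl D).y x)))
        = (T.Om ε x', (D x', tcell (T.δ ^ z) 1 ((T.mkB ε τ q z fa fb sl D).u x'),
          tcell (T.δ ^ z) 1 ((T.mkB ε τ q z fa fb sl D).y x')))
      rw [hYO x x' hA, hYD x x' hA, hu x x' hA, h2]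
    exact Prod.ext h1 h3
  have s2 := ent_entC_pair_le_add T.P2 ((T.mkB ε τ q z fa fb sl D).bb 1)
    (fun x => ⌊(T.mkB ε τ q z fa fb sl D).y x * 2 ^ (tlev (T.δ ^ z) 1)⌋) Y1
  have eb : (T.mkB ε τ q z fa fb sl D).bb 1 = fun x => ⌊(T.mkB ε τ q z fa fb sl D).b x * 2 ^ (tlev (T.δ ^ z) 1)⌋ :=
    funext fun x => ltpd_bb_eq _ x
  have s3 : T.P2.entC ((T.mkB ε τ q z fa fb sl D).bb 1) Y1 ≤ T.er χ ζ := by
    rw [eb]
    refine ltpd_close S H.δpos H.δlt Y1 (T.mkB ε τ q z fa fb sl D).b (tlev (T.δ ^ z) 1) (R := 2 / 2 ^ (tlev (T.δ ^ z) 1))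
      (by positivity) (fun x x' hx _ hA => hb x x' hx hA) ?_
    rw [div_mul_cancel₀ _ hp0.ne']
    linarith
  have s4 : T.P2.entC (fun x => ⌊(T.mkB ε τ q z fa fb sl D).y x * 2 ^ (tlev (T.δ ^ z) 1)⌋) Y1 ≤ T.er χ ζ := by
    refine ltpd_close S H.δpos H.δlt Y1 (T.mkB ε τ q z fa fb sl D).y (tlev (T.δ ^ z) 1) (R := 6 / 2 ^ (tlev (T.δ ^ z) 1))
      (by positivity) (fun x x' hx _ hA => ?_) ?_
    · have h1 := ha x x' hx hA
      have h2 := hb x x' hx hA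
      have h3 : |trep (T.δ ^ z) 1 ((T.mkB ε τ q z fa fb sl D).u x)| ≤ 2 := by
        have a1 := ltpk_trep_abs (T.δ ^ z) 1 ((T.mkB ε τ q z fa fb sl D).u x)
        have a2 := (ltpd_bdd H S hz X hx).2.2
        linarith
      have e : (T.mkB ε τ q z fa fb sl D).y x - (T.mkB ε τ q z fa fb sl D).y x'
          = ((T.mkB ε τ q z fa fb sl D).a x - (T.mkB ε τ q z fa fb sl D).a x')
            + trep (T.δ ^ z) 1 ((T.mkB ε τ q z fa fb sl D).u x)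
              * ((T.mkB ε τ q z fa fb sl D).b x - (T.mkB ε τ q z fa fb sl D).b x') := by
        have e1 : (T.mkB ε τ q z fa fb sl D).y x = (T.mkB ε τ q z fa fb sl D).a x
            + trep (T.δ ^ z) 1 ((T.mkB ε τ q z fa fb sl D).u x) * (T.mkB ε τ q z fa fb sl D).b x := rfl
        have e2 : (T.mkB ε τ q z fa fb sl D).y x' = (T.mkB ε τ q z fa fb sl D).a x'
            + trep (T.δ ^ z) 1 ((T.mkB ε τ q z fa fb sl D).u x') * (T.mkB ε τ q z fa fb sl D).b x' := rfl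
        rw [e1, e2, ← hu x x' hA]
        ring
      rw [e]
      have t := ltg_a2 h1 (ltg_m2 h3 h2)
      refine t.trans (le_of_eq ?_)
      ring
    · rw [div_mul_cancel₀ _ hp0.ne']
      linarith
  linarith

/-- generic upper bound of the fine entropy -/
theorem ltpd_concl (H : T.Hyp d g τ χ ε Q M G) (S : T.Sm τ χ ε ζ) (hz : 0 < z) (hq : ε ≤ q) (X : LtpD T ε τ q fa fb f sl D)
    {tY : Type} (Yc : Ω × Ω → tY)
    (hdet : ∀ x x', (T.mkB ε τ q z fa fb sl D).WP x = (T.mkB ε τ q z fa fb sl D).WP x' → Yc x = Yc x') :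
    T.P2.entC (T.mkB ε τ q z fa fb sl D).T1 (T.mkB ε τ q z fa fb sl D).WP
      ≤ T.P2.entC (T.c2 (q + 2 * z) (fun x => f (T.frz ε x) (T.F x.1)))
          (pair (T.c2 (q + z) (fun x => f (T.frz ε x) (T.F x.1))) Yc) + 2 * T.er χ ζ := by
  have h1 := ltpd_ent_up T.P2 (T.mkB ε τ q z fa fb sl D).T1 (T.mkB ε τ q z fa fb sl D).WP
    (T.c2 (q + z) (fun x => f (T.frz ε x) (T.F x.1))) (T.c2 (q + 2 * z) (fun x => f (T.frz ε x) (T.F x.1))) Yc hdet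
  have h2 := ltpd_R1 H S hz hq X
  have h3 := ltpd_R2 H S hz hq X
  linarith

/-- generic lower bound of the fine entropy given `bb 1` -/
theorem ltpd_lower (H : T.Hyp d g τ χ ε Q M G) (S : T.Sm τ χ ε ζ) (hz : 0 < z) (hq : ε ≤ q) (X : LtpD T ε τ q fa fb f sl D)
    {tY : Type} (Y1 : Ω × Ω → tY) (hYO : ∀ x x', Y1 x = Y1 x' → T.Om ε x = T.Om ε x') (hYD : ∀ x x', Y1 x = Y1 x' → D x = D x')
    (hYF : ∀ x x', Y1 x = Y1 x' → T.Fb2 (q + z) x = T.Fb2 (q + z) x') :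
    T.P2.entC (T.c2 (q + 2 * z) (fun x => f (T.frz ε x) (T.F x.1))) Y1
      ≤ T.P2.entC (T.mkB ε τ q z fa fb sl D).T1 (pair ((T.mkB ε τ q z fa fb sl D).bb 1) (T.mkB ε τ q z fa fb sl D).WP)
        + 3 * T.er χ ζ := by
  have h1 := ltpd_ent_lo T.P2 (T.mkB ε τ q z fa fb sl D).T1
    (pair ((T.mkB ε τ q z fa fb sl D).bb 1) (T.mkB ε τ q z fa fb sl D).WP)
    (T.c2 (q + 2 * z) (fun x => f (T.frz ε x) (T.F x.1))) Y1
  have h2 := ltpd_R3 H S hz hq X Y1 hYO hYD hYF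
  have h3 := ltpd_R4 H S hz hq X
  have h4 : T.P2.entC (T.c2 (q + 2 * z) (fun x => f (T.frz ε x) (T.F x.1)))
        (pair (T.mkB ε τ q z fa fb sl D).T1 (pair ((T.mkB ε τ q z fa fb sl D).bb 1) (T.mkB ε τ q z fa fb sl D).WP))
      ≤ T.P2.entC (T.c2 (q + 2 * z) (fun x => f (T.frz ε x) (T.F x.1)))
        (pair (T.mkB ε τ q z fa fb sl D).T1 (T.mkB ε τ q z fa fb sl D).WP) :=
    ent_entC_anti T.P2 _ _ _ fun x x' _ _ h => by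
      have a1 : (T.mkB ε τ q z fa fb sl D).T1 x = (T.mkB ε τ q z fa fb sl D).T1 x' := congrArg Prod.fst h
      have a2 : (T.mkB ε τ q z fa fb sl D).WP x = (T.mkB ε τ q z fa fb sl D).WP x' := congrArg (fun w => w.2.2) h
      exact Prod.ext a1 a2
  linarith

end gl

/-- abstract form of `ltp_d2` -/
theorem ltpd_ent_d2 {Ω : Type} [Fintype Ω] (P : FLaw Ω) {t1 t2 t3 t4 t5 t6 : Type} (x1 : Ω → t1) (x2 : Ω → t2) (y1 : Ω → t3)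
    (y2 : Ω → t4) (Eq : Ω → t5) (Ev : Ω → t6) (hx : ∀ ω ω', x2 ω = x2 ω' → x1 ω = x1 ω')
    (hy : ∀ ω ω', y2 ω = y2 ω' → y1 ω = y1 ω') (hE : ∀ ω ω', Ev ω = Ev ω' → Eq ω = Eq ω') :
    P.entC y2 (pair (pair y1 x2) Eq) ≤ P.entC y2 (pair x2 Ev)
      + (P.entC (pair x2 y2) Eq - P.entC (pair x1 y1) Eq - P.entC (pair x2 y2) Ev) + P.entC (pair x1 y1) Ev := by
  have s1 := ltpd_ent_nest P (pair x1 y1) (pair x2 y2) Eq (fun ω ω' h => by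
    have h1 : x2 ω = x2 ω' := congrArg Prod.fst h
    have h2 : y2 ω = y2 ω' := congrArg Prod.snd h
    exact Prod.ext (hx _ _ h1) (hy _ _ h2))
  have s2 := ent_entC_chain P x2 y2 (pair (pair x1 y1) Eq)
  have s3 : P.entC y2 (pair x2 (pair (pair x1 y1) Eq)) = P.entC y2 (pair (pair y1 x2) Eq) :=
    ent_entC_congr P _ _ _ _ (fun ω ω' _ _ => by
      simp only [FLaw.pair, Prod.mk.injEq]
      constructor
      · rintro ⟨h1, ⟨_, h3⟩, h4⟩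
        exact ⟨⟨h3, h1⟩, h4⟩
      · rintro ⟨⟨h3, h1⟩, h4⟩
        exact ⟨h1, ⟨hx _ _ h1, h3⟩, h4⟩) (fun _ _ _ _ _ => Iff.rfl)
  have s4 := ent_entC_chain P x2 y2 Ev
  have s5 : P.entC x2 Ev ≤ P.entC (pair (pair x1 y1) x2) Ev :=
    ent_entC_mono P (pair (pair x1 y1) x2) x2 Ev fun ω ω' _ _ h _ => congrArg Prod.snd h
  have s6 := ent_entC_chain P (pair x1 y1) x2 Ev
  have s7 : P.entC x2 (pair (pair x1 y1) Ev) ≤ P.entC x2 (pair (pair x1 y1) Eq) :=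
    ent_entC_anti P x2 _ _ fun ω ω' _ _ h => by
      have h1 : pair x1 y1 ω = pair x1 y1 ω' := congrArg Prod.fst h
      have h2 : Ev ω = Ev ω' := congrArg Prod.snd h
      exact Prod.ext h1 (hE _ _ h2)
  linarith

theorem ltpd_er_nonneg {τ χ ε ζ : ℝ} (S : T.Sm τ χ ε ζ) (h0 : 0 < T.δ) (h1 : T.δ < 1) : 0 ≤ T.er χ ζ := by
  have hℓ := ltpk_ell_pos T h0 h1
  have a1 := S.τpos
  have a2 := S.τχ
  have a3 := S.ζ0
  unfold LtData.er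
  have : 0 ≤ 5 * χ + 100 * ζ := by linarith
  exact mul_nonneg this hℓ.le

theorem ltpd_X1 {d g τ χ ε ζ : ℝ} {Q : Finset ℝ} {M : ℝ → ℝ} {G : Ω → Prop} (H : T.Hyp d g τ χ ε Q M G) (S : T.Sm τ χ ε ζ)
    {q : ℝ} (hq : ε ≤ q) :
    LtpD T ε τ q Frz.fK' Frz.fJ' Frz.fx (fun x => (T.frz ε x).θ) (fun x => (T.C x.1, T.Fb2 q x, T.Om0 ε x)) where
  la := ltpk_lip_K'
  lb := ltpk_lip_J'
  sb := fun x hx => (ltpk_frz_bd H S hx).2.2.2.2.1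
  sW := fun x x' h => (ltpk_frz_Om T h).2.2.1
  fe := fun x F => rfl
  Dq := fun x x' h => congrArg (fun w => w.2.1) h
  fxa := fun x x' _ h F => ltpk_dep_K' (ltpk_frz_XP T H.δpos H.δlt hq (congrArg (fun w => w.2.1) h)).1
      (ltpk_frz_XP T H.δpos H.δlt hq (congrArg (fun w => w.2.1) h)).2 (ltpk_frz_Om0 T (congrArg (fun w => w.2.2) h)).1 F
  fxb := fun x x' _ h F => ltpk_dep_J' (ltpk_frz_XP T H.δpos H.δlt hq (congrArg (fun w => w.2.1) h)).1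
      (ltpk_frz_XP T H.δpos H.δlt hq (congrArg (fun w => w.2.1) h)).2 (ltpk_frz_Om0 T (congrArg (fun w => w.2.2) h)).2 F

theorem ltpd_X2 {d g τ χ ε ζ : ℝ} {Q : Finset ℝ} {M : ℝ → ℝ} {G : Ω → Prop} (H : T.Hyp d g τ χ ε Q M G) (S : T.Sm τ χ ε ζ)
    {q : ℝ} (z : ℝ) (hq : ε ≤ q) :
    LtpD T ε τ q Frz.fJ' Frz.fL Frz.fy (fun x => - (T.frz ε x).A / 2)
      (fun x => ((T.C x.1, T.Fb2 q x, T.OmT ε x), T.c2 (q + 2 * z) (T.vx ε) x)) where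
  la := ltpk_lip_J'
  lb := ltpk_lip_L
  sb := fun x hx => by
    have h1 := (ltpk_frz_bd H S hx).2.2.2.2.2
    have h2 : 0 ≤ |(T.frz ε x).A| := abs_nonneg _
    rw [abs_div, abs_neg, abs_two]
    linarith
  sW := fun x x' h => by
    show - (T.frz ε x).A / 2 = - (T.frz ε x').A / 2
    rw [(ltpk_frz_Om T h).2.2.2]
  fe := fun x F => by
    unfold Frz.fy
    ring
  Dq := fun x x' h => congrArg (fun w => w.1.2.1) h
  fxa := fun x x' _ h F => ltpk_dep_J' (ltpk_frz_XP T H.δpos H.δlt hq (congrArg (fun w => w.1.2.1) h)).1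
      (ltpk_frz_XP T H.δpos H.δlt hq (congrArg (fun w => w.1.2.1) h)).2 (ltpk_frz_OmT T (congrArg (fun w => w.1.2.2) h)).2.1 F
  fxb := fun x x' _ h F => ltpk_dep_L (ltpk_frz_OmT T (congrArg (fun w => w.1.2.2) h)).1
      (ltpk_frz_OmT T (congrArg (fun w => w.1.2.2) h)).2.1 F

/-- `E_v` reads the cell at the depth `v` of a form which it freezes -/
theorem ltpd_E_read {d g τ χ ε ζ : ℝ} {Q : Finset ℝ} {M : ℝ → ℝ} {G : Ω → Prop} (H : T.Hyp d g τ χ ε Q M G) (S : T.Sm τ χ ε ζ)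
    {f : Frz → Ph → ℝ} (hf : LtLip f) (v : ℝ)
    (hA2 : ∀ x x', T.E ε v x = T.E ε v x' → ∀ F, f (T.frz ε x) F = f (T.frz ε x') F) :
    T.P2.NVal (fun _ => True) (T.c2 v (fun x => f (T.frz ε x) (T.F x.1))) (T.E ε v) ((T.δ ^ (-τ)) ^ 4) := by
  have r := ltpk_form_read H S hf v v (T.E ε v) (fun x x' h => congrArg (fun w => w.2.2) h) hA2
  refine ltk_nval_mono T.P2 r (fun _ h => h) (fun _ _ h => h) ⟨id, fun _ => rfl⟩ ?_
  have hK := S.big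
  obtain ⟨K, hKd⟩ : ∃ K, K = T.δ ^ (-τ) := ⟨_, rfl⟩
  rw [← hKd] at hK ⊢
  have hp : (1 : ℝ) / 2 ^ (tlev T.δ v) * 2 ^ (tlev T.δ v) = 1 := by
    rw [one_div, inv_mul_cancel₀ (by positivity)]
  have h6 : 270 * K ^ 3 * (1 / 2 ^ (tlev T.δ v)) * 2 ^ (tlev T.δ v) = 270 * K ^ 3 := by
    rw [mul_assoc, hp, mul_one]
  rw [h6]
  have : (1 : ℝ) ≤ K ^ 3 := one_le_pow₀ (by linarith)
  nlinarith

theorem ltpd_E_nest (T : LtData Ω) (h0 : 0 < T.δ) (h1 : T.δ < 1) {ε p p' : ℝ} (hp : p ≤ p') {x x' : Ω × Ω}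
    (h : T.E ε p' x = T.E ε p' x') : T.E ε p x = T.E ε p x' := by
  have a1 : T.C x.1 = T.C x'.1 := congrArg Prod.fst h
  have a2 : T.Om ε x = T.Om ε x' := congrArg (fun w => w.2.1) h
  have a3 : (T.F x.1).cell T.δ p' = (T.F x'.1).cell T.δ p' := congrArg (fun w => w.2.2) h
  have a4 : T.Fb p x.1 = T.Fb p x'.1 := ltpk_ph_nest h0 h1 hp a3
  exact Prod.ext a1 (Prod.ext a2 a4)

/-- the statement of `ltp_d2` -/
theorem ltpd_d2 {d g τ χ ε ζ : ℝ} {Q : Finset ℝ} {M : ℝ → ℝ} {G : Ω → Prop} (H : T.Hyp d g τ χ ε Q M G)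
    (S : T.Sm τ χ ε ζ) {q z : ℝ} (hz : 0 ≤ z) (hq : ε ≤ q) :
    T.P2.entC (T.c2 (q + 2 * z) (T.vy ε)) (pair (pair (T.c2 (q + z) (T.vy ε)) (T.c2 (q + 2 * z) (T.vx ε))) (T.E ε q))
      ≤ T.P2.entC (T.c2 (q + 2 * z) (T.vy ε)) (pair (T.c2 (q + 2 * z) (T.vx ε)) (T.E ε (q + z)))
        + (T.φxy ε (q + 2 * z) q - T.φxy ε (q + z) q - T.φxy ε (q + 2 * z) (q + z)) + T.er χ ζ := by
  have h1 := ltpd_ent_d2 T.P2 (T.c2 (q + z) (T.vx ε)) (T.c2 (q + 2 * z) (T.vx ε)) (T.c2 (q + z) (T.vy ε))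
    (T.c2 (q + 2 * z) (T.vy ε)) (T.E ε q) (T.E ε (q + z))
    (fun x x' h => ltpk_cell_nest H.δpos H.δlt (by linarith) h)
    (fun x x' h => ltpk_cell_nest H.δpos H.δlt (by linarith) h)
    (fun x x' h => ltpd_E_nest T H.δpos H.δlt (by linarith) h)
  have hq' : ε ≤ q + z := by linarith
  have rx := ltpd_E_read H S ltpk_lip_x (q + z) (fun x x' h F => by
    have a2 : T.Om ε x = T.Om ε x' := congrArg (fun w => w.2.1) h
    have a3 : T.Fb2 (q + z) x = T.Fb2 (q + z) x' := congrArg (fun w => w.2.2) h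
    exact ltpk_dep_x (ltpk_frz_XP T H.δpos H.δlt hq' a3).1 (ltpk_frz_XP T H.δpos H.δlt hq' a3).2
      (ltpk_frz_Om T a2).1 (ltpk_frz_Om T a2).2.1 (ltpk_frz_Om T a2).2.2.1 F)
  have ry := ltpd_E_read H S ltpk_lip_y (q + z) (fun x x' h F => by
    have a2 : T.Om ε x = T.Om ε x' := congrArg (fun w => w.2.1) h
    have a3 : T.Fb2 (q + z) x = T.Fb2 (q + z) x' := congrArg (fun w => w.2.2) h
    exact ltpk_dep_y (ltpk_frz_XP T H.δpos H.δlt hq' a3).1 (ltpk_frz_XP T H.δpos H.δlt hq' a3).2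
      (ltpk_frz_Om T a2).1 (ltpk_frz_Om T a2).2.1 (ltpk_frz_Om T a2).2.2.2 F)
  have hK := S.big
  have r : T.P2.NVal (fun _ => True) (pair (T.c2 (q + z) (T.vx ε)) (T.c2 (q + z) (T.vy ε))) (T.E ε (q + z))
      ((T.δ ^ (-τ)) ^ 4 * (T.δ ^ (-τ)) ^ 4) :=
    ltk_nval_comp T.P2 _ (T.E ε (q + z)) (T.c2 (q + z) (T.vy ε)) (T.c2 (q + z) (T.vx ε)) (by positivity) ry
      (ltk_nval_mono T.P2 rx (fun _ h => h) (fun _ _ h => congrArg Prod.snd h) ⟨id, fun _ => rfl⟩ le_rfl)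
  have h2 : T.P2.entC (pair (T.c2 (q + z) (T.vx ε)) (T.c2 (q + z) (T.vy ε))) (T.E ε (q + z)) ≤ T.er χ ζ := by
    refine ltpk_read0 S H.δpos H.δlt _ _ ?_ r
    have k8 := ltpk_Kpow_le S H.δpos H.δlt (n := 8) (by norm_num)
    rw [← pow_add]
    exact k8
  unfold LtData.φxy
  linarith

section fin

variable {d g τ χ ε ζ : ℝ} {Q : Finset ℝ} {M : ℝ → ℝ} {G : Ω → Prop} {q z : ℝ}

theorem ltpd_c1 (H : T.Hyp d g τ χ ε Q M G) (S : T.Sm τ χ ε ζ) (hz : 0 < z) (hq : ε ≤ q) :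
    (T.B1 ε τ q z).P.entC (T.B1 ε τ q z).T1 (T.B1 ε τ q z).WP ≤ T.φx ε (q + 2 * z) q - T.φx ε (q + z) q + 2 * T.er χ ζ := by
  have h1 := ltpd_concl H S hz hq (ltpd_X1 H S hq) (T.E ε q) (fun x x' h => by
    have a1 : T.Om ε x = T.Om ε x' := congrArg Prod.fst h
    have a2 : (T.C x.1, T.Fb2 q x, T.Om0 ε x) = (T.C x'.1, T.Fb2 q x', T.Om0 ε x') := congrArg (fun w => w.2.1) h
    have a3 : T.C x.1 = T.C x'.1 := congrArg Prod.fst a2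
    have a4 : T.Fb q x.1 = T.Fb q x'.1 := congrArg (fun w => w.2.1) a2
    exact Prod.ext a3 (Prod.ext a1 a4))
  have h2 := ltpd_ent_nest T.P2 (T.c2 (q + z) (T.vx ε)) (T.c2 (q + 2 * z) (T.vx ε)) (T.E ε q)
    (fun x x' h => ltpk_cell_nest H.δpos H.δlt (by linarith) h)
  have h3 : (T.B1 ε τ q z).P.entC (T.B1 ε τ q z).T1 (T.B1 ε τ q z).WP
      ≤ T.P2.entC (T.c2 (q + 2 * z) (T.vx ε)) (pair (T.c2 (q + z) (T.vx ε)) (T.E ε q)) + 2 * T.er χ ζ := h1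
  unfold LtData.φx
  linarith

theorem ltpd_l1 (H : T.Hyp d g τ χ ε Q M G) (S : T.Sm τ χ ε ζ) (hz : 0 < z) (hq : ε ≤ q) :
    T.φx ε (q + 2 * z) (q + z)
      ≤ (T.B1 ε τ q z).P.entC (T.B1 ε τ q z).T1 (pair ((T.B1 ε τ q z).bb 1) (T.B1 ε τ q z).WP) + 3 * T.er χ ζ := by
  have h1 := ltpd_lower H S hz hq (ltpd_X1 H S hq) (T.E ε (q + z)) (fun x x' h => congrArg (fun w => w.2.1) h)
    (fun x x' h => by
      have a1 : T.C x.1 = T.C x'.1 := congrArg Prod.fst h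
      have a2 : T.Om0 ε x = T.Om0 ε x' := congrArg (fun w => w.2.1.1.1) h
      have a3 : (T.F x.1).cell T.δ (q + z) = (T.F x'.1).cell T.δ (q + z) := congrArg (fun w => w.2.2) h
      have a4 : T.Fb2 q x = T.Fb2 q x' := ltpk_ph_nest H.δpos H.δlt (by linarith) a3
      exact Prod.ext a1 (Prod.ext a4 a2))
    (fun x x' h => congrArg (fun w => w.2.2) h)
  exact h1

theorem ltpd_c2 (H : T.Hyp d g τ χ ε Q M G) (S : T.Sm τ χ ε ζ) (hz : 0 < z) (hq : ε ≤ q) :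
    (T.B2 ε τ q z).P.entC (T.B2 ε τ q z).T1 (T.B2 ε τ q z).WP
      ≤ T.P2.entC (T.c2 (q + 2 * z) (T.vy ε))
          (pair (pair (T.c2 (q + z) (T.vy ε)) (T.c2 (q + 2 * z) (T.vx ε))) (T.E ε q)) + 2 * T.er χ ζ := by
  have h1 := ltpd_concl H S hz hq (ltpd_X2 H S z hq) (pair (T.c2 (q + 2 * z) (T.vx ε)) (T.E ε q)) (fun x x' h => by
    have a1 : T.Om ε x = T.Om ε x' := congrArg Prod.fst h
    have a2 : ((T.C x.1, T.Fb2 q x, T.OmT ε x), T.c2 (q + 2 * z) (T.vx ε) x)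
      = ((T.C x'.1, T.Fb2 q x', T.OmT ε x'), T.c2 (q + 2 * z) (T.vx ε) x') := congrArg (fun w => w.2.1) h
    have a3 : T.C x.1 = T.C x'.1 := congrArg (fun w => w.1.1) a2
    have a4 : T.Fb q x.1 = T.Fb q x'.1 := congrArg (fun w => w.1.2.1) a2
    have a5 : T.c2 (q + 2 * z) (T.vx ε) x = T.c2 (q + 2 * z) (T.vx ε) x' := congrArg Prod.snd a2
    have a6 : T.E ε q x = T.E ε q x' := Prod.ext a3 (Prod.ext a1 a4)
    exact Prod.ext a5 a6)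
  have h2 : T.P2.entC (T.c2 (q + 2 * z) (T.vy ε))
        (pair (T.c2 (q + z) (T.vy ε)) (pair (T.c2 (q + 2 * z) (T.vx ε)) (T.E ε q)))
      = T.P2.entC (T.c2 (q + 2 * z) (T.vy ε))
        (pair (pair (T.c2 (q + z) (T.vy ε)) (T.c2 (q + 2 * z) (T.vx ε))) (T.E ε q)) :=
    ent_entC_congr T.P2 _ _ _ _ (fun x x' _ _ => by
      simp only [FLaw.pair, Prod.mk.injEq]
      tauto) (fun _ _ _ _ _ => Iff.rfl)
  have h3 : (T.B2 ε τ q z).P.entC (T.B2 ε τ q z).T1 (T.B2 ε τ q z).WP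
      ≤ T.P2.entC (T.c2 (q + 2 * z) (T.vy ε))
        (pair (T.c2 (q + z) (T.vy ε)) (pair (T.c2 (q + 2 * z) (T.vx ε)) (T.E ε q))) + 2 * T.er χ ζ := h1
  linarith

theorem ltpd_l2 (H : T.Hyp d g τ χ ε Q M G) (S : T.Sm τ χ ε ζ) (hz : 0 < z) (hq : ε ≤ q) :
    T.P2.entC (T.c2 (q + 2 * z) (T.vy ε)) (pair (T.c2 (q + 2 * z) (T.vx ε)) (T.E ε (q + z)))
      ≤ (T.B2 ε τ q z).P.entC (T.B2 ε τ q z).T1 (pair ((T.B2 ε τ q z).bb 1) (T.B2 ε τ q z).WP) + 3 * T.er χ ζ := by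
  have h1 := ltpd_lower H S hz hq (ltpd_X2 H S z hq) (pair (T.c2 (q + 2 * z) (T.vx ε)) (T.E ε (q + z)))
    (fun x x' h => congrArg (fun w => w.2.2.1) h)
    (fun x x' h => by
      have a0 : T.c2 (q + 2 * z) (T.vx ε) x = T.c2 (q + 2 * z) (T.vx ε) x' := congrArg Prod.fst h
      have a1 : T.C x.1 = T.C x'.1 := congrArg (fun w => w.2.1) h
      have a2 : T.OmT ε x = T.OmT ε x' := congrArg (fun w => w.2.2.1.1) h
      have a3 : (T.F x.1).cell T.δ (q + z) = (T.F x'.1).cell T.δ (q + z) := congrArg (fun w => w.2.2.2) h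
      have a4 : T.Fb2 q x = T.Fb2 q x' := ltpk_ph_nest H.δpos H.δlt (by linarith) a3
      exact Prod.ext (Prod.ext a1 (Prod.ext a4 a2)) a0)
    (fun x x' h => congrArg (fun w => w.2.2.2) h)
  exact h1

end fin

/-- LEAF P1-defect.  `H(T1|WP) ≤ H(x_{q+2z}|x_{q+z},E_q) + 3 er`;  `H(T1|bb 1,WP) ≥ H(T1|bb 1, tube, E_{q+z}) ≥ H(T1|E_{q+z}) - er ≥ H(x_{q+2z}|E_{q+z}) - 2 er`;
`H(x_{q+2z}|x_{q+z},E_q) = φx(q+2z,q) - φx(q+z,q)` (nested cells). -/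
theorem ltp1_defect {d g τ χ ε ζ κ : ℝ} {Q : Finset ℝ} {M : ℝ → ℝ} {G : Ω → Prop} {ns : ℕ} (H : T.Hyp d g τ χ ε Q M G)
    (S : T.Sm τ χ ε ζ) (hG : T.P2.pr (fun x => ¬ T.G2 G χ x) ≤ ζ) {q z : ℝ} (Z : T.Sz κ z ε χ ζ ns) (hq : ε ≤ q) (hq3 : q + 3 * z ≤ 3) :
    (T.B1 ε τ q z).P.entC (T.B1 ε τ q z).T1 (T.B1 ε τ q z).WP
        - (T.B1 ε τ q z).P.entC (T.B1 ε τ q z).T1 (pair ((T.B1 ε τ q z).bb 1) (T.B1 ε τ q z).WP)
      ≤ T.φx ε (q + 2 * z) q - T.φx ε (q + z) q - T.φx ε (q + 2 * z) (q + z) + 6 * T.er χ ζ := by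
  have h1 := ltpd_c1 (z := z) H S Z.zpos hq
  have h2 := ltpd_l1 (z := z) H S Z.zpos hq
  have he := ltpd_er_nonneg S H.δpos H.δlt
  linarith

/-- LEAF P1-concl.  `WP ≡ (tube, E_q)`;  `H(T1|WP) ≤ H(x_{q+z}|tube,E_q) + H(T1|x_{q+z},E_q)`,  `H(T1|x_{q+z},E_q) ≤ H(x_{q+2z}|x_{q+z},E_q) + H(T1|x_{q+2z},E_q)`. -/
theorem ltp1_concl {d g τ χ ε ζ κ : ℝ} {Q : Finset ℝ} {M : ℝ → ℝ} {G : Ω → Prop} {ns : ℕ} (H : T.Hyp d g τ χ ε Q M G)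
    (S : T.Sm τ χ ε ζ) (hG : T.P2.pr (fun x => ¬ T.G2 G χ x) ≤ ζ) {q z : ℝ} (Z : T.Sz κ z ε χ ζ ns) (hq : ε ≤ q) (hq3 : q + 3 * z ≤ 3) :
    (T.B1 ε τ q z).P.entC (T.B1 ε τ q z).T1 (T.B1 ε τ q z).WP ≤ T.φx ε (q + 2 * z) q - T.φx ε (q + z) q + 3 * T.er χ ζ := by
  have h1 := ltpd_c1 (z := z) H S Z.zpos hq
  have he := ltpd_er_nonneg S H.δpos H.δlt
  linarith

/-! ## Second application -/

/-- LEAF P2-str -/
theorem ltp2_str {d g τ χ ε ζ : ℝ} {Q : Finset ℝ} {M : ℝ → ℝ} {G : Ω → Prop} (H : T.Hyp d g τ χ ε Q M G) (S : T.Sm τ χ ε ζ)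
    {q z : ℝ} (hz : 0 < z) (hq : ε ≤ q) :
    0 < (T.B2 ε τ q z).ρ ∧ (T.B2 ε τ q z).ρ < 1 ∧
    (∀ x, (T.B2 ε τ q z).P.p x ≠ 0 → |(T.B2 ε τ q z).a x| ≤ 1 ∧ |(T.B2 ε τ q z).b x| ≤ 1 ∧ |(T.B2 ε τ q z).u x| ≤ 1) ∧
    (∀ x x', (T.B2 ε τ q z).Z x = (T.B2 ε τ q z).Z x' → (T.B2 ε τ q z).D x = (T.B2 ε τ q z).D x' →
      (T.B2 ε τ q z).a x = (T.B2 ε τ q z).a x' ∧ (T.B2 ε τ q z).b x = (T.B2 ε τ q z).b x') ∧
    (∀ x x', (T.B2 ε τ q z).W x = (T.B2 ε τ q z).W x' → (T.B2 ε τ q z).D x = (T.B2 ε τ q z).D x' →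
      (T.B2 ε τ q z).u x = (T.B2 ε τ q z).u x') := by
  refine ltp_mk_str H S hz ltpk_lip_J' ltpk_lip_L _ _ (fun x hx => ?_) (fun x x' h => ?_)
  · have h1 := (ltpk_frz_bd H S hx).2.2.2.2.2
    have h2 : 0 ≤ |(T.frz ε x).A| := abs_nonneg _
    rw [abs_div, abs_neg, abs_two]
    linarith
  · have h1 : tcell T.δ ε (T.gap x) = tcell T.δ ε (T.gap x') := congrArg Prod.snd h
    show - trep T.δ ε (T.gap x) / 2 = - trep T.δ ε (T.gap x') / 2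
    rw [ltpk_trep_congr h1]

/-- LEAF P2-info = (act:child-cmi).  `I(Z;Ω|D₀,x) ≤ I(V;Ω|D₀,x) + H(Z|V,D₀,x)`, `I(V;Ω|D₀,x) ≤ I(V;Ω|D₀) + H(x|D₀,V)`, `V = F_{q+3z}`, `D₀ = (C,F_q,OmT)`;
`x_{q+2z}` and `Z` use no `A`. -/
theorem ltp2_info {d g τ χ ε ζ κ : ℝ} {Q : Finset ℝ} {M : ℝ → ℝ} {G : Ω → Prop} {ns : ℕ} (H : T.Hyp d g τ χ ε Q M G)
    (S : T.Sm τ χ ε ζ) (hG : T.P2.pr (fun x => ¬ T.G2 G χ x) ≤ ζ) {q z : ℝ} (Z : T.Sz κ z ε χ ζ ns) (hq : ε ≤ q) (hq3 : q + 3 * z ≤ 3) :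
    (T.B2 ε τ q z).P.miC (T.B2 ε τ q z).Z (T.B2 ε τ q z).W (T.B2 ε τ q z).D
      ≤ T.P2.miC (T.Fb2 (q + 3 * z)) (T.Om ε) (fun x => (T.C x.1, T.Fb2 q x, T.OmT ε x)) + 2 * T.er χ ζ := by
  have h1 := ltpk_mi_read T.P2 (T.B2 ε τ q z).Z (T.Fb2 (q + 3 * z)) (T.Om ε)
    (fun x => ((T.C x.1, T.Fb2 q x, T.OmT ε x), T.c2 (q + 2 * z) (T.vx ε) x))
  have h2 := ltp_Z_read H S Z.zpos.le hq ltpk_lip_J' ltpk_lip_L (fun x => - (T.frz ε x).A / 2)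
    (fun x => ((T.C x.1, T.Fb2 q x, T.OmT ε x), T.c2 (q + 2 * z) (T.vx ε) x))
    (fun x x' h F => ltpk_dep_J' (ltpk_frz_XP T H.δpos H.δlt hq (congrArg (fun w => w.1.2.1) h)).1
      (ltpk_frz_XP T H.δpos H.δlt hq (congrArg (fun w => w.1.2.1) h)).2 (ltpk_frz_OmT T (congrArg (fun w => w.1.2.2) h)).2.1 F)
    (fun x x' h F => ltpk_dep_L (ltpk_frz_OmT T (congrArg (fun w => w.1.2.2) h)).1
      (ltpk_frz_OmT T (congrArg (fun w => w.1.2.2) h)).2.1 F)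
  have h3 : T.P2.miC (T.Fb2 (q + 3 * z)) (T.Om ε) (fun x => ((T.C x.1, T.Fb2 q x, T.OmT ε x), T.c2 (q + 2 * z) (T.vx ε) x))
      = T.P2.miC (T.Fb2 (q + 3 * z)) (T.Om ε) (pair (T.c2 (q + 2 * z) (T.vx ε)) (fun x => (T.C x.1, T.Fb2 q x, T.OmT ε x))) :=
    ltb_miC_congr T.P2 _ _ _ _ (fun x x' => by
      simp only [FLaw.pair, Prod.mk.injEq]
      tauto)
  have h4 := ltpk_mi_cond T.P2 (T.c2 (q + 2 * z) (T.vx ε)) (T.Fb2 (q + 3 * z)) (T.Om ε) (fun x => (T.C x.1, T.Fb2 q x, T.OmT ε x))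
  have r := ltpk_form_read H S ltpk_lip_x (q + 3 * z) (q + 2 * z)
    (pair (T.Fb2 (q + 3 * z)) (fun x => (T.C x.1, T.Fb2 q x, T.OmT ε x))) (fun x x' h => congrArg Prod.fst h)
    (fun x x' h F => ltpk_dep_x (ltpk_frz_XP T H.δpos H.δlt hq (congrArg (fun w => w.2.2.1) h)).1
      (ltpk_frz_XP T H.δpos H.δlt hq (congrArg (fun w => w.2.2.1) h)).2 (ltpk_frz_OmT T (congrArg (fun w => w.2.2.2) h)).1
      (ltpk_frz_OmT T (congrArg (fun w => w.2.2.2) h)).2.1 (ltpk_frz_OmT T (congrArg (fun w => w.2.2.2) h)).2.2 F)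
  have h5 : T.P2.entC (T.c2 (q + 2 * z) (T.vx ε)) (pair (T.Fb2 (q + 3 * z)) (fun x => (T.C x.1, T.Fb2 q x, T.OmT ε x)))
      ≤ T.er χ ζ := by
    refine ltpk_read0 S H.δpos H.δlt _ _ ?_ r
    have hK := S.big
    have k4 := ltpk_Kpow_le S H.δpos H.δlt (n := 4) (by norm_num)
    obtain ⟨K, hKd⟩ : ∃ K, K = T.δ ^ (-τ) := ⟨_, rfl⟩
    rw [← hKd] at hK k4 ⊢
    have hl := ig_lev_mono T.δ (q + 2 * z) (q + 3 * z) H.δpos H.δlt (by linarith [Z.zpos])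
    have hp : (1 : ℝ) / 2 ^ (tlev T.δ (q + 3 * z)) * 2 ^ (tlev T.δ (q + 2 * z)) ≤ 1 := by
      rw [one_div, inv_mul_le_iff₀ (by positivity), mul_one]
      exact pow_le_pow_right₀ (by norm_num) hl
    have hK3 : 0 ≤ 270 * K ^ 3 := by positivity
    have h6 : 270 * K ^ 3 * (1 / 2 ^ (tlev T.δ (q + 3 * z))) * 2 ^ (tlev T.δ (q + 2 * z)) ≤ 270 * K ^ 3 := by
      calc _ = 270 * K ^ 3 * (1 / 2 ^ (tlev T.δ (q + 3 * z)) * 2 ^ (tlev T.δ (q + 2 * z))) := by ring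
        _ ≤ 270 * K ^ 3 * 1 := mul_le_mul_of_nonneg_left hp hK3
        _ = 270 * K ^ 3 := mul_one _
    have h7 : 270 * K ^ 3 + 2 ≤ K ^ 4 := by
      have : (1 : ℝ) ≤ K ^ 3 := one_le_pow₀ (by linarith)
      nlinarith
    linarith
  have h1' : (T.B2 ε τ q z).P.miC (T.B2 ε τ q z).Z (T.B2 ε τ q z).W (T.B2 ε τ q z).D
      ≤ T.P2.miC (T.Fb2 (q + 3 * z)) (T.Om ε) (fun x => ((T.C x.1, T.Fb2 q x, T.OmT ε x), T.c2 (q + 2 * z) (T.vx ε) x))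
        + T.er χ ζ := h1.trans (add_le_add le_rfl h2)
  rw [h3] at h1'
  linarith

/-- the posterior score of a refinement of the angular cell of the copy, given the whole target -/
theorem ltps_post (T : LtData Ω) (h0 : 0 < T.δ) (h1 : T.δ < 1) {z vU : ℝ} (hzv : z ≤ vU) (x : Ω × Ω) (hx : T.P2.p x ≠ 0) :
    T.P2.surC (fun x => tcell T.δ vU (T.F x.2).X) (pair (fun x : Ω × Ω => x.1) (fun x => tcell T.δ z (T.F x.2).X)) x
      = T.P.surC (T.Xb vU) (pair (T.S 0) T.C) x.2 - T.P.surC (T.Xb z) (pair (T.S 0) T.C) x.2 := by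
  obtain ⟨-, s2, -⟩ := ltl_supp T x hx
  have c1 := ent_surC_chain T.P2 (fun x : Ω × Ω => T.Xb z x.2) (fun x => T.Xb vU x.2) (fun x => x.1) hx
  have c2 : T.P2.surC (pair (fun x : Ω × Ω => T.Xb z x.2) (fun x => T.Xb vU x.2)) (fun x => x.1) x
      = T.P2.surC (fun x : Ω × Ω => T.Xb vU x.2) (fun x => x.1) x := by
    refine ent_surC_congr T.P2 _ _ _ _ x (fun _ _ => Iff.rfl) fun x' _ _ => ?_
    simp only [FLaw.pair, Prod.mk.injEq]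
    exact ⟨fun h => h.2, fun h => ⟨ltl_sp_nest h0 h1 hzv h, h⟩⟩
  have c3 : T.P2.surC (fun x => tcell T.δ vU (T.F x.2).X) (pair (fun x : Ω × Ω => x.1) (fun x => tcell T.δ z (T.F x.2).X)) x
      = T.P2.surC (fun x : Ω × Ω => T.Xb vU x.2) (pair (fun x : Ω × Ω => T.Xb z x.2) (fun x => x.1)) x := by
    refine ent_surC_congr T.P2 _ _ _ _ x (fun x' _ => ?_) fun _ _ _ => Iff.rfl
    simp only [FLaw.pair, Prod.mk.injEq, LtData.Xb]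
    tauto
  have c4 := ltl_post_surC T (T.Xb vU) x hx
  have c5 := ltl_post_surC T (T.Xb z) x hx
  have c6 : ∀ v : ℝ, T.P.surC (T.Xb v) (T.CS 0) x.2 = T.P.surC (T.Xb v) (pair (T.S 0) T.C) x.2 := by
    intro v
    refine ent_surC_congr T.P _ _ _ _ x.2 (fun ω' _ => ?_) fun _ _ _ => Iff.rfl
    simp only [FLaw.pair, LtData.CS, Prod.mk.injEq]
    tauto
  rw [c3, ← c6, ← c6, ← c4, ← c5]
  linarith

/-- the transfer of the parent slope of the second application to the angular cells of the copy -/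
theorem ltps_tr2 (T : LtData Ω) {ε τ q z dm vU : ℝ} (h0 : 0 < T.δ) (h1 : T.δ < 1) (hε : 0 ≤ ε) (hz : 0 < z) (h2z : 2 * z ≤ ε)
    (hdm0 : 0 ≤ dm) (hdm1 : dm ≤ 1) (hvz : z ≤ vU) (hvU : vU ≤ z + dm * z) (t : ℝ) :
    T.P2.pr (fun x => (T.B2 ε τ q z).P.surC ((T.B2 ε τ q z).parb dm) (T.B2 ε τ q z).parent x
      < T.P2.surC (fun x => tcell T.δ vU (T.F x.2).X) (pair (fun x : Ω × Ω => x.1) (fun x => tcell T.δ z (T.F x.2).X)) x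
        - Real.log 8 - Real.log (8 * (2 * (2 * 2 ^ (tlev T.δ (4 * τ)) + 2) + 2)) - 3 * t) ≤ 3 * Real.exp (-t) := by
  have hpow : (0 : ℝ) < 2 ^ (tlev T.δ (4 * τ)) := by positivity
  have hkn1 : (1 : ℝ) ≤ 2 ^ (tlev T.δ (4 * τ)) := one_le_pow₀ (by norm_num)
  have hgap : ∀ x x' : Ω × Ω, x.1 = x'.1 → T.gap x - T.gap x' = -((T.F x.2).X - (T.F x'.2).X) := by
    intro x x' hY
    unfold LtData.gap
    rw [hY]
    ring
  exact ltps_transfer (T.B2 ε τ q z) (fun x : Ω × Ω => x.1) (fun x => (T.F x.2).X) (ε := ε) (Kc := 2 * 2 ^ (tlev T.δ (4 * τ)))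
    (dm := dm) (vU := vU) h0 h1 hz rfl h2z (by positivity)
    (fun x x' hY => by
      have hY' : x.1 = x'.1 := hY
      have fa : ∀ F : Ph, (T.frz ε x).fJ' F = (T.frz ε x').fJ' F := by
        intro F
        simp only [Frz.fJ', Frz.fJ, Frz.fH, LtData.frz, hY']
      have fb : ∀ F : Ph, (T.frz ε x).fL F = (T.frz ε x').fL F := by
        intro F
        simp only [Frz.fL, LtData.frz, hY']
      have fc : ∀ F : Ph, (T.frz ε x).fx F = (T.frz ε x').fx F := by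
        intro F
        simp only [Frz.fx, Frz.fK', Frz.fJ', Frz.fK, Frz.fJ, Frz.fH, LtData.frz, hY']
      refine ⟨?_, ?_, ?_⟩
      · show ((T.C x.1, T.Fb2 q x, T.OmT ε x), T.c2 (q + 2 * z) (T.vx ε) x) = ((T.C x'.1, T.Fb2 q x', T.OmT ε x'), T.c2 (q + 2 * z) (T.vx ε) x')
        unfold LtData.Fb2 LtData.OmT LtData.Om0 LtData.c2 LtData.vx
        rw [fc, hY']
      · show ltRnd (T.lvl z) (T.srcEx ε τ q 2 Frz.fJ' x) = ltRnd (T.lvl z) (T.srcEx ε τ q 2 Frz.fJ' x')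
        unfold LtData.srcEx
        rw [fa, fa, hY']
      · show ltRnd (T.lvl z) (T.srcEx ε τ q 1 Frz.fL x) = ltRnd (T.lvl z) (T.srcEx ε τ q 1 Frz.fL x')
        unfold LtData.srcEx
        rw [fb, fb, hY'])
    (fun x x' hY => by
      show |-trep T.δ ε (T.gap x) / 2 / 2 ^ (tlev T.δ (4 * τ)) - -trep T.δ ε (T.gap x') / 2 / 2 ^ (tlev T.δ (4 * τ))| ≤ _
      have e : -trep T.δ ε (T.gap x) / 2 / 2 ^ (tlev T.δ (4 * τ)) - -trep T.δ ε (T.gap x') / 2 / 2 ^ (tlev T.δ (4 * τ))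
          = -(trep T.δ ε (T.gap x) - trep T.δ ε (T.gap x')) / 2 / 2 ^ (tlev T.δ (4 * τ)) := by ring
      rw [e, abs_div, abs_div, abs_neg, abs_of_pos hpow, abs_two]
      have a1 := (ltps_rep_two h0 h1 hε (T.gap x) (T.gap x')).1
      rw [hgap x x' hY, abs_neg] at a1
      have a2 : |trep T.δ ε (T.gap x) - trep T.δ ε (T.gap x')| / 2 / 2 ^ (tlev T.δ (4 * τ)) ≤ |trep T.δ ε (T.gap x) - trep T.δ ε (T.gap x')| / 2 :=
        div_le_self (by positivity) hkn1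
      linarith [abs_nonneg (trep T.δ ε (T.gap x) - trep T.δ ε (T.gap x'))])
    (fun x x' hY => by
      show _ ≤ 2 * 2 ^ (tlev T.δ (4 * τ)) * |-trep T.δ ε (T.gap x) / 2 / 2 ^ (tlev T.δ (4 * τ)) - -trep T.δ ε (T.gap x') / 2 / 2 ^ (tlev T.δ (4 * τ))| + _
      have e : -trep T.δ ε (T.gap x) / 2 / 2 ^ (tlev T.δ (4 * τ)) - -trep T.δ ε (T.gap x') / 2 / 2 ^ (tlev T.δ (4 * τ))
          = -(trep T.δ ε (T.gap x) - trep T.δ ε (T.gap x')) / 2 / 2 ^ (tlev T.δ (4 * τ)) := by ring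
      rw [e, abs_div, abs_div, abs_neg, abs_of_pos hpow, abs_two]
      have e2 : 2 * 2 ^ (tlev T.δ (4 * τ)) * (|trep T.δ ε (T.gap x) - trep T.δ ε (T.gap x')| / 2 / 2 ^ (tlev T.δ (4 * τ)))
          = |trep T.δ ε (T.gap x) - trep T.δ ε (T.gap x')| := by field_simp
      rw [e2]
      have a1 := (ltps_rep_two h0 h1 hε (T.gap x) (T.gap x')).2
      rw [hgap x x' hY, abs_neg] at a1
      exact a1)
    hdm0 hdm1 hvz hvU t

/-- the pointwise arithmetic of the second slope -/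
theorem ltps_fin {sP a b a0 b0 l8 lN t τ ℓ Mv Mz g' dm κ z kn nsi : ℝ} (hℓ : 0 < ℓ) (hτ : 0 < τ) (hτz : 100000 * τ ≤ κ * z)
    (hgrid : nsi ≤ κ * z / 10) (hnsi : 0 ≤ nsi) (hl8 : l8 ≤ τ * ℓ) (hlN : lN ≤ 5 * τ * ℓ) (ht : t = κ * z * ℓ / 10) (hg' : 0 < g') (hg1 : g' ≤ 1)
    (hk2 : dm * z - nsi ≤ kn) (hwin : g' * kn ≤ Mv - Mz)
    (n0 : a - b - l8 - lN - 3 * t ≤ sP) (n1 : a0 ≤ a + t) (n2 : |a0 - Mv * ℓ| ≤ τ * ℓ) (n3 : b ≤ b0 + t) (n4 : |b0 - Mz * ℓ| ≤ τ * ℓ) :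
    (g' * dm - κ) * (z * ℓ) ≤ sP := by
  have n2' := (abs_le.1 n2).1
  have n4' := (abs_le.1 n4).2
  have c1 : g' * dm * z - κ * z / 10 ≤ Mv - Mz := by
    have a1 : g' * (dm * z - nsi) ≤ g' * kn := mul_le_mul_of_nonneg_left hk2 hg'.le
    have a3 : g' * nsi ≤ 1 * nsi := mul_le_mul_of_nonneg_right hg1 hnsi
    linarith
  have c2 : (g' * dm * z - κ * z / 10) * ℓ ≤ (Mv - Mz) * ℓ := mul_le_mul_of_nonneg_right c1 hℓ.le
  have c3 : 8 * τ * ℓ ≤ 4 * (κ * z) / 10 * ℓ := mul_le_mul_of_nonneg_right (by linarith) hℓ.le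
  rw [ht] at n0 n1 n3
  have e1 : (g' * dm - κ) * (z * ℓ) = (g' * dm * z - κ * z / 10) * ℓ - 5 * (κ * z * ℓ / 10) - 4 * (κ * z) / 10 * ℓ := by ring
  have e2 : (Mv - Mz) * ℓ = Mv * ℓ - Mz * ℓ := by ring
  rw [e1]
  linarith

/-- the information tail of the second slope -/
theorem ltps_info {I t τ ℓ κ z : ℝ} (hℓ : 0 < ℓ) (htpos : 0 < t) (ht : t = κ * z * ℓ / 10) (hI : I ≤ τ * ℓ)
    (b1 : 100000 * τ ≤ κ ^ 2 * z) (b2 : 1000 ≤ κ ^ 2 * (z * ℓ)) : (I + 1) / t ≤ κ / 50 := by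
  rw [div_le_iff₀ htpos, ht]
  have b3 : 100000 * τ * ℓ ≤ κ ^ 2 * z * ℓ := mul_le_mul_of_nonneg_right b1 hℓ.le
  have e : κ / 50 * (κ * z * ℓ / 10) = κ ^ 2 * z * ℓ / 500 := by ring
  have e2 : κ ^ 2 * (z * ℓ) = κ ^ 2 * z * ℓ := by ring
  rw [e]
  rw [e2] at b2
  linarith

/-- LEAF P2-slope.  `g'` = exponent of the window `[z, 2z]` of the profile. -/
theorem ltp2_slope {d g g' τ χ ε ζ κ : ℝ} {Q : Finset ℝ} {M : ℝ → ℝ} {G : Ω → Prop} {ns : ℕ} (H : T.Hyp d g τ χ ε Q M G)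
    (S : T.Sm τ χ ε ζ) (hG : T.P2.pr (fun x => ¬ T.G2 G χ x) ≤ ζ) (hg' : 0 < g') (hg1 : g' ≤ 1) {q z : ℝ} (Z : T.Sz κ z ε χ ζ ns)
    (hq : ε ≤ q) (hq3 : q + 3 * z ≤ 3) (hQ : ∀ k : ℕ, k ≤ 3 * ns → (k : ℝ) / ns ∈ Q) (m : ℕ) (hm : z = (m : ℝ) / ns)
    (hw : ∀ k : ℕ, k ≤ m → g' * ((k : ℝ) / ns) ≤ M (((m + k : ℕ) : ℝ) / ns) - M ((m : ℝ) / ns)) (N : ℕ) :
    ∀ dm ∈ mesh N, (T.B2 ε τ q z).P.pr (fun x => (T.B2 ε τ q z).P.surC ((T.B2 ε τ q z).parb dm) (T.B2 ε τ q z).parent x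
      < (g' * dm - κ) * (T.B2 ε τ q z).L) ≤ κ := by
  intro dm hdm
  obtain ⟨kk, hkN, hdmk⟩ := hdm
  have hdm0 : 0 ≤ dm := by rw [hdmk]; positivity
  have hdm1 : dm ≤ 1 := by
    rw [hdmk]
    exact div_le_one_of_le₀ (by exact_mod_cast hkN) (Nat.cast_nonneg _)
  have h0 := H.δpos
  have h1 := H.δlt
  have hε : 0 ≤ ε := by linarith [S.τpos, S.τχ, S.χε]
  obtain ⟨hℓ, hτz, hz1, hns, hgrid, hlog8, hkn1, hlogN, hexp⟩ := ltps_num H S Z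
  obtain ⟨k, hkm, hk3, hm3, hk1, hk2⟩ := ltps_mesh hns hm hz1 hdm0 hdm1
  obtain ⟨vU, hvU⟩ : ∃ vU : ℝ, vU = ((m + k : ℕ) : ℝ) / ns := ⟨_, rfl⟩
  have evU : vU = z + (k : ℝ) / ns := by rw [hvU, hm]; push_cast; ring
  have hzQ : z ∈ Q := by rw [hm]; exact hQ m hm3
  have hvQ : vU ∈ Q := by rw [hvU]; exact hQ _ hk3
  have hzv : z ≤ vU := by
    rw [evU]
    have : (0 : ℝ) ≤ (k : ℝ) / ns := by positivity
    linarith
  have hv6 : vU ≤ 6 := by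
    have : dm * z ≤ 1 * 1 := mul_le_mul hdm1 hz1 Z.zpos.le (by norm_num)
    rw [evU]; linarith
  have hwin : g' * ((k : ℝ) / ns) ≤ M vU - M z := by rw [hvU, hm]; exact hw k hkm
  obtain ⟨t, ht⟩ : ∃ t : ℝ, t = κ * z * T.ℓ / 10 := ⟨_, rfl⟩
  have htpos : 0 < t := by rw [ht]; have := Z.κpos; have := Z.zpos; positivity
  rw [← ht] at hexp
  have htr := ltps_tr2 T (τ := τ) (q := q) h0 h1 hε Z.zpos (by linarith [Z.z8, Z.zpos]) hdm0 hdm1 hzv (by rw [evU]; linarith) t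
  -- the four events at the copy
  have hI : T.P.miC (T.Xb vU) (T.S 0) T.C ≤ τ * T.ℓ := by
    have m2 : T.P.miC (T.S 0) (T.Xb vU) T.C ≤ T.P.miC (T.S 0) (T.Xb 6) T.C :=
      ent_miC_mono T.P _ _ _ _ fun ω ω' _ _ h _ => ltl_sp_nest h0 h1 hv6 h
    rw [ent_miC_comm T.P (T.S 0) (T.Xb vU), ent_miC_comm T.P (T.S 0) (T.Xb 6)] at m2
    exact m2.trans (H.stat 0)
  have ea := ltk_info_tail T.P (T.Xb vU) T.C (T.S 0) htpos
  have eb := H.prof vU hvQ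
  have ec := ltk_lp T.P (T.Xb z) T.C (T.S 0) t
  have ed := H.prof z hzQ
  rw [← ltl_snd_pr T] at ea eb ec ed
  have hL : (T.B2 ε τ q z).L = z * T.ℓ := ltps_lg h0 z
  rw [hL]
  have hsub : T.P2.pr (fun x => (T.B2 ε τ q z).P.surC ((T.B2 ε τ q z).parb dm) (T.B2 ε τ q z).parent x
      < (g' * dm - κ) * (z * T.ℓ)) ≤ T.P2.pr (fun x => (((((T.B2 ε τ q z).P.surC ((T.B2 ε τ q z).parb dm) (T.B2 ε τ q z).parent x
      < T.P2.surC (fun x => tcell T.δ vU (T.F x.2).X) (pair (fun x : Ω × Ω => x.1) (fun x => tcell T.δ z (T.F x.2).X)) x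
        - Real.log 8 - Real.log (8 * (2 * (2 * 2 ^ (tlev T.δ (4 * τ)) + 2) + 2)) - 3 * t)
        ∨ T.P.surC (T.Xb vU) (pair (T.S 0) T.C) x.2 + t < T.P.surC (T.Xb vU) T.C x.2)
        ∨ τ * T.ℓ < |T.P.surC (T.Xb vU) T.C x.2 - M vU * T.ℓ|)
        ∨ T.P.surC (T.Xb z) T.C x.2 + t < T.P.surC (T.Xb z) (pair (T.S 0) T.C) x.2)
        ∨ τ * T.ℓ < |T.P.surC (T.Xb z) T.C x.2 - M z * T.ℓ|) := by
    refine ent_pr_mono T.P2 fun x hx hlt => ?_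
    by_contra hno
    rw [ltps_post T h0 h1 hzv x hx] at hno
    refine absurd hlt (not_lt.2 ?_)
    refine ltps_fin hℓ S.τpos hτz hgrid (by positivity) hlog8 hlogN ht hg' hg1 hk2 hwin
      (not_lt.1 fun h => hno (Or.inl (Or.inl (Or.inl (Or.inl h))))) (not_lt.1 fun h => hno (Or.inl (Or.inl (Or.inl (Or.inr h)))))
      (not_lt.1 fun h => hno (Or.inl (Or.inl (Or.inr h)))) (not_lt.1 fun h => hno (Or.inl (Or.inr h))) (not_lt.1 fun h => hno (Or.inr h))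
  have u1 := ent_pr_or_le T.P2 (fun x => ((((T.B2 ε τ q z).P.surC ((T.B2 ε τ q z).parb dm) (T.B2 ε τ q z).parent x
      < T.P2.surC (fun x => tcell T.δ vU (T.F x.2).X) (pair (fun x : Ω × Ω => x.1) (fun x => tcell T.δ z (T.F x.2).X)) x
        - Real.log 8 - Real.log (8 * (2 * (2 * 2 ^ (tlev T.δ (4 * τ)) + 2) + 2)) - 3 * t)
        ∨ T.P.surC (T.Xb vU) (pair (T.S 0) T.C) x.2 + t < T.P.surC (T.Xb vU) T.C x.2)
        ∨ τ * T.ℓ < |T.P.surC (T.Xb vU) T.C x.2 - M vU * T.ℓ|)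
        ∨ T.P.surC (T.Xb z) T.C x.2 + t < T.P.surC (T.Xb z) (pair (T.S 0) T.C) x.2) (fun x => τ * T.ℓ < |T.P.surC (T.Xb z) T.C x.2 - M z * T.ℓ|)
  have u2 := ent_pr_or_le T.P2 (fun x => (((T.B2 ε τ q z).P.surC ((T.B2 ε τ q z).parb dm) (T.B2 ε τ q z).parent x
      < T.P2.surC (fun x => tcell T.δ vU (T.F x.2).X) (pair (fun x : Ω × Ω => x.1) (fun x => tcell T.δ z (T.F x.2).X)) x
        - Real.log 8 - Real.log (8 * (2 * (2 * 2 ^ (tlev T.δ (4 * τ)) + 2) + 2)) - 3 * t)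
        ∨ T.P.surC (T.Xb vU) (pair (T.S 0) T.C) x.2 + t < T.P.surC (T.Xb vU) T.C x.2)
        ∨ τ * T.ℓ < |T.P.surC (T.Xb vU) T.C x.2 - M vU * T.ℓ|) (fun x => T.P.surC (T.Xb z) T.C x.2 + t < T.P.surC (T.Xb z) (pair (T.S 0) T.C) x.2)
  have u3 := ent_pr_or_le T.P2 (fun x => ((T.B2 ε τ q z).P.surC ((T.B2 ε τ q z).parb dm) (T.B2 ε τ q z).parent x
      < T.P2.surC (fun x => tcell T.δ vU (T.F x.2).X) (pair (fun x : Ω × Ω => x.1) (fun x => tcell T.δ z (T.F x.2).X)) x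
        - Real.log 8 - Real.log (8 * (2 * (2 * 2 ^ (tlev T.δ (4 * τ)) + 2) + 2)) - 3 * t)
        ∨ T.P.surC (T.Xb vU) (pair (T.S 0) T.C) x.2 + t < T.P.surC (T.Xb vU) T.C x.2) (fun x => τ * T.ℓ < |T.P.surC (T.Xb vU) T.C x.2 - M vU * T.ℓ|)
  have u4 := ent_pr_or_le T.P2 (fun x => (T.B2 ε τ q z).P.surC ((T.B2 ε τ q z).parb dm) (T.B2 ε τ q z).parent x
      < T.P2.surC (fun x => tcell T.δ vU (T.F x.2).X) (pair (fun x : Ω × Ω => x.1) (fun x => tcell T.δ z (T.F x.2).X)) x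
        - Real.log 8 - Real.log (8 * (2 * (2 * 2 ^ (tlev T.δ (4 * τ)) + 2) + 2)) - 3 * t) (fun x => T.P.surC (T.Xb vU) (pair (T.S 0) T.C) x.2 + t < T.P.surC (T.Xb vU) T.C x.2)
  have hinfo : (T.P.miC (T.Xb vU) (T.S 0) T.C + 1) / t ≤ κ / 50 :=
    ltps_info hℓ htpos ht hI (by linarith [S.τχ, Z.χz]) Z.big2
  have hκz : κ * z ≤ κ := mul_le_of_le_one_right Z.κpos.le hz1
  have hτ := S.τpos
  refine le_trans hsub ?_
  clear hsub hw hQ hG H S Z hwin hI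
  linarith

/- LEAF P2-resid: `ltp2_resid` is PROVED in `LT/AppRes.lean` (helper61). -/

/-- LEAF P2-defect.  As `ltp1_defect` with `x_{q+2z}` in all conditionings, then `ltp_d2`. -/
theorem ltp2_defect {d g τ χ ε ζ κ : ℝ} {Q : Finset ℝ} {M : ℝ → ℝ} {G : Ω → Prop} {ns : ℕ} (H : T.Hyp d g τ χ ε Q M G)
    (S : T.Sm τ χ ε ζ) (hG : T.P2.pr (fun x => ¬ T.G2 G χ x) ≤ ζ) {q z : ℝ} (Z : T.Sz κ z ε χ ζ ns) (hq : ε ≤ q) (hq3 : q + 3 * z ≤ 3) :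
    (T.B2 ε τ q z).P.entC (T.B2 ε τ q z).T1 (T.B2 ε τ q z).WP
        - (T.B2 ε τ q z).P.entC (T.B2 ε τ q z).T1 (pair ((T.B2 ε τ q z).bb 1) (T.B2 ε τ q z).WP)
      ≤ T.φxy ε (q + 2 * z) q - T.φxy ε (q + z) q - T.φxy ε (q + 2 * z) (q + z) + 8 * T.er χ ζ := by
  have h1 := ltpd_c2 (z := z) H S Z.zpos hq
  have h2 := ltpd_l2 (z := z) H S Z.zpos hq
  have h3 := ltpd_d2 (z := z) H S Z.zpos.le hq
  have he := ltpd_er_nonneg S H.δpos H.δlt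
  linarith

/-- LEAF P2-concl -/
theorem ltp2_concl {d g τ χ ε ζ κ : ℝ} {Q : Finset ℝ} {M : ℝ → ℝ} {G : Ω → Prop} {ns : ℕ} (H : T.Hyp d g τ χ ε Q M G)
    (S : T.Sm τ χ ε ζ) (hG : T.P2.pr (fun x => ¬ T.G2 G χ x) ≤ ζ) {q z : ℝ} (Z : T.Sz κ z ε χ ζ ns) (hq : ε ≤ q) (hq3 : q + 3 * z ≤ 3) :
    (T.B2 ε τ q z).P.entC (T.B2 ε τ q z).T1 (T.B2 ε τ q z).WP
      ≤ T.P2.entC (T.c2 (q + 2 * z) (T.vy ε))
          (pair (pair (T.c2 (q + z) (T.vy ε)) (T.c2 (q + 2 * z) (T.vx ε))) (T.E ε q)) + 3 * T.er χ ζ := by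
  have h1 := ltpd_c2 (z := z) H S Z.zpos hq
  have he := ltpd_er_nonneg S H.δpos H.δlt
  linarith

/-- LEAF P-d2.  With `v₁ = q+z`, `v₂ = q+2z`:  `H(y_{v₂}|y_{v₁},x_{v₂},E_q) = φxy(v₂,q) - φxy(v₁,q) - H(x_{v₂}|(x,y)_{v₁},E_q)`,   `H(y_{v₂}|x_{v₂},E_{v₁}) = φxy(v₂,v₁) - φx(v₂,v₁)`,
`H(x_{v₂}|(x,y)_{v₁},E_q) ≥ H(x_{v₂}|(x,y)_{v₁},E_{v₁}) ≥ φx(v₂,v₁) - H((x,y)_{v₁}|E_{v₁}) ≥ φx(v₂,v₁) - er`. -/
theorem ltp_d2 {d g τ χ ε ζ : ℝ} {Q : Finset ℝ} {M : ℝ → ℝ} {G : Ω → Prop} (H : T.Hyp d g τ χ ε Q M G)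
    (S : T.Sm τ χ ε ζ) (hG : T.P2.pr (fun x => ¬ T.G2 G χ x) ≤ ζ) {q z : ℝ} (hz : 0 ≤ z) (hq : ε ≤ q) (hq3 : q + 2 * z ≤ 3) :
    T.P2.entC (T.c2 (q + 2 * z) (T.vy ε)) (pair (pair (T.c2 (q + z) (T.vy ε)) (T.c2 (q + 2 * z) (T.vx ε))) (T.E ε q))
      ≤ T.P2.entC (T.c2 (q + 2 * z) (T.vy ε)) (pair (T.c2 (q + 2 * z) (T.vx ε)) (T.E ε (q + z)))
        + (T.φxy ε (q + 2 * z) q - T.φxy ε (q + z) q - T.φxy ε (q + 2 * z) (q + z)) + T.er χ ζ := by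
  exact ltpd_d2 H S hz hq

end Claimed.Agent.R256
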