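import Claimed.Agent.R256.LT.Layer
import Claimed.Agent.R256.LT.Geo

/-!
# Row 256, unit LT, file MOT: the two-point kit of the mark motion at `R`      (helper61, for architect helper46)

Tools for all readings from `Yr ε q = (Z_R, X_{F,6}, θ̃_q, Ω)`  (`ltp1_resid`, `ltp2_resid`, `ltl_res`).
* readings: `ltmo_nval_det` (a label determined by reader + read label), `ltmo_nval_prod`, `ltmo_read` (cells of any base), `ltmo_read_ph` (phase cells);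
* cells: `ltmo_cell_dist`, `ltmo_trep_dist`, `ltmo_trep_congr`;   powers of `δ`: `ltmo_pw_le`, `ltmo_pw_abs`, `ltmo_pw_pow`;
* `ltmo_mot`  : two points of `supp P2 ∩ G2` with the same `Yr ε q` form an `LtgMot` with `K = δ^(-2τ)`, `e = δ^(10-τ)`, `e6 = δ^6`, frame `frz ε x`;
* `ltmo_near` : `F.Near F' δ^(q-9τ)`;   `ltmo_read_F` : `Yr ε q` reads `F_q` up to `δ^(-60τ)`;
* `ltmo_two`  : `|Δfx|, |Δfy| ≤ δ^(q+ε-14τ)`,   `δ^(3χ) |h| ≤ 2 |ΔfJ'| + δ^(6-14τ)`,   `δ^(3χ) |h| ≤ 2 |ΔfL| + δ^(6-14τ)`.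
-/

set_option autoImplicit false

namespace Claimed.Agent.R256

open scoped BigOperators
open Classical
open Claimed.Agent.R255
open Claimed.Agent.R255.FLaw

/-! ## 1. readings -/

/-- a label determined (a.e. on the event) by the reader and a read label is read with the same lists -/
theorem ltmo_nval_det {Ω α β γ : Type} [Fintype Ω] (P : FLaw Ω) (G : Ω → Prop) (A : Ω → α) (B : Ω → β) (B' : Ω → γ)
    {N : ℝ} (h : P.NVal G B A N)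
    (hd : ∀ ω ω', P.p ω ≠ 0 → P.p ω' ≠ 0 → G ω → G ω' → A ω = A ω' → B ω = B ω' → B' ω = B' ω') :
    P.NVal G B' A N := by
  intro ω₀
  obtain ⟨S, hS, hmem⟩ := h ω₀
  let f : β → Finset γ := fun b =>
    if hb : ∃ ω, P.p ω ≠ 0 ∧ G ω ∧ A ω = A ω₀ ∧ B ω = b then {B' hb.choose} else ∅
  have hf : ∀ b, (f b).card ≤ 1 := by
    intro b
    by_cases hb : ∃ ω, P.p ω ≠ 0 ∧ G ω ∧ A ω = A ω₀ ∧ B ω = b
    · simp only [f, dif_pos hb, Finset.card_singleton, le_refl]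
    · simp only [f, dif_neg hb, Finset.card_empty, Nat.zero_le]
  refine ⟨S.biUnion f, ?_, ?_⟩
  · have h1 : (S.biUnion f).card ≤ ∑ b ∈ S, (f b).card := Finset.card_biUnion_le
    have h2 : ∑ b ∈ S, (f b).card ≤ S.card := by
      calc ∑ b ∈ S, (f b).card ≤ ∑ _b ∈ S, 1 := Finset.sum_le_sum fun b _ => hf b
        _ = S.card := by simp
    exact le_trans (by exact_mod_cast h1.trans h2) hS
  · intro ω hp hG hA
    have hb : ∃ ω', P.p ω' ≠ 0 ∧ G ω' ∧ A ω' = A ω₀ ∧ B ω' = B ω := ⟨ω, hp, hG, hA, rfl⟩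
    rw [Finset.mem_biUnion]
    refine ⟨B ω, hmem ω hp hG hA, ?_⟩
    simp only [f, dif_pos hb, Finset.mem_singleton]
    obtain ⟨c1, c2, c3, c4⟩ := hb.choose_spec
    exact hd ω hb.choose hp c1 hG c2 (hA.trans c3.symm) c4.symm

/-- two labels read by the same reader -/
theorem ltmo_nval_prod {Ω α β γ : Type} [Fintype Ω] (P : FLaw Ω) (G : Ω → Prop) (A : Ω → α) (B : Ω → β) (C' : Ω → γ)
    {N M : ℝ} (hM : 0 ≤ M) (h1 : P.NVal G B A N) (h2 : P.NVal G C' A M) : P.NVal G (pair C' B) A (N * M) :=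
  ltk_nval_comp P G A B C' hM h1
    (ltk_nval_mono P h2 (fun _ h => h) (fun _ _ h => congrArg Prod.snd h) ⟨id, fun _ => rfl⟩ le_rfl)

/-- a finer reader -/
theorem ltmo_nval_reader {Ω α β γ : Type} [Fintype Ω] (P : FLaw Ω) (G : Ω → Prop) (A : Ω → α) (A' : Ω → γ) (B : Ω → β)
    {N : ℝ} (h : P.NVal G B A N) : P.NVal G B (pair A' A) N :=
  ltk_nval_mono P h (fun _ h => h) (fun _ _ h => congrArg Prod.snd h) ⟨id, fun _ => rfl⟩ le_rfl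

/-! ## 2. cells and powers -/

theorem ltmo_cell_dist {δ : ℝ} (h0 : 0 < δ) (h1 : δ < 1) {p : ℝ} (hp : 0 ≤ p) {v v' : ℝ}
    (h : tcell δ p v = tcell δ p v') : |v - v'| ≤ δ ^ p := by
  obtain ⟨l1, -⟩ := ltl_sp_lev h0 h1 hp
  have hpow : (0 : ℝ) < 2 ^ (tlev δ p) := by positivity
  have h2 : |v * 2 ^ (tlev δ p) - v' * 2 ^ (tlev δ p)| < 1 := Int.abs_sub_lt_one_of_floor_eq_floor h
  rw [← sub_mul, abs_mul, abs_of_pos hpow] at h2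
  exact le_of_mul_le_mul_right (h2.le.trans l1) hpow

theorem ltmo_trep_dist {δ : ℝ} (h0 : 0 < δ) (h1 : δ < 1) {p : ℝ} (hp : 0 ≤ p) (v : ℝ) :
    |v - trep δ p v| ≤ δ ^ p := by
  obtain ⟨l1, -⟩ := ltl_sp_lev h0 h1 hp
  have hpow : (0 : ℝ) < 2 ^ (tlev δ p) := by positivity
  have e : (v - trep δ p v) * 2 ^ (tlev δ p) = v * 2 ^ (tlev δ p) - (⌊v * 2 ^ (tlev δ p)⌋ : ℝ) := by
    unfold trep tcell
    field_simp
  have a1 := Int.floor_le (v * 2 ^ (tlev δ p))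
  have a2 := Int.lt_floor_add_one (v * 2 ^ (tlev δ p))
  have h3 : |(v - trep δ p v) * 2 ^ (tlev δ p)| ≤ 1 := by
    rw [e, abs_le]
    constructor <;> linarith
  rw [abs_mul, abs_of_pos hpow] at h3
  exact le_of_mul_le_mul_right (h3.trans l1) hpow

theorem ltmo_trep_congr {δ p v v' : ℝ} (h : tcell δ p v = tcell δ p v') : trep δ p v = trep δ p v' := by
  unfold trep
  rw [h]

/-- metric reading of a cell of any base -/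
theorem ltmo_read {Ω α : Type} [Fintype Ω] (P : FLaw Ω) (G : Ω → Prop) (A : Ω → α) (v : Ω → ℝ) {ρ p R N : ℝ}
    (h0 : 0 < ρ) (h1 : ρ < 1) (hp : 0 ≤ p) (hR : 0 ≤ R) (hN : 2 * R ≤ (N - 2) * ρ ^ p)
    (h : ∀ ω ω', P.p ω ≠ 0 → P.p ω' ≠ 0 → G ω → G ω' → A ω = A ω' → |v ω - v ω'| ≤ R) :
    P.NVal G (fun ω => tcell ρ p (v ω)) A N := by
  obtain ⟨-, l2⟩ := ltl_sp_lev h0 h1 hp
  have hh := ltk_nval_close P G A v (tlev ρ p) hR h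
  refine ltk_nval_mono P hh (fun _ h => h) (fun _ _ h => h) ⟨id, fun _ => rfl⟩ ?_
  have hpos : 0 < ρ ^ p := Real.rpow_pos_of_pos h0 p
  have h3 : R * 2 ^ (tlev ρ p) * ρ ^ p ≤ (N - 2) * ρ ^ p := by
    calc R * 2 ^ (tlev ρ p) * ρ ^ p = R * (ρ ^ p * 2 ^ (tlev ρ p)) := by ring
      _ ≤ R * 2 := mul_le_mul_of_nonneg_left l2 hR
      _ ≤ (N - 2) * ρ ^ p := by linarith
  have := le_of_mul_le_mul_right h3 hpos
  linarith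

/-- metric reading of the six cells of a phase -/
theorem ltmo_read_ph {Ω α : Type} [Fintype Ω] (P : FLaw Ω) (G : Ω → Prop) (A : Ω → α) (F : Ω → Ph) {δ p R N : ℝ}
    (h0 : 0 < δ) (h1 : δ < 1) (hp : 0 ≤ p) (hR : 0 ≤ R) (hN0 : 0 ≤ N) (hN : 2 * R ≤ (N - 2) * δ ^ p)
    (h : ∀ ω ω', P.p ω ≠ 0 → P.p ω' ≠ 0 → G ω → G ω' → A ω = A ω' → (F ω).Near (F ω') R) :
    P.NVal G (fun ω => (F ω).cell δ p) A (N ^ 6) := by
  have r1 := ltmo_read P G A (fun ω => (F ω).X) h0 h1 hp hR hN fun ω ω' a b c d e => (h ω ω' a b c d e).1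
  have r2 := ltmo_read P G A (fun ω => (F ω).B) h0 h1 hp hR hN fun ω ω' a b c d e => (h ω ω' a b c d e).2.1
  have r3 := ltmo_read P G A (fun ω => (F ω).P) h0 h1 hp hR hN fun ω ω' a b c d e => (h ω ω' a b c d e).2.2.1
  have r4 := ltmo_read P G A (fun ω => (F ω).Y) h0 h1 hp hR hN fun ω ω' a b c d e => (h ω ω' a b c d e).2.2.2.1
  have r5 := ltmo_read P G A (fun ω => (F ω).N) h0 h1 hp hR hN fun ω ω' a b c d e => (h ω ω' a b c d e).2.2.2.2.1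
  have r6 := ltmo_read P G A (fun ω => (F ω).D) h0 h1 hp hR hN fun ω ω' a b c d e => (h ω ω' a b c d e).2.2.2.2.2
  have s5 := ltmo_nval_prod P G A _ _ hN0 r6 r5
  have s4 := ltmo_nval_prod P G A _ _ hN0 s5 r4
  have s3 := ltmo_nval_prod P G A _ _ hN0 s4 r3
  have s2 := ltmo_nval_prod P G A _ _ hN0 s3 r2
  have s1 := ltmo_nval_prod P G A _ _ hN0 s2 r1
  have e : N * N * N * N * N * N = N ^ 6 := by ring
  rw [e] at s1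
  exact s1

theorem ltmo_pw_le {δ : ℝ} (h0 : 0 < δ) (h1 : δ < 1) {s t : ℝ} (h : s ≤ t) : δ ^ t ≤ δ ^ s :=
  Real.rpow_le_rpow_of_exponent_ge h0 h1.le h

/-- a numerical constant is absorbed by `δ^(-τ) ≥ 1000` -/
theorem ltmo_pw_abs {δ τ : ℝ} (h0 : 0 < δ) (hb : 1000 ≤ δ ^ (-τ)) {C : ℝ} (hC : C ≤ 1000) (s : ℝ) :
    C * δ ^ s ≤ δ ^ (s - τ) := by
  rw [sub_eq_add_neg, Real.rpow_add h0, mul_comm (δ ^ s)]
  exact mul_le_mul_of_nonneg_right (hC.trans hb) (Real.rpow_pos_of_pos h0 s).le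

theorem ltmo_pw_pow {δ : ℝ} (h0 : 0 < δ) (s : ℝ) (n : ℕ) : (δ ^ s) ^ n = δ ^ ((n : ℝ) * s) := by
  rw [← Real.rpow_natCast, ← Real.rpow_mul h0.le, mul_comm]

theorem ltmo_pw_abs2 {δ τ : ℝ} (h0 : 0 < δ) (hb : 1000 ≤ δ ^ (-τ)) {C : ℝ} (hC : C ≤ 1000000) (s : ℝ) :
    C * δ ^ s ≤ δ ^ (s - 2 * τ) := by
  have h1 := ltmo_pw_abs h0 hb (le_refl (1000 : ℝ)) s
  have h2 := ltmo_pw_abs h0 hb (C := C / 1000) (by linarith) (s - τ)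
  have e : s - τ - τ = s - 2 * τ := by ring
  rw [e] at h2
  have h3 : C / 1000 * (1000 * δ ^ s) ≤ C / 1000 * δ ^ (s - τ) ∨ C / 1000 < 0 := by
    by_cases hc : 0 ≤ C / 1000
    · exact Or.inl (mul_le_mul_of_nonneg_left h1 hc)
    · exact Or.inr (not_le.1 hc)
  rcases h3 with h3 | h3
  · calc C * δ ^ s = C / 1000 * (1000 * δ ^ s) := by ring
      _ ≤ C / 1000 * δ ^ (s - τ) := h3
      _ ≤ δ ^ (s - 2 * τ) := h2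
  · have p1 : 0 < δ ^ s := Real.rpow_pos_of_pos h0 s
    have p2 : 0 < δ ^ (s - 2 * τ) := Real.rpow_pos_of_pos h0 _
    have : C * δ ^ s ≤ 0 := mul_nonpos_of_nonpos_of_nonneg (by linarith) p1.le
    linarith

/-! ## 3. the configuration of the mark motion -/

variable {Ω : Type} [Fintype Ω] {T : LtData Ω}

theorem ltmo_bd_mono {F : Ph} {K K' : ℝ} (h : F.Bd K) (hK : K ≤ K') : F.Bd K' :=
  ⟨h.1.trans hK, h.2.1.trans hK, h.2.2.1.trans hK, h.2.2.2.1.trans hK, h.2.2.2.2.1.trans hK, h.2.2.2.2.2.trans hK⟩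

theorem ltmo_yr {ε q : ℝ} {x x' : Ω × Ω} (hY : T.Yr ε q x = T.Yr ε q x') :
    T.Zs x.2 = T.Zs x'.2 ∧ T.Xb 6 x.1 = T.Xb 6 x'.1 ∧ tcell T.δ q (T.θ 0 x.2) = tcell T.δ q (T.θ 0 x'.2) ∧
      T.Om ε x = T.Om ε x' := by
  simp only [LtData.Yr, Prod.mk.injEq] at hY
  exact ⟨hY.1.1, hY.1.2, hY.2.1, hY.2.2⟩

theorem ltmo_om {ε : ℝ} {x x' : Ω × Ω} (h : T.Om ε x = T.Om ε x') :
    tcell T.δ ε (T.β x.1) = tcell T.δ ε (T.β x'.1) ∧ tcell T.δ ε (T.κ x.1) = tcell T.δ ε (T.κ x'.1) ∧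
      tcell T.δ ε (T.θ 0 x.1) = tcell T.δ ε (T.θ 0 x'.1) ∧ tcell T.δ ε (T.gap x) = tcell T.δ ε (T.gap x') := by
  simp only [LtData.Om, LtData.OmT, LtData.Om0, Prod.mk.injEq] at h
  exact ⟨h.1.1.1, h.1.1.2, h.1.2.1.1, h.2⟩

/-- the numerology of `Sm` -/
theorem ltmo_sm {τ χ ε ζ : ℝ} (S : T.Sm τ χ ε ζ) : 0 < τ ∧ 0 < χ ∧ 0 < ε ∧ 10000 * τ ≤ ε ∧ τ ≤ 1 / 80000 := by
  have h1 := S.τpos
  have h2 := S.τχ
  have h3 := S.χε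
  have h4 := S.ε1
  refine ⟨h1, by linarith, by linarith, by linarith, by linarith⟩

/-- the frame is determined by `(F_q, Ω)` -/
theorem ltmo_frz_eq {ε q : ℝ} (h0 : 0 < T.δ) (h1 : T.δ < 1) (hq : ε ≤ q) {x x' : Ω × Ω} (hO : T.Om ε x = T.Om ε x')
    (hF : T.Fb2 q x = T.Fb2 q x') : T.frz ε x = T.frz ε x' := by
  obtain ⟨o1, o2, o3, o4⟩ := ltmo_om hO
  have hF' : (tcell T.δ q (T.F x.1).X, tcell T.δ q (T.F x.1).B, tcell T.δ q (T.F x.1).P, tcell T.δ q (T.F x.1).Y,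
      tcell T.δ q (T.F x.1).N, tcell T.δ q (T.F x.1).D) = (tcell T.δ q (T.F x'.1).X, tcell T.δ q (T.F x'.1).B,
      tcell T.δ q (T.F x'.1).P, tcell T.δ q (T.F x'.1).Y, tcell T.δ q (T.F x'.1).N, tcell T.δ q (T.F x'.1).D) := hF
  simp only [Prod.mk.injEq] at hF'
  unfold LtData.frz
  rw [ltmo_trep_congr (ltl_sp_nest h0 h1 hq hF'.1), ltmo_trep_congr (ltl_sp_nest h0 h1 hq hF'.2.2.1),
    ltmo_trep_congr o1, ltmo_trep_congr o2, ltmo_trep_congr o3, ltmo_trep_congr o4]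

theorem ltmo_frz_bd {d g τ χ ε ζ : ℝ} {Q : Finset ℝ} {M : ℝ → ℝ} {G : Ω → Prop} (H : T.Hyp d g τ χ ε Q M G)
    (S : T.Sm τ χ ε ζ) {x : Ω × Ω} (hx : T.P2.p x ≠ 0) : (T.frz ε x).Bd (T.δ ^ (-(2 * τ))) := by
  obtain ⟨p1, p2, -⟩ := ltl_supp T x hx
  obtain ⟨b1, b2, b3, b4⟩ := H.size x.1 p1
  obtain ⟨c1, -, -, -⟩ := H.size x.2 p2
  obtain ⟨-, -, hε, -, -⟩ := ltmo_sm S
  have hK := S.big
  have hK2 : T.δ ^ (-(2 * τ)) = T.δ ^ (-τ) * T.δ ^ (-τ) := by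
    rw [← Real.rpow_add H.δpos]; congr 1; ring
  have hδε : T.δ ^ ε ≤ 1 := Real.rpow_le_one H.δpos.le H.δlt.le hε.le
  have key : ∀ v : ℝ, |v| ≤ 2 * T.δ ^ (-τ) → |trep T.δ ε v| ≤ T.δ ^ (-(2 * τ)) := by
    intro v hv
    have h1 := ltmo_trep_dist H.δpos H.δlt hε.le v
    have h2 : |trep T.δ ε v| ≤ |v| + |v - trep T.δ ε v| := by
      have := abs_sub_abs_le_abs_sub (trep T.δ ε v) v
      rw [abs_sub_comm] at this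
      linarith
    rw [hK2]
    nlinarith
  have hpos : 0 ≤ T.δ ^ (-τ) := by linarith
  refine ⟨key _ ?_, key _ ?_, key _ ?_, key _ ?_, key _ ?_, key _ ?_⟩
  · linarith [b1.1]
  · linarith [b1.2.2.1]
  · linarith
  · linarith
  · linarith [(b4 0).1]
  · have := ltg_s2 b1.1 c1.1
    unfold LtData.gap
    linarith

/-- **the configuration**: two points of `supp P2 ∩ G2` with the same `Yr ε q` -/
theorem ltmo_mot {d g τ χ ε ζ : ℝ} {Q : Finset ℝ} {M : ℝ → ℝ} {G : Ω → Prop} (H : T.Hyp d g τ χ ε Q M G)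
    (S : T.Sm τ χ ε ζ) {q : ℝ} {x x' : Ω × Ω} (hx : T.P2.p x ≠ 0) (hx' : T.P2.p x' ≠ 0) (gx : T.G2 G χ x)
    (gx' : T.G2 G χ x') (hY : T.Yr ε q x = T.Yr ε q x') :
    LtgMot (T.δ ^ (-(2 * τ))) (T.δ ^ (10 - τ)) (T.δ ^ (6 : ℝ)) (T.F x.2) (T.F x.1) (T.F x'.1) (T.β x.2) (T.κ x.2)
      (T.β x.1) (T.κ x.1) (T.θ 0 x.2) (T.r 0 x.2) (T.θ 0 x.1) (T.r 0 x.1) (T.θ 0 x'.2) (T.r 0 x'.2) (T.θ 0 x'.1)
      (T.r 0 x'.1) (T.frz ε x) := by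
  obtain ⟨p1, p2, pc⟩ := ltl_supp T x hx
  obtain ⟨p1', p2', pc'⟩ := ltl_supp T x' hx'
  obtain ⟨y1, y2, -, -⟩ := ltmo_yr hY
  obtain ⟨-, sF, sβ, sκ⟩ := H.side _ _ y1
  obtain ⟨hτ, -, -, -, -⟩ := ltmo_sm S
  have hKK : T.δ ^ (-τ) ≤ T.δ ^ (-(2 * τ)) := ltmo_pw_le H.δpos H.δlt (by linarith)
  have hK1 : 1 ≤ T.δ ^ (-(2 * τ)) := le_trans (by linarith [S.big]) hKK
  obtain ⟨a1, -, -, a4⟩ := H.size x.1 p1
  obtain ⟨b1, -, b3, b4⟩ := H.size x.2 p2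
  obtain ⟨c1, -, -, -⟩ := H.size x'.1 p1'
  obtain ⟨-, -, -, d4⟩ := H.size x'.2 p2'
  refine ⟨hK1, (Real.rpow_pos_of_pos H.δpos _).le, ltmo_bd_mono b1 hKK, ltmo_bd_mono a1 hKK, ltmo_bd_mono c1 hKK,
    ltmo_frz_bd H S hx, b3.trans hKK, (a4 0).1.trans hKK, (b4 0).1.trans hKK, (d4 0).1.trans hKK, (b4 0).2.trans hKK,
    (d4 0).2.trans hKK, H.fib 0 x.2 x.1 p2 p1 gx.2.1 gx.1 pc.symm, ?_, H.sline 0 x.2 p2 gx.2.1, ?_,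
    H.sline 0 x.1 p1 gx.1, ?_⟩
  · rw [sF]
    exact H.fib 0 x'.2 x'.1 p2' p1' gx'.2.1 gx'.1 pc'.symm
  · rw [sβ, sκ]
    exact H.sline 0 x'.2 p2' gx'.2.1
  · rw [abs_sub_comm]
    exact ltmo_cell_dist H.δpos H.δlt (by norm_num) y2

theorem ltmo_mu {ε : ℝ} (h0 : 0 < T.δ) (h1 : T.δ < 1) (hε : 0 ≤ ε) (x : Ω × Ω) :
    |(T.F x.1).X - (T.frz ε x).X| + |(T.F x.1).P - (T.frz ε x).P| + |T.β x.1 - (T.frz ε x).β|
      + |T.κ x.1 - (T.frz ε x).κ| + |T.θ 0 x.1 - (T.frz ε x).θ| + |(T.F x.1).X - (T.F x.2).X - (T.frz ε x).A|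
      ≤ 6 * T.δ ^ ε := by
  have t1 : |(T.F x.1).X - (T.frz ε x).X| ≤ T.δ ^ ε := ltmo_trep_dist h0 h1 hε _
  have t2 : |(T.F x.1).P - (T.frz ε x).P| ≤ T.δ ^ ε := ltmo_trep_dist h0 h1 hε _
  have t3 : |T.β x.1 - (T.frz ε x).β| ≤ T.δ ^ ε := ltmo_trep_dist h0 h1 hε _
  have t4 : |T.κ x.1 - (T.frz ε x).κ| ≤ T.δ ^ ε := ltmo_trep_dist h0 h1 hε _
  have t5 : |T.θ 0 x.1 - (T.frz ε x).θ| ≤ T.δ ^ ε := ltmo_trep_dist h0 h1 hε _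
  have t6 : |(T.F x.1).X - (T.F x.2).X - (T.frz ε x).A| ≤ T.δ ^ ε := ltmo_trep_dist h0 h1 hε (T.gap x)
  linarith

/-- the motion of the mark -/
theorem ltmo_h {ε q : ℝ} (h0 : 0 < T.δ) (h1 : T.δ < 1) (hq : 0 ≤ q) {x x' : Ω × Ω} (hY : T.Yr ε q x = T.Yr ε q x') :
    |T.θ 0 x'.2 - T.θ 0 x.2| ≤ T.δ ^ q := by
  rw [abs_sub_comm]
  exact ltmo_cell_dist h0 h1 hq (ltmo_yr hY).2.2.1

/-- **(MOT, parent)** -/
theorem ltmo_near {d g τ χ ε ζ : ℝ} {Q : Finset ℝ} {M : ℝ → ℝ} {G : Ω → Prop} (H : T.Hyp d g τ χ ε Q M G)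
    (S : T.Sm τ χ ε ζ) {q : ℝ} (hq : ε ≤ q) (hq3 : q ≤ 3) {x x' : Ω × Ω} (hx : T.P2.p x ≠ 0) (hx' : T.P2.p x' ≠ 0)
    (gx : T.G2 G χ x) (gx' : T.G2 G χ x') (hY : T.Yr ε q x = T.Yr ε q x') :
    (T.F x.1).Near (T.F x'.1) (T.δ ^ (q - 9 * τ)) := by
  obtain ⟨hτ, -, hε, -, hτ1⟩ := ltmo_sm S
  have hn := ltg_mot_near (ltmo_mot H S hx hx' gx gx' hY)
  have hh := ltmo_h H.δpos H.δlt (hε.le.trans hq) hY
  have e6 : T.δ ^ (6 : ℝ) ≤ T.δ ^ q := ltmo_pw_le H.δpos H.δlt (by linarith)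
  have e10 : T.δ ^ (10 - τ) ≤ T.δ ^ q := ltmo_pw_le H.δpos H.δlt (by linarith)
  have hK4 : (T.δ ^ (-(2 * τ))) ^ 4 = T.δ ^ (-(8 * τ)) := by
    rw [ltmo_pw_pow H.δpos]; congr 1; push_cast; ring
  have hle : 22 * (T.δ ^ (-(2 * τ))) ^ 4 * (|T.θ 0 x'.2 - T.θ 0 x.2| + T.δ ^ (6 : ℝ) + T.δ ^ (10 - τ))
      ≤ T.δ ^ (q - 9 * τ) := by
    rw [hK4]
    have p8 : 0 < T.δ ^ (-(8 * τ)) := Real.rpow_pos_of_pos H.δpos _
    calc 22 * T.δ ^ (-(8 * τ)) * (|T.θ 0 x'.2 - T.θ 0 x.2| + T.δ ^ (6 : ℝ) + T.δ ^ (10 - τ))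
        ≤ 22 * T.δ ^ (-(8 * τ)) * (3 * T.δ ^ q) := mul_le_mul_of_nonneg_left (by linarith) (by positivity)
      _ = 66 * (T.δ ^ (-(8 * τ)) * T.δ ^ q) := by ring
      _ = 66 * T.δ ^ (q - 8 * τ) := by
          rw [← Real.rpow_add H.δpos]; congr 2; ring
      _ ≤ T.δ ^ (q - 8 * τ - τ) := ltmo_pw_abs H.δpos S.big (by norm_num) _
      _ = T.δ ^ (q - 9 * τ) := by congr 1; ring
  obtain ⟨n1, n2, n3, n4, n5, n6⟩ := hn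
  exact ⟨n1.trans hle, n2.trans hle, n3.trans hle, n4.trans hle, n5.trans hle, n6.trans hle⟩

/-- `Yr ε q` reads `F_q` -/
theorem ltmo_read_F {d g τ χ ε ζ : ℝ} {Q : Finset ℝ} {M : ℝ → ℝ} {G : Ω → Prop} (H : T.Hyp d g τ χ ε Q M G)
    (S : T.Sm τ χ ε ζ) {q : ℝ} (hq : ε ≤ q) (hq3 : q ≤ 3) :
    T.P2.NVal (T.G2 G χ) (T.Fb2 q) (T.Yr ε q) (T.δ ^ (-(60 * τ))) := by
  obtain ⟨hτ, -, hε, -, hτ1⟩ := ltmo_sm S
  have h := ltmo_read_ph T.P2 (T.G2 G χ) (T.Yr ε q) (fun x => T.F x.1) (δ := T.δ) (p := q) (R := T.δ ^ (q - 9 * τ))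
    (N := T.δ ^ (-(10 * τ))) H.δpos H.δlt (hε.le.trans hq) (Real.rpow_pos_of_pos H.δpos _).le
    (Real.rpow_pos_of_pos H.δpos _).le ?_ (fun x x' hx hx' gx gx' hY => ltmo_near H S hq hq3 hx hx' gx gx' hY)
  · have e : (T.δ ^ (-(10 * τ))) ^ 6 = T.δ ^ (-(60 * τ)) := by
      rw [ltmo_pw_pow H.δpos]; congr 1; push_cast; ring
    rw [e] at h
    exact h
  · have pq : 0 < T.δ ^ q := Real.rpow_pos_of_pos H.δpos _
    have e1 : T.δ ^ (q - 9 * τ) = T.δ ^ (-(9 * τ)) * T.δ ^ q := by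
      rw [← Real.rpow_add H.δpos]; congr 1; ring
    have e2 : 4 * T.δ ^ (-(9 * τ)) ≤ T.δ ^ (-(10 * τ)) := by
      have := ltmo_pw_abs H.δpos S.big (C := 4) (by norm_num) (-(9 * τ))
      have e : -(9 * τ) - τ = -(10 * τ) := by ring
      rwa [e] at this
    have e3 : 1 ≤ T.δ ^ (-(9 * τ)) :=
      Real.one_le_rpow_of_pos_of_le_one_of_nonpos H.δpos H.δlt.le (by linarith)
    rw [e1]
    have : 2 * T.δ ^ (-(9 * τ)) ≤ T.δ ^ (-(10 * τ)) - 2 := by linarith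
    calc 2 * (T.δ ^ (-(9 * τ)) * T.δ ^ q) = 2 * T.δ ^ (-(9 * τ)) * T.δ ^ q := by ring
      _ ≤ (T.δ ^ (-(10 * τ)) - 2) * T.δ ^ q := mul_le_mul_of_nonneg_right this pq.le

/-- **(MOT)** with all numbers -/
theorem ltmo_two {d g τ χ ε ζ : ℝ} {Q : Finset ℝ} {M : ℝ → ℝ} {G : Ω → Prop} (H : T.Hyp d g τ χ ε Q M G)
    (S : T.Sm τ χ ε ζ) {q : ℝ} (hq : ε ≤ q) (hq3 : q ≤ 3) {x x' : Ω × Ω} (hx : T.P2.p x ≠ 0) (hx' : T.P2.p x' ≠ 0)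
    (gx : T.G2 G χ x) (gx' : T.G2 G χ x') (hY : T.Yr ε q x = T.Yr ε q x') :
    |(T.frz ε x).fx (T.F x'.1) - (T.frz ε x).fx (T.F x.1)| ≤ T.δ ^ (q + ε - 14 * τ) ∧
    |(T.frz ε x).fy (T.F x'.1) - (T.frz ε x).fy (T.F x.1)| ≤ T.δ ^ (q + ε - 14 * τ) ∧
    T.δ ^ (3 * χ) * |T.θ 0 x'.2 - T.θ 0 x.2|
      ≤ 2 * |(T.frz ε x).fJ' (T.F x'.1) - (T.frz ε x).fJ' (T.F x.1)| + T.δ ^ (6 - 14 * τ) ∧
    T.δ ^ (3 * χ) * |T.θ 0 x'.2 - T.θ 0 x.2|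
      ≤ 2 * |(T.frz ε x).fL (T.F x'.1) - (T.frz ε x).fL (T.F x.1)| + T.δ ^ (6 - 14 * τ) := by
  obtain ⟨hτ, hχ, hε, hτε, hτ1⟩ := ltmo_sm S
  have h0 := H.δpos
  have h1 := H.δlt
  obtain ⟨m1, m2, m3, m4⟩ := ltg_mot_main (ltmo_mot H S hx hx' gx gx' hY) (ltmo_mu h0 h1 hε.le x)
  have hh := ltmo_h h0 h1 (hε.le.trans hq) hY
  obtain ⟨h, hdef⟩ : ∃ h : ℝ, h = |T.θ 0 x'.2 - T.θ 0 x.2| := ⟨_, rfl⟩
  rw [← hdef] at m1 m2 m3 m4 hh ⊢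
  have hh0 : 0 ≤ h := hdef ▸ abs_nonneg _
  have hK6 : (T.δ ^ (-(2 * τ))) ^ 6 = T.δ ^ (-(12 * τ)) := by
    rw [ltmo_pw_pow h0]; congr 1; push_cast; ring
  rw [hK6] at m1 m2 m3 m4
  have p12 : 0 < T.δ ^ (-(12 * τ)) := Real.rpow_pos_of_pos h0 _
  have pε : 0 < T.δ ^ ε := Real.rpow_pos_of_pos h0 _
  have p6 : 0 < T.δ ^ (6 : ℝ) := Real.rpow_pos_of_pos h0 _
  have hqε : T.δ ^ q ≤ T.δ ^ ε := ltmo_pw_le h0 h1 hq
  have e10 : T.δ ^ (10 - τ) ≤ T.δ ^ (6 : ℝ) := ltmo_pw_le h0 h1 (by linarith)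
  -- the error term
  have hE : 300 * T.δ ^ (-(12 * τ)) * (h * (6 * T.δ ^ ε + h) + T.δ ^ (6 : ℝ) + T.δ ^ (10 - τ))
      ≤ 2100 * (T.δ ^ (-(12 * τ)) * T.δ ^ ε) * h + 600 * (T.δ ^ (-(12 * τ)) * T.δ ^ (6 : ℝ)) := by
    have a1 : h * (6 * T.δ ^ ε + h) ≤ h * (7 * T.δ ^ ε) := mul_le_mul_of_nonneg_left (by linarith) hh0
    have a2 : h * (6 * T.δ ^ ε + h) + T.δ ^ (6 : ℝ) + T.δ ^ (10 - τ) ≤ 7 * T.δ ^ ε * h + 2 * T.δ ^ (6 : ℝ) := by linarith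
    calc 300 * T.δ ^ (-(12 * τ)) * (h * (6 * T.δ ^ ε + h) + T.δ ^ (6 : ℝ) + T.δ ^ (10 - τ))
        ≤ 300 * T.δ ^ (-(12 * τ)) * (7 * T.δ ^ ε * h + 2 * T.δ ^ (6 : ℝ)) :=
          mul_le_mul_of_nonneg_left a2 (by positivity)
      _ = _ := by ring
  have c1 : T.δ ^ (-(12 * τ)) * T.δ ^ ε = T.δ ^ (ε - 12 * τ) := by
    rw [← Real.rpow_add h0]; congr 1; ring
  have c2 : T.δ ^ (-(12 * τ)) * T.δ ^ (6 : ℝ) = T.δ ^ (6 - 12 * τ) := by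
    rw [← Real.rpow_add h0]; congr 1; ring
  rw [c1, c2] at hE
  -- (a)
  have hA : 2100 * T.δ ^ (ε - 12 * τ) * h + 600 * T.δ ^ (6 - 12 * τ) ≤ T.δ ^ (q + ε - 14 * τ) := by
    have pp : 0 < T.δ ^ (ε - 12 * τ) := Real.rpow_pos_of_pos h0 _
    have b1 : 2100 * T.δ ^ (ε - 12 * τ) * h ≤ 2100 * T.δ ^ (ε - 12 * τ) * T.δ ^ q :=
      mul_le_mul_of_nonneg_left hh (by positivity)
    have b2 : T.δ ^ (ε - 12 * τ) * T.δ ^ q = T.δ ^ (q + ε - 12 * τ) := by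
      rw [← Real.rpow_add h0]; congr 1; ring
    have b3 : T.δ ^ (6 - 12 * τ) ≤ T.δ ^ (q + ε - 12 * τ) := ltmo_pw_le h0 h1 (by linarith [S.ε1])
    have b4 := ltmo_pw_abs2 h0 S.big (C := 2700) (by norm_num) (q + ε - 12 * τ)
    have e : q + ε - 12 * τ - 2 * τ = q + ε - 14 * τ := by ring
    rw [e] at b4
    calc 2100 * T.δ ^ (ε - 12 * τ) * h + 600 * T.δ ^ (6 - 12 * τ)
        ≤ 2100 * (T.δ ^ (ε - 12 * τ) * T.δ ^ q) + 600 * T.δ ^ (q + ε - 12 * τ) := by linarith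
      _ = 2700 * T.δ ^ (q + ε - 12 * τ) := by rw [b2]; ring
      _ ≤ _ := b4
  -- (b)
  have hB1 : 4200 * T.δ ^ (ε - 12 * τ) ≤ T.δ ^ (3 * χ) := by
    have b4 := ltmo_pw_abs2 h0 S.big (C := 4200) (by norm_num) (ε - 12 * τ)
    exact b4.trans (ltmo_pw_le h0 h1 (by linarith [S.χε, S.τχ]))
  have hB2 : 1200 * T.δ ^ (6 - 12 * τ) ≤ T.δ ^ (6 - 14 * τ) := by
    have b4 := ltmo_pw_abs2 h0 S.big (C := 1200) (by norm_num) (6 - 12 * τ)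
    have e : 6 - 12 * τ - 2 * τ = 6 - 14 * τ := by ring
    rwa [e] at b4
  have hB3 : 2 * (2100 * T.δ ^ (ε - 12 * τ) * h) ≤ T.δ ^ (3 * χ) * h := by
    have := mul_le_mul_of_nonneg_right hB1 hh0
    linarith
  have pχ : 0 < T.δ ^ χ := Real.rpow_pos_of_pos h0 _
  have e3 : T.δ ^ (3 * χ) = T.δ ^ χ * (T.δ ^ χ * T.δ ^ χ) := by
    rw [← Real.rpow_add h0, ← Real.rpow_add h0]; congr 1; ring
  have gκ : T.δ ^ χ ≤ |T.κ x.2 - T.κ x.1| := gx.2.2.2.2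
  have gA : T.δ ^ χ ≤ |(T.F x.1).X - (T.F x.2).X| := gx.2.2.2.1
  have χ1 : T.δ ^ χ ≤ 1 := Real.rpow_le_one h0.le h1.le hχ.le
  have l3 : T.δ ^ (3 * χ) * h ≤ |T.κ x.2 - T.κ x.1| * ((T.F x.1).X - (T.F x.2).X) ^ 2 * h := by
    refine mul_le_mul_of_nonneg_right ?_ hh0
    rw [e3, ← sq_abs ((T.F x.1).X - (T.F x.2).X), sq]
    exact mul_le_mul gκ (mul_le_mul gA gA pχ.le (abs_nonneg _)) (by positivity) (abs_nonneg _)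
  have l4 : T.δ ^ (3 * χ) * h ≤ 2 * |(T.F x.1).X - (T.F x.2).X| * |T.κ x.2 - T.κ x.1| * h := by
    refine mul_le_mul_of_nonneg_right ?_ hh0
    rw [e3]
    have a1 : T.δ ^ χ * T.δ ^ χ ≤ |(T.F x.1).X - (T.F x.2).X| * |T.κ x.2 - T.κ x.1| :=
      mul_le_mul gA gκ pχ.le (abs_nonneg _)
    have a2 : T.δ ^ χ * (T.δ ^ χ * T.δ ^ χ) ≤ 1 * (T.δ ^ χ * T.δ ^ χ) :=
      mul_le_mul_of_nonneg_right χ1 (by positivity)
    have a3 : 0 ≤ |(T.F x.1).X - (T.F x.2).X| * |T.κ x.2 - T.κ x.1| := by positivity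
    nlinarith
  refine ⟨m1.trans (hE.trans hA), m2.trans (hE.trans hA), ?_, ?_⟩
  · linarith
  · linarith

end Claimed.Agent.R256
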