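import Claimed.Agent.R256.LT.App
import Claimed.Agent.R256.LT.Mot

/-!
# Row 256, unit LT, file 8b: the RESIDUAL RATES of the two applications of BOOST-E      (helper61, for architect helper46)

`ltp1_resid`, `ltp2_resid` (leaves L-LT-P1R, L-LT-P2R).   One proof for the common constructor `mkB` (`ltpr_gen`):
* `ltpr_core`  entropy: `ltk_transfer` (`T = bb dm`, `Y = WP`, `Y' = Yr ε q`, `U` = `θ̃`-cell at the mesh depth `vU = (a + ⌊dm m⌋)/ns`), `ltk_info_tail` (budget `bud2`), `ltl_snd_surC`, `time`;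
* `ltpr_WP`    `Yr ε q` reads `WP` up to `δ^(-90τ)`   (`F_q` by `ltmo_read_F`; given `F_q` : the tube and `x_{q+2z}` by `ltmo_two`);
* `ltpr_U`     `(bb dm, Yr ε q)` reads `U` up to `δ^(-75τ-3χ)`   (inversion of `fb` in `ltmo_two`).
-/

set_option autoImplicit false

namespace Claimed.Agent.R256

open scoped BigOperators
open Classical Finset
open Claimed.Agent.R255
open Claimed.Agent.R255.FLaw

variable {Ω : Type} [Fintype Ω] {T : LtData Ω}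

/-! ## 1. the entropy core -/

/-- the mesh depth of the reading -/
noncomputable def ltprV (ns a m : ℕ) (dm : ℝ) : ℝ := ((a + ⌊dm * m⌋₊ : ℕ) : ℝ) / ns

theorem ltpr_eqns_cite : True := by
  have := @ltprV.eq_1
  trivial

theorem ltpr_V {ns a m : ℕ} {q z dm : ℝ} (hns : 0 < ns) (ha : q = (a : ℝ) / ns) (hm : z = (m : ℝ) / ns) (hdm0 : 0 ≤ dm) :
    q ≤ ltprV ns a m dm ∧ ltprV ns a m dm ≤ q + dm * z ∧ q + dm * z - 1 / ns ≤ ltprV ns a m dm := by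
  have hn : (0 : ℝ) < ns := by exact_mod_cast hns
  have hx : 0 ≤ dm * m := mul_nonneg hdm0 (Nat.cast_nonneg m)
  have f1 := Nat.floor_le hx
  have f2 := Nat.lt_floor_add_one (dm * m)
  have e : ltprV ns a m dm = q + (⌊dm * m⌋₊ : ℝ) / ns := by
    unfold ltprV
    rw [ha]
    push_cast
    ring
  have e2 : dm * z = dm * m / ns := by rw [hm]; ring
  rw [e, e2]
  refine ⟨?_, ?_, ?_⟩
  · have : 0 ≤ (⌊dm * m⌋₊ : ℝ) / ns := by positivity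
    linarith
  · have := div_le_div_of_nonneg_right f1 hn.le
    linarith
  · have : (dm * m - 1) / ns ≤ (⌊dm * m⌋₊ : ℝ) / ns := div_le_div_of_nonneg_right (by linarith) hn.le
    rw [sub_div] at this
    linarith

/-- the pathwise numerics of `ltpr_core` -/
theorem ltpr_num1 {d dm z κ τ χ ℓ vq ns s0 s1 s2 l1 l2 : ℝ} (hd : 0 < d) (hd1 : d ≤ 1) (hℓ : 0 < ℓ) (hκ : 0 < κ)
    (hκ1 : κ ≤ 1) (hz : 0 < z) (hn : 0 < ns) (grid : 10 ≤ κ * z * ns) (χz : 1000 * χ ≤ κ ^ 2 * z) (τχ : 100 * τ ≤ χ)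
    (hτ : 0 < τ) (v3 : dm * z - 1 / ns ≤ vq) (hN : l1 + l2 ≤ 5 * χ * ℓ)
    (n2 : s1 - l1 - l2 - 3 * (κ * (z * ℓ) / 100) ≤ s0) (n3 : s2 ≤ s1 + κ * (z * ℓ) / 10) (n4 : (d * vq - τ) * ℓ ≤ s2) :
    (d * dm - κ) * (z * ℓ) ≤ s0 := by
  have g1 : 1 / ns ≤ κ * z / 10 := by
    rw [div_le_iff₀ hn]
    linarith
  have g2 : d * dm * z - κ * z / 10 ≤ d * vq := by
    have h3 := mul_le_mul_of_nonneg_left v3 hd.le
    have h4 : d * (1 / ns) ≤ 1 * (1 / ns) := mul_le_mul_of_nonneg_right hd1 (by positivity)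
    linarith
  have g3 : (d * dm * z - κ * z / 10 - τ) * ℓ ≤ (d * vq - τ) * ℓ :=
    mul_le_mul_of_nonneg_right (by linarith) hℓ.le
  have c3 : κ ^ 2 * z ≤ κ * z := by
    have : κ ^ 2 ≤ κ := by nlinarith
    exact mul_le_mul_of_nonneg_right this hz.le
  have g4 : (τ + 5 * χ) * ℓ ≤ κ * z / 100 * ℓ := mul_le_mul_of_nonneg_right (by linarith) hℓ.le
  have g5 : 0 < κ * z * ℓ := by positivity
  linarith

/-- the probabilities of `ltpr_core` -/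
theorem ltpr_num2 {κ z ε χ ζ τ L I : ℝ} (hκ : 0 < κ) (hκ1 : κ ≤ 1) (hz : 0 < z) (z8 : 8 * z ≤ ε) (ε1 : ε ≤ 1 / 8)
    (χz : 1000 * χ ≤ κ ^ 2 * z) (ζz : 2000 * ζ ≤ κ ^ 2 * z) (τχ : 100 * τ ≤ χ) (hL : 0 < L) (hbig : 1000 ≤ κ ^ 2 * L)
    (hI : I ≤ κ ^ 2 / 100 * L) : (I + 1) / (κ * L / 10) ≤ 11 * κ / 100 ∧ ζ ≤ κ / 2000 ∧ τ ≤ κ / 2000 := by
  have c5 : κ ^ 2 * z ≤ κ := by
    have h1 : κ ^ 2 ≤ κ := by nlinarith
    have hz1 : z ≤ 1 := by linarith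
    calc κ ^ 2 * z ≤ κ * 1 := mul_le_mul h1 hz1 hz.le hκ.le
      _ = κ := mul_one κ
  refine ⟨?_, by linarith, by linarith⟩
  rw [div_le_iff₀ (by positivity)]
  have e : 11 * κ / 100 * (κ * L / 10) = 11 * (κ ^ 2 * L) / 1000 := by ring
  rw [e]
  linarith

theorem ltpr_core {d g τ χ ε ζ κ : ℝ} {Q : Finset ℝ} {M : ℝ → ℝ} {G : Ω → Prop} {ns : ℕ} (H : T.Hyp d g τ χ ε Q M G)
    (S : T.Sm τ χ ε ζ) (hG : T.P2.pr (fun x => ¬ T.G2 G χ x) ≤ ζ) (hd : 0 < d) (hd1 : d ≤ 1) {q z : ℝ} (Z : T.Sz κ z ε χ ζ ns)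
    (hq : ε ≤ q) (hq3 : q + 3 * z ≤ 3) (hQ : ∀ k : ℕ, k ≤ 3 * ns → (k : ℝ) / ns ∈ Q) (a m : ℕ) (ha : q = (a : ℝ) / ns)
    (hm : z = (m : ℝ) / ns) (hb : T.bud2 ε q (q + z) ≤ κ ^ 2 / 100 * (z * T.ℓ))
    {α β : Type} (Tl : Ω × Ω → α) (Y : Ω × Ω → β) {dm : ℝ} (hdm0 : 0 ≤ dm) (hdm1 : dm ≤ 1) {N₁ N₂ : ℝ} (h1 : 0 < N₁)
    (h2 : 0 < N₂) (hN : Real.log N₁ + Real.log N₂ ≤ 5 * χ * T.ℓ) (hY : T.P2.NVal (T.G2 G χ) Y (T.Yr ε q) N₁)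
    (hU : T.P2.NVal (T.G2 G χ) (T.c2 (ltprV ns a m dm) T.θR) (pair Tl (T.Yr ε q)) N₂) :
    T.P2.pr (fun x => T.P2.surC Tl Y x < (d * dm - κ) * (z * T.ℓ)) ≤ κ := by
  obtain ⟨hτ, hχ, hε, -, -⟩ := ltmo_sm S
  have hℓ := ltpk_ell_pos T H.δpos H.δlt
  have hκ := Z.κpos
  have hκ1 := Z.κ1
  have hz := Z.zpos
  have hns : 0 < ns := by
    rcases Nat.eq_zero_or_pos ns with h | h
    · have := Z.grid
      rw [h] at this
      simp at this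
      linarith
    · exact h
  have hn : (0 : ℝ) < ns := by exact_mod_cast hns
  obtain ⟨v1, v2, v3⟩ := ltpr_V hns ha hm hdm0
  obtain ⟨vU, hvU⟩ : ∃ vU, vU = ltprV ns a m dm := ⟨_, rfl⟩
  rw [← hvU] at v1 v2 v3 hU
  have hzdm : dm * z ≤ z := by nlinarith
  -- the depths are queries
  have hqQ : q ∈ Q := by
    rw [ha]
    refine hQ a ?_
    have h3 : (a : ℝ) / ns ≤ 3 := by rw [← ha]; linarith
    rw [div_le_iff₀ hn] at h3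
    exact_mod_cast h3
  have hvQ : vU ∈ Q := by
    rw [hvU]
    unfold ltprV
    refine hQ _ ?_
    have h3 : ((a + ⌊dm * m⌋₊ : ℕ) : ℝ) / ns ≤ 3 := by
      have : ((a + ⌊dm * m⌋₊ : ℕ) : ℝ) / ns = vU := by rw [hvU]; rfl
      rw [this]; linarith
    rw [div_le_iff₀ hn] at h3
    exact_mod_cast h3
  obtain ⟨L, hL⟩ : ∃ L, L = z * T.ℓ := ⟨_, rfl⟩
  have hLpos : 0 < L := by rw [hL]; exact mul_pos hz hℓ
  rw [← hL] at hb ⊢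
  have hbig : 1000 ≤ κ ^ 2 * L := by rw [hL]; exact Z.big2
  -- the four bad events
  have b1 := ltk_transfer T.P2 (T.G2 G χ) Tl (T.c2 vU T.θR) Y (T.Yr ε q) h1 h2 hY hU (κ * L / 100)
  have b2 := ltk_info_tail T.P2 (T.c2 vU T.θR) (pair (fun x => T.Zs x.2) (T.c2 q T.θR)) (pair (T.Xb2 6) (T.Om ε))
    (t := κ * L / 10) (by positivity)
  have hmi : T.P2.miC (T.c2 vU T.θR) (pair (T.Xb2 6) (T.Om ε)) (pair (fun x => T.Zs x.2) (T.c2 q T.θR))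
      ≤ T.bud2 ε q (q + z) := by
    unfold LtData.bud2
    rw [ent_miC_comm, ent_miC_comm T.P2 (T.c2 (q + z) T.θR)]
    exact ent_miC_mono T.P2 _ _ _ _ fun x x' _ _ h _ => ltl_sp_nest H.δpos H.δlt (by linarith) h
  have b3 : T.P2.pr (fun x => T.P2.surC (T.c2 vU T.θR) (pair (fun x => T.Zs x.2) (T.c2 q T.θR)) x
      < (d * (vU - q) - τ) * T.ℓ) ≤ τ := by
    have e : T.P2.pr (fun x => T.P2.surC (T.c2 vU T.θR) (pair (fun x => T.Zs x.2) (T.c2 q T.θR)) x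
        < (d * (vU - q) - τ) * T.ℓ)
        = T.P.pr (fun ω => T.P.surC (T.cb vU (T.θ 0)) (pair T.Zs (T.cb q (T.θ 0))) ω < (d * (vU - q) - τ) * T.ℓ) := by
      rw [← ltl_snd_pr T]
      refine ent_pr_congr T.P2 fun x _ => ?_
      rw [show T.P2.surC (T.c2 vU T.θR) (pair (fun x => T.Zs x.2) (T.c2 q T.θR)) x
        = T.P.surC (T.cb vU (T.θ 0)) (pair T.Zs (T.cb q (T.θ 0))) x.2 from
        ltl_snd_surC T (T.cb vU (T.θ 0)) (pair T.Zs (T.cb q (T.θ 0))) x]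
    rw [e]
    exact H.time q hqQ vU hvQ v1
  have hcongr : ∀ x, T.P2.surC (T.c2 vU T.θR) (pair (pair (T.Xb2 6) (T.Om ε)) (pair (fun x => T.Zs x.2) (T.c2 q T.θR))) x
      = T.P2.surC (T.c2 vU T.θR) (T.Yr ε q) x := by
    intro x
    refine ent_surC_congr T.P2 _ _ _ _ x (fun x' _ => ?_) fun _ _ _ => Iff.rfl
    simp only [FLaw.pair, LtData.Yr, LtData.Xb2, LtData.c2, Prod.mk.injEq]
    tauto
  -- union bound
  have hsub : T.P2.pr (fun x => T.P2.surC Tl Y x < (d * dm - κ) * L) ≤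
      T.P2.pr (fun x => ((¬ T.G2 G χ x ∨ (T.G2 G χ x ∧ T.P2.surC Tl Y x
          < T.P2.surC (T.c2 vU T.θR) (T.Yr ε q) x - Real.log N₁ - Real.log N₂ - 3 * (κ * L / 100))) ∨
        T.P2.surC (T.c2 vU T.θR) (pair (pair (T.Xb2 6) (T.Om ε)) (pair (fun x => T.Zs x.2) (T.c2 q T.θR))) x + κ * L / 10
          < T.P2.surC (T.c2 vU T.θR) (pair (fun x => T.Zs x.2) (T.c2 q T.θR)) x) ∨
        T.P2.surC (T.c2 vU T.θR) (pair (fun x => T.Zs x.2) (T.c2 q T.θR)) x < (d * (vU - q) - τ) * T.ℓ) := by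
    refine ent_pr_mono T.P2 fun x _ hx => ?_
    by_contra hno
    push Not at hno
    obtain ⟨⟨⟨n1, n2⟩, n3⟩, n4⟩ := hno
    have n2' := n2 n1
    rw [hcongr x] at n3
    rw [hL] at n2' n3 hx
    have := ltpr_num1 hd hd1 hℓ hκ hκ1 hz hn Z.grid Z.χz S.τχ hτ (dm := dm) (vq := vU - q) (by linarith) hN n2' n3 n4
    linarith
  have u1 := ent_pr_or_le T.P2 (fun x => (¬ T.G2 G χ x ∨ (T.G2 G χ x ∧ T.P2.surC Tl Y x
          < T.P2.surC (T.c2 vU T.θR) (T.Yr ε q) x - Real.log N₁ - Real.log N₂ - 3 * (κ * L / 100))) ∨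
        T.P2.surC (T.c2 vU T.θR) (pair (pair (T.Xb2 6) (T.Om ε)) (pair (fun x => T.Zs x.2) (T.c2 q T.θR))) x + κ * L / 10
          < T.P2.surC (T.c2 vU T.θR) (pair (fun x => T.Zs x.2) (T.c2 q T.θR)) x)
    (fun x => T.P2.surC (T.c2 vU T.θR) (pair (fun x => T.Zs x.2) (T.c2 q T.θR)) x < (d * (vU - q) - τ) * T.ℓ)
  have u2 := ent_pr_or_le T.P2 (fun x => ¬ T.G2 G χ x ∨ (T.G2 G χ x ∧ T.P2.surC Tl Y x
          < T.P2.surC (T.c2 vU T.θR) (T.Yr ε q) x - Real.log N₁ - Real.log N₂ - 3 * (κ * L / 100)))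
    (fun x => T.P2.surC (T.c2 vU T.θR) (pair (pair (T.Xb2 6) (T.Om ε)) (pair (fun x => T.Zs x.2) (T.c2 q T.θR))) x + κ * L / 10
          < T.P2.surC (T.c2 vU T.θR) (pair (fun x => T.Zs x.2) (T.c2 q T.θR)) x)
  have u3 := ent_pr_or_le T.P2 (fun x => ¬ T.G2 G χ x) (fun x => T.G2 G χ x ∧ T.P2.surC Tl Y x
          < T.P2.surC (T.c2 vU T.θR) (T.Yr ε q) x - Real.log N₁ - Real.log N₂ - 3 * (κ * L / 100))
  -- the four probabilities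
  have q1 : Real.exp (-(κ * L / 100)) ≤ κ / 100 := by
    have e : Real.exp (-(κ * L / 100)) = T.δ ^ (κ * z / 100) := by
      rw [Real.rpow_def_of_pos H.δpos]
      congr 1
      rw [hL]
      unfold LtData.ℓ lg
      rw [one_div, Real.log_inv]
      ring
    rw [e]
    exact Z.dl
  obtain ⟨q2, q3, q4⟩ := ltpr_num2 hκ hκ1 hz Z.z8 S.ε1 Z.χz Z.ζz S.τχ hLpos hbig (hmi.trans hb)
  linarith

/-! ## 2. rounding and the normalised sources -/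

theorem ltpr_rnd (lv : ℕ) (t : ℝ) : |ltRnd lv t - t| ≤ 1 / 2 ^ lv := by
  unfold ltRnd
  have hp : (0 : ℝ) < 2 ^ lv := by positivity
  have a1 := Int.floor_le (t * 2 ^ lv)
  have a2 := Int.lt_floor_add_one (t * 2 ^ lv)
  have e : (⌊t * 2 ^ lv⌋ : ℝ) / 2 ^ lv - t = ((⌊t * 2 ^ lv⌋ : ℝ) - t * 2 ^ lv) / 2 ^ lv := by field_simp
  rw [e, abs_div, abs_of_pos hp]
  refine div_le_div_of_nonneg_right ?_ hp.le
  rw [abs_le]
  constructor <;> linarith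

theorem ltpr_tube {lv : ℕ} {α α' β β' u u0 w : ℝ} (hu : |u - u0| ≤ w) (hu1 : |u0| ≤ 2) (hβ : |β - β'| ≤ 2) :
    |(ltRnd lv α + u0 * ltRnd lv β) - (ltRnd lv α' + u0 * ltRnd lv β')|
      ≤ |α - α' + u * (β - β')| + 2 * w + 6 / 2 ^ lv := by
  have r1 := ltpr_rnd lv α
  have r2 := ltpr_rnd lv α'
  have r3 := ltpr_rnd lv β
  have r4 := ltpr_rnd lv β'
  obtain ⟨e, he⟩ : ∃ e : ℝ, e = 1 / 2 ^ lv := ⟨_, rfl⟩
  have e6 : (6 : ℝ) / 2 ^ lv = 6 * e := by rw [he]; ring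
  rw [← he] at r1 r2 r3 r4
  rw [e6]
  have e0 : (ltRnd lv α + u0 * ltRnd lv β) - (ltRnd lv α' + u0 * ltRnd lv β')
      = (α - α' + u * (β - β')) + ((u0 - u) * (β - β') + (((ltRnd lv α - α) - (ltRnd lv α' - α'))
        + u0 * ((ltRnd lv β - β) - (ltRnd lv β' - β')))) := by ring
  rw [e0]
  have hu' : |u0 - u| ≤ w := by rwa [abs_sub_comm]
  have t1 := ltg_m2 hu' hβ
  have t2 := ltg_s2 r1 r2
  have t3 := ltg_m2 hu1 (ltg_s2 r3 r4)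
  have t4 := ltg_a2 t1 (ltg_a2 t2 t3)
  have t5 := abs_add_le (α - α' + u * (β - β')) ((u0 - u) * (β - β') + (((ltRnd lv α - α) - (ltRnd lv α' - α'))
        + u0 * ((ltRnd lv β - β) - (ltRnd lv β' - β'))))
  linarith

theorem ltpr_lvl {ρ : ℝ} (h0 : 0 < ρ) (h1 : ρ < 1) : 1 / (2 : ℝ) ^ (2 * tlev ρ 1 + 3) ≤ ρ ^ 2 / 8 := by
  obtain ⟨l1, -⟩ := ltl_sp_lev h0 h1 (p := 1) zero_le_one
  rw [Real.rpow_one] at l1
  have hp : (0 : ℝ) < 2 ^ tlev ρ 1 := by positivity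
  have e : (2 : ℝ) ^ (2 * tlev ρ 1 + 3) = 8 * (2 ^ tlev ρ 1) ^ 2 := by
    rw [pow_add, mul_comm 2 (tlev ρ 1), pow_mul]; ring
  rw [e, div_le_div_iff₀ (by positivity) (by norm_num)]
  have h2 : 1 ≤ (ρ * 2 ^ tlev ρ 1) ^ 2 := one_le_pow₀ l1
  nlinarith

theorem ltpr_src_sub {ε τ q : ℝ} (j : ℕ) (f : Frz → Ph → ℝ) {x x' : Ω × Ω} (hc : T.frz ε x = T.frz ε x')
    (hr : (T.F x.1).rep T.δ q = (T.F x'.1).rep T.δ q) :
    T.srcEx ε τ q j f x - T.srcEx ε τ q j f x'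
      = (f (T.frz ε x) (T.F x.1) - f (T.frz ε x) (T.F x'.1)) * 2 ^ (tlev T.δ q) / 2 ^ (j * tlev T.δ (4 * τ)) := by
  unfold LtData.srcEx
  rw [← hc, ← hr]
  ring

/-- the normalised slope is bounded by `1` -/
theorem ltpr_u_abs {τ χ ε ζ : ℝ} (S : T.Sm τ χ ε ζ) (h0 : 0 < T.δ) {v : ℝ} (hv : |v| ≤ 3 * T.δ ^ (-τ)) :
    |v / 2 ^ (tlev T.δ (4 * τ))| ≤ 1 := by
  have hK := S.big
  have h4 := ltpk_K4 T h0 τ
  have hpk : (0 : ℝ) < 2 ^ (tlev T.δ (4 * τ)) := by positivity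
  rw [abs_div, abs_of_pos hpk, div_le_one hpk]
  obtain ⟨K, hKd⟩ : ∃ K, K = T.δ ^ (-τ) := ⟨_, rfl⟩
  rw [← hKd] at hK h4 hv
  have h8 : (3 : ℝ) ≤ K ^ 3 := le_trans (by norm_num) (pow_le_pow_left₀ (by norm_num) hK 3)
  have h7 : 3 * K ≤ K ^ 4 := by
    have e : K ^ 4 = K ^ 3 * K := by ring
    rw [e]
    exact mul_le_mul_of_nonneg_right h8 (by linarith)
  linarith

/-! ## 3. the two-point inequalities of the common constructor -/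

/-- the tube: two points with the same `(F_q, Yr ε q)` -/
theorem ltpr_tube2 {d g τ χ ε ζ : ℝ} {Q : Finset ℝ} {M : ℝ → ℝ} {G : Ω → Prop} (H : T.Hyp d g τ χ ε Q M G)
    (S : T.Sm τ χ ε ζ) {q z : ℝ} (hz : 0 < z) (hz8 : 8 * z ≤ ε) (hq : ε ≤ q)
    {fa fb fp : Frz → Ph → ℝ} (hfb : LtLip fb) (s : Frz → ℝ) {tD : Type} (D : Ω × Ω → tD)
    (hs : ∀ x, T.P2.p x ≠ 0 → |s (T.frz ε x)| ≤ 3 * T.δ ^ (-τ)) (hp : ∀ c F, fa c F + s c * fb c F = fp c F)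
    {x x' : Ω × Ω} (hx : T.P2.p x ≠ 0) (hx' : T.P2.p x' ≠ 0) (hO : T.Om ε x = T.Om ε x') (hF : T.Fb2 q x = T.Fb2 q x')
    (hfp : |fp (T.frz ε x) (T.F x'.1) - fp (T.frz ε x) (T.F x.1)| ≤ T.δ ^ (q + ε - 14 * τ)) :
    |(T.mkB ε τ q z fa fb (fun x => s (T.frz ε x)) D).y x - (T.mkB ε τ q z fa fb (fun x => s (T.frz ε x)) D).y x'|
      ≤ 5 * T.δ ^ (z - 14 * τ) := by
  obtain ⟨hτ, -, hε, -, -⟩ := ltmo_sm S
  have h0 := H.δpos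
  have h1 := H.δlt
  have hc := ltmo_frz_eq h0 h1 hq hO hF
  have hr : (T.F x.1).rep T.δ q = (T.F x'.1).rep T.δ q := ltp_rep_congr hF
  have ρ0 : 0 < T.δ ^ z := Real.rpow_pos_of_pos h0 z
  have ρ1 : T.δ ^ z < 1 := Real.rpow_lt_one h0.le h1 hz
  obtain ⟨u, hu⟩ : ∃ u, u = s (T.frz ε x) / 2 ^ (tlev T.δ (4 * τ)) := ⟨_, rfl⟩
  have ey : (T.mkB ε τ q z fa fb (fun x => s (T.frz ε x)) D).y x
      = ltRnd (T.lvl z) (T.srcEx ε τ q 2 fa x) + trep (T.δ ^ z) 1 u * ltRnd (T.lvl z) (T.srcEx ε τ q 1 fb x) := by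
    rw [hu]; rfl
  have ey' : (T.mkB ε τ q z fa fb (fun x => s (T.frz ε x)) D).y x'
      = ltRnd (T.lvl z) (T.srcEx ε τ q 2 fa x') + trep (T.δ ^ z) 1 u * ltRnd (T.lvl z) (T.srcEx ε τ q 1 fb x') := by
    rw [hu, hc]; rfl
  rw [ey, ey']
  have u1 : |u| ≤ 1 := by rw [hu]; exact ltpr_u_abs S h0 (hs x hx)
  have u2 : |u - trep (T.δ ^ z) 1 u| ≤ T.δ ^ z := by
    have := ltmo_trep_dist ρ0 ρ1 (p := 1) zero_le_one u
    rwa [Real.rpow_one] at this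
  have u3 : |trep (T.δ ^ z) 1 u| ≤ 2 := by
    have := abs_sub_abs_le_abs_sub (trep (T.δ ^ z) 1 u) u
    rw [abs_sub_comm] at this
    linarith
  have hβ : |T.srcEx ε τ q 1 fb x - T.srcEx ε τ q 1 fb x'| ≤ 2 := by
    have := ltg_s2 (ltp_src_abs H S q hfb le_rfl hx) (ltp_src_abs H S q hfb le_rfl hx')
    linarith
  have ht := ltpr_tube (lv := T.lvl z) (α := T.srcEx ε τ q 2 fa x) (α' := T.srcEx ε τ q 2 fa x') u2 u3 hβ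
  -- the main term
  have hpk : (0 : ℝ) < 2 ^ (tlev T.δ (4 * τ)) := by positivity
  have hpk1 : (1 : ℝ) ≤ 2 ^ (tlev T.δ (4 * τ)) := one_le_pow₀ (by norm_num)
  have hpq : (0 : ℝ) < 2 ^ (tlev T.δ q) := by positivity
  have em : T.srcEx ε τ q 2 fa x - T.srcEx ε τ q 2 fa x' + u * (T.srcEx ε τ q 1 fb x - T.srcEx ε τ q 1 fb x')
      = (fp (T.frz ε x) (T.F x.1) - fp (T.frz ε x) (T.F x'.1)) * 2 ^ (tlev T.δ q)
        / (2 ^ (tlev T.δ (4 * τ)) * 2 ^ (tlev T.δ (4 * τ))) := by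
    rw [ltpr_src_sub 2 fa hc hr, ltpr_src_sub 1 fb hc hr, hu, ← hp, ← hp, one_mul, two_mul, pow_add]
    field_simp
    ring
  have hm : |T.srcEx ε τ q 2 fa x - T.srcEx ε τ q 2 fa x' + u * (T.srcEx ε τ q 1 fb x - T.srcEx ε τ q 1 fb x')|
      ≤ 2 * T.δ ^ (z - 14 * τ) := by
    rw [em, abs_div, abs_mul, abs_of_pos hpq, abs_of_pos (mul_pos hpk hpk), abs_sub_comm]
    have l2 := (ltl_sp_lev h0 h1 (hε.le.trans hq)).2
    have a1 : |fp (T.frz ε x) (T.F x'.1) - fp (T.frz ε x) (T.F x.1)| * 2 ^ (tlev T.δ q)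
        ≤ 2 * T.δ ^ (z - 14 * τ) := by
      calc |fp (T.frz ε x) (T.F x'.1) - fp (T.frz ε x) (T.F x.1)| * 2 ^ (tlev T.δ q)
          ≤ T.δ ^ (q + ε - 14 * τ) * 2 ^ (tlev T.δ q) := mul_le_mul_of_nonneg_right hfp hpq.le
        _ = T.δ ^ (ε - 14 * τ) * (T.δ ^ q * 2 ^ (tlev T.δ q)) := by
            rw [← mul_assoc, ← Real.rpow_add h0]; congr 2; ring
        _ ≤ T.δ ^ (ε - 14 * τ) * 2 := mul_le_mul_of_nonneg_left l2 (Real.rpow_pos_of_pos h0 _).le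
        _ ≤ T.δ ^ (z - 14 * τ) * 2 :=
            mul_le_mul_of_nonneg_right (ltmo_pw_le h0 h1 (by linarith)) (by norm_num)
        _ = 2 * T.δ ^ (z - 14 * τ) := mul_comm _ _
    have a2 : (1 : ℝ) ≤ 2 ^ (tlev T.δ (4 * τ)) * 2 ^ (tlev T.δ (4 * τ)) := by nlinarith
    refine le_trans (div_le_self (by positivity) a2) a1
  have hl : (6 : ℝ) / 2 ^ (T.lvl z) ≤ T.δ ^ z := by
    have := ltpr_lvl ρ0 ρ1
    have e : (6 : ℝ) / 2 ^ (T.lvl z) = 6 * (1 / 2 ^ (2 * tlev (T.δ ^ z) 1 + 3)) := by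
      unfold LtData.lvl; ring
    rw [e]
    nlinarith
  have hz14 : T.δ ^ z ≤ T.δ ^ (z - 14 * τ) := ltmo_pw_le h0 h1 (by linarith)
  linarith

/-- the inversion: two points with the same `(F_q, bb dm, Yr ε q)` -/
theorem ltpr_inv2 {d g τ χ ε ζ : ℝ} {Q : Finset ℝ} {M : ℝ → ℝ} {G : Ω → Prop} (H : T.Hyp d g τ χ ε Q M G)
    (S : T.Sm τ χ ε ζ) {q z : ℝ} (hz : 0 < z) (hq : ε ≤ q) (hq3 : q + 3 * z ≤ 3)
    (fa fb : Frz → Ph → ℝ) (s : Frz → ℝ) {tD : Type} (D : Ω × Ω → tD) {dm : ℝ} (hdm0 : 0 < dm) (hdm1 : dm ≤ 1)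
    {x x' : Ω × Ω} (hO : T.Om ε x = T.Om ε x') (hF : T.Fb2 q x = T.Fb2 q x')
    (hbb : (T.mkB ε τ q z fa fb (fun x => s (T.frz ε x)) D).bb dm x
      = (T.mkB ε τ q z fa fb (fun x => s (T.frz ε x)) D).bb dm x')
    (hinv : T.δ ^ (3 * χ) * |T.θ 0 x'.2 - T.θ 0 x.2|
      ≤ 2 * |fb (T.frz ε x) (T.F x'.1) - fb (T.frz ε x) (T.F x.1)| + T.δ ^ (6 - 14 * τ)) :
    |T.θR x - T.θR x'| ≤ 9 * T.δ ^ (q + dm * z - 14 * τ - 3 * χ) := by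
  obtain ⟨hτ, hχ, hε, -, -⟩ := ltmo_sm S
  have h0 := H.δpos
  have h1 := H.δlt
  have hc := ltmo_frz_eq h0 h1 hq hO hF
  have hr : (T.F x.1).rep T.δ q = (T.F x'.1).rep T.δ q := ltp_rep_congr hF
  have ρ0 : 0 < T.δ ^ z := Real.rpow_pos_of_pos h0 z
  have ρ1 : T.δ ^ z < 1 := Real.rpow_lt_one h0.le h1 hz
  -- the rounded sources are close
  have hb1 : tcell (T.δ ^ z) dm (ltRnd (T.lvl z) (T.srcEx ε τ q 1 fb x))
      = tcell (T.δ ^ z) dm (ltRnd (T.lvl z) (T.srcEx ε τ q 1 fb x')) := by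
    have h2 : bbin (T.δ ^ z) dm (ltRnd (T.lvl z) (T.srcEx ε τ q 1 fb x))
        = bbin (T.δ ^ z) dm (ltRnd (T.lvl z) (T.srcEx ε τ q 1 fb x')) := hbb
    unfold bbin at h2
    rwa [if_neg (not_le.2 hdm0), if_neg (not_le.2 hdm0)] at h2
  have hb2 := ltmo_cell_dist ρ0 ρ1 hdm0.le hb1
  have eρ : (T.δ ^ z) ^ dm = T.δ ^ (dm * z) := by
    rw [← Real.rpow_mul h0.le, mul_comm]
  rw [eρ] at hb2
  have r1 := ltpr_rnd (T.lvl z) (T.srcEx ε τ q 1 fb x)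
  have r2 := ltpr_rnd (T.lvl z) (T.srcEx ε τ q 1 fb x')
  have hl : (1 : ℝ) / 2 ^ (T.lvl z) ≤ T.δ ^ (dm * z) / 8 := by
    have h3 := ltpr_lvl ρ0 ρ1
    have e2 : (T.δ ^ z) ^ 2 = T.δ ^ (2 * z) := by
      rw [ltmo_pw_pow h0]; norm_num
    rw [e2] at h3
    have h4 : T.δ ^ (2 * z) ≤ T.δ ^ (dm * z) := ltmo_pw_le h0 h1 (by nlinarith)
    have e : (1 : ℝ) / 2 ^ (T.lvl z) = 1 / 2 ^ (2 * tlev (T.δ ^ z) 1 + 3) := rfl
    rw [e]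
    linarith
  have pdz : 0 < T.δ ^ (dm * z) := Real.rpow_pos_of_pos h0 _
  have hβ : |T.srcEx ε τ q 1 fb x - T.srcEx ε τ q 1 fb x'| ≤ 2 * T.δ ^ (dm * z) := by
    have e : T.srcEx ε τ q 1 fb x - T.srcEx ε τ q 1 fb x'
        = (ltRnd (T.lvl z) (T.srcEx ε τ q 1 fb x) - ltRnd (T.lvl z) (T.srcEx ε τ q 1 fb x'))
          - ((ltRnd (T.lvl z) (T.srcEx ε τ q 1 fb x) - T.srcEx ε τ q 1 fb x)
            - (ltRnd (T.lvl z) (T.srcEx ε τ q 1 fb x') - T.srcEx ε τ q 1 fb x')) := by ring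
    rw [e]
    have := ltg_s2 hb2 (ltg_s2 r1 r2)
    linarith
  -- back to the form
  have hpk : (0 : ℝ) < 2 ^ (tlev T.δ (4 * τ)) := by positivity
  have hpq : (0 : ℝ) < 2 ^ (tlev T.δ q) := by positivity
  have lq := (ltl_sp_lev h0 h1 (hε.le.trans hq)).1
  have lk := (ltl_sp_lev h0 h1 (p := 4 * τ) (by linarith)).2
  have hΔ : |fb (T.frz ε x) (T.F x'.1) - fb (T.frz ε x) (T.F x.1)| ≤ 4 * T.δ ^ (q + dm * z - 4 * τ) := by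
    rw [ltpr_src_sub 1 fb hc hr, one_mul, abs_div, abs_mul, abs_of_pos hpq, abs_of_pos hpk, div_le_iff₀ hpk,
      abs_sub_comm] at hβ
    obtain ⟨A, hA⟩ : ∃ A, A = |fb (T.frz ε x) (T.F x'.1) - fb (T.frz ε x) (T.F x.1)| := ⟨_, rfl⟩
    rw [← hA] at hβ ⊢
    have hA0 : 0 ≤ A := hA ▸ abs_nonneg _
    have pq : 0 < T.δ ^ q := Real.rpow_pos_of_pos h0 _
    have p4 : 0 < T.δ ^ (4 * τ) := Real.rpow_pos_of_pos h0 _
    have e : T.δ ^ (q + dm * z - 4 * τ) * T.δ ^ (4 * τ) = T.δ ^ q * T.δ ^ (dm * z) := by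
      rw [← Real.rpow_add h0, ← Real.rpow_add h0]; congr 1; ring
    -- `A ≤ A δ^q 2^nq ≤ δ^q 2 δ^(dm z) 2^kn`, `δ^(4τ) 2^kn ≤ 2`
    have a1 : A * T.δ ^ (4 * τ) ≤ 4 * T.δ ^ (q + dm * z - 4 * τ) * T.δ ^ (4 * τ) := by
      calc A * T.δ ^ (4 * τ) = A * 1 * T.δ ^ (4 * τ) := by ring
        _ ≤ A * (T.δ ^ q * 2 ^ (tlev T.δ q)) * T.δ ^ (4 * τ) :=
            mul_le_mul_of_nonneg_right (mul_le_mul_of_nonneg_left lq hA0) p4.le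
        _ = (A * 2 ^ (tlev T.δ q)) * (T.δ ^ q * T.δ ^ (4 * τ)) := by ring
        _ ≤ (2 * T.δ ^ (dm * z) * 2 ^ (tlev T.δ (4 * τ))) * (T.δ ^ q * T.δ ^ (4 * τ)) :=
            mul_le_mul_of_nonneg_right hβ (by positivity)
        _ = 2 * (T.δ ^ q * T.δ ^ (dm * z)) * (T.δ ^ (4 * τ) * 2 ^ (tlev T.δ (4 * τ))) := by ring
        _ ≤ 2 * (T.δ ^ q * T.δ ^ (dm * z)) * 2 := mul_le_mul_of_nonneg_left lk (by positivity)
        _ = 4 * T.δ ^ (q + dm * z - 4 * τ) * T.δ ^ (4 * τ) := by rw [mul_assoc 4, e]; ring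
    exact le_of_mul_le_mul_right a1 p4
  have c1 : T.δ ^ (q + dm * z - 4 * τ) ≤ T.δ ^ (q + dm * z - 14 * τ) := ltmo_pw_le h0 h1 (by linarith)
  have c2 : T.δ ^ (6 - 14 * τ) ≤ T.δ ^ (q + dm * z - 14 * τ) := ltmo_pw_le h0 h1 (by nlinarith)
  have c3 : T.δ ^ (3 * χ) * |T.θ 0 x'.2 - T.θ 0 x.2| ≤ 9 * T.δ ^ (q + dm * z - 14 * τ) := by linarith
  have p3 : 0 < T.δ ^ (3 * χ) := Real.rpow_pos_of_pos h0 _
  have e : T.δ ^ (q + dm * z - 14 * τ) = T.δ ^ (3 * χ) * T.δ ^ (q + dm * z - 14 * τ - 3 * χ) := by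
    rw [← Real.rpow_add h0]; congr 1; ring
  rw [e] at c3
  have c4 : T.δ ^ (3 * χ) * |T.θ 0 x'.2 - T.θ 0 x.2| ≤ T.δ ^ (3 * χ) * (9 * T.δ ^ (q + dm * z - 14 * τ - 3 * χ)) := by
    linarith
  have c5 := le_of_mul_le_mul_left c4 p3
  rw [abs_sub_comm] at c5
  exact c5

/-! ## 4. the two readings -/

/-- `N = δ^(-s-τ)` is large enough for the radius `C δ^(p-s)`, `C ≤ 100` -/
theorem ltpr_size {δ τ : ℝ} (h0 : 0 < δ) (h1 : δ < 1) (hb : 1000 ≤ δ ^ (-τ)) {C p s : ℝ} (hC : C ≤ 100)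
    (hs : 0 ≤ s) : 2 * (C * δ ^ (p - s)) ≤ (δ ^ (-(s + τ)) - 2) * δ ^ p := by
  have pp : 0 < δ ^ p := Real.rpow_pos_of_pos h0 _
  have e1 : δ ^ (p - s) = δ ^ (-s) * δ ^ p := by
    rw [← Real.rpow_add h0]; congr 1; ring
  have e2 : 1000 * δ ^ (-s) ≤ δ ^ (-(s + τ)) := by
    have := ltmo_pw_abs h0 hb (le_refl (1000 : ℝ)) (-s)
    have e : -s - τ = -(s + τ) := by ring
    rwa [e] at this
  have e3 : 1 ≤ δ ^ (-s) := Real.one_le_rpow_of_pos_of_le_one_of_nonpos h0 h1.le (by linarith)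
  rw [e1]
  have h3 : 2 * C * δ ^ (-s) ≤ δ ^ (-(s + τ)) - 2 := by nlinarith
  calc 2 * (C * (δ ^ (-s) * δ ^ p)) = 2 * C * δ ^ (-s) * δ ^ p := by ring
    _ ≤ (δ ^ (-(s + τ)) - 2) * δ ^ p := mul_le_mul_of_nonneg_right h3 pp.le

/-- `Yr ε q` reads `WP` -/
theorem ltpr_WP {d g τ χ ε ζ : ℝ} {Q : Finset ℝ} {M : ℝ → ℝ} {G : Ω → Prop} (H : T.Hyp d g τ χ ε Q M G)
    (S : T.Sm τ χ ε ζ) {q z : ℝ} (hz : 0 < z) (hz8 : 8 * z ≤ ε) (hq : ε ≤ q) (hq3 : q + 3 * z ≤ 3)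
    {fa fb fp : Frz → Ph → ℝ} (hfb : LtLip fb) (s : Frz → ℝ) {tD : Type} (D : Ω × Ω → tD)
    (hs : ∀ x, T.P2.p x ≠ 0 → |s (T.frz ε x)| ≤ 3 * T.δ ^ (-τ)) (hp : ∀ c F, fa c F + s c * fb c F = fp c F)
    (hfp : ∀ x x', T.P2.p x ≠ 0 → T.P2.p x' ≠ 0 → T.G2 G χ x → T.G2 G χ x' → T.Yr ε q x = T.Yr ε q x' →
      |fp (T.frz ε x) (T.F x'.1) - fp (T.frz ε x) (T.F x.1)| ≤ T.δ ^ (q + ε - 14 * τ))
    (hD : ∀ x x', T.P2.p x ≠ 0 → T.P2.p x' ≠ 0 → T.Yr ε q x = T.Yr ε q x' → T.Fb2 q x = T.Fb2 q x' →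
      T.c2 (q + 2 * z) (T.vx ε) x = T.c2 (q + 2 * z) (T.vx ε) x' → D x = D x') :
    T.P2.NVal (T.G2 G χ) (T.mkB ε τ q z fa fb (fun x => s (T.frz ε x)) D).WP (T.Yr ε q) (T.δ ^ (-(90 * τ))) := by
  obtain ⟨hτ, -, hε, -, -⟩ := ltmo_sm S
  have h0 := H.δpos
  have h1 := H.δlt
  have ρ0 : 0 < T.δ ^ z := Real.rpow_pos_of_pos h0 z
  have ρ1 : T.δ ^ z < 1 := Real.rpow_lt_one h0.le h1 hz
  have hq3' : q ≤ 3 := by linarith
  have rF := ltmo_read_F H S hq hq3'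
  -- the tube
  have rT : T.P2.NVal (T.G2 G χ)
      (fun x => tcell (T.δ ^ z) 1 ((T.mkB ε τ q z fa fb (fun x => s (T.frz ε x)) D).y x))
      (pair (T.Fb2 q) (T.Yr ε q)) (T.δ ^ (-(15 * τ))) := by
    refine ltmo_read T.P2 _ _ _ ρ0 ρ1 zero_le_one (R := 5 * T.δ ^ (z - 14 * τ)) (by positivity) ?_ ?_
    · have := ltpr_size h0 h1 S.big (C := 5) (p := z) (s := 14 * τ) (by norm_num) (by linarith)
      rw [Real.rpow_one]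
      have e : -(14 * τ + τ) = -(15 * τ) := by ring
      rwa [e] at this
    · intro x x' hx hx' gx gx' hA
      have hF : T.Fb2 q x = T.Fb2 q x' := congrArg Prod.fst hA
      have hY : T.Yr ε q x = T.Yr ε q x' := congrArg Prod.snd hA
      exact ltpr_tube2 H S hz hz8 hq hfb s D hs hp hx hx' (ltmo_yr hY).2.2.2 hF (hfp x x' hx hx' gx gx' hY)
  -- the child cell of `x`
  have rX : T.P2.NVal (T.G2 G χ) (T.c2 (q + 2 * z) (T.vx ε)) (pair (T.Fb2 q) (T.Yr ε q)) (T.δ ^ (-(15 * τ))) := by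
    refine ltmo_read T.P2 _ _ (T.vx ε) h0 h1 (by linarith) (R := 1 * T.δ ^ (q + 2 * z - 14 * τ)) (by positivity) ?_ ?_
    · have := ltpr_size h0 h1 S.big (C := 1) (p := q + 2 * z) (s := 14 * τ) (by norm_num) (by linarith)
      have e : -(14 * τ + τ) = -(15 * τ) := by ring
      rwa [e] at this
    · intro x x' hx hx' gx gx' hA
      have hF : T.Fb2 q x = T.Fb2 q x' := congrArg Prod.fst hA
      have hY : T.Yr ε q x = T.Yr ε q x' := congrArg Prod.snd hA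
      have hc := ltmo_frz_eq h0 h1 hq (ltmo_yr hY).2.2.2 hF
      have h2 := (ltmo_two H S hq hq3' hx hx' gx gx' hY).1
      have e : T.vx ε x - T.vx ε x' = -((T.frz ε x).fx (T.F x'.1) - (T.frz ε x).fx (T.F x.1)) := by
        unfold LtData.vx
        rw [← hc]; ring
      rw [e, abs_neg, one_mul]
      exact h2.trans (ltmo_pw_le h0 h1 (by linarith))
  have p15 : 0 < T.δ ^ (-(15 * τ)) := Real.rpow_pos_of_pos h0 _
  have rTX := ltmo_nval_prod T.P2 _ _ _ _ p15.le rT rX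
  have rAll := ltk_nval_comp T.P2 _ _ _ _ (mul_pos p15 p15).le rF rTX
  have e : T.δ ^ (-(60 * τ)) * (T.δ ^ (-(15 * τ)) * T.δ ^ (-(15 * τ))) = T.δ ^ (-(90 * τ)) := by
    rw [← Real.rpow_add h0, ← Real.rpow_add h0]; congr 1; ring
  rw [e] at rAll
  refine ltmo_nval_det T.P2 _ _ _ _ rAll ?_
  intro x x' hx hx' _ _ hY hB
  have hF : T.Fb2 q x = T.Fb2 q x' := congrArg Prod.snd hB
  have hX : T.c2 (q + 2 * z) (T.vx ε) x = T.c2 (q + 2 * z) (T.vx ε) x' := congrArg (fun w => w.1.1) hB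
  have hT : tcell (T.δ ^ z) 1 ((T.mkB ε τ q z fa fb (fun x => s (T.frz ε x)) D).y x)
      = tcell (T.δ ^ z) 1 ((T.mkB ε τ q z fa fb (fun x => s (T.frz ε x)) D).y x') := congrArg (fun w => w.1.2) hB
  have hO := (ltmo_yr hY).2.2.2
  have hc := ltmo_frz_eq h0 h1 hq hO hF
  show (T.Om ε x, (D x, tcell (T.δ ^ z) 1 (s (T.frz ε x) / 2 ^ (tlev T.δ (4 * τ))),
      tcell (T.δ ^ z) 1 ((T.mkB ε τ q z fa fb (fun x => s (T.frz ε x)) D).y x)))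
    = (T.Om ε x', (D x', tcell (T.δ ^ z) 1 (s (T.frz ε x') / 2 ^ (tlev T.δ (4 * τ))),
      tcell (T.δ ^ z) 1 ((T.mkB ε τ q z fa fb (fun x => s (T.frz ε x)) D).y x')))
  rw [hO, hD x x' hx hx' hY hF hX, hc, hT]

/-- `(bb dm, Yr ε q)` reads the cell of the mark of the copy -/
theorem ltpr_U {d g τ χ ε ζ : ℝ} {Q : Finset ℝ} {M : ℝ → ℝ} {G : Ω → Prop} (H : T.Hyp d g τ χ ε Q M G)
    (S : T.Sm τ χ ε ζ) {q z : ℝ} (hz : 0 < z) (hq : ε ≤ q) (hq3 : q + 3 * z ≤ 3)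
    (fa fb : Frz → Ph → ℝ) (s : Frz → ℝ) {tD : Type} (D : Ω × Ω → tD) {dm : ℝ} (hdm0 : 0 < dm) (hdm1 : dm ≤ 1)
    (hinv : ∀ x x', T.P2.p x ≠ 0 → T.P2.p x' ≠ 0 → T.G2 G χ x → T.G2 G χ x' → T.Yr ε q x = T.Yr ε q x' →
      T.δ ^ (3 * χ) * |T.θ 0 x'.2 - T.θ 0 x.2|
        ≤ 2 * |fb (T.frz ε x) (T.F x'.1) - fb (T.frz ε x) (T.F x.1)| + T.δ ^ (6 - 14 * τ))
    {vU : ℝ} (hv0 : 0 ≤ vU) (hv : vU ≤ q + dm * z) :
    T.P2.NVal (T.G2 G χ) (T.c2 vU T.θR) (pair ((T.mkB ε τ q z fa fb (fun x => s (T.frz ε x)) D).bb dm) (T.Yr ε q))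
      (T.δ ^ (-(75 * τ + 3 * χ))) := by
  obtain ⟨hτ, hχ, hε, -, -⟩ := ltmo_sm S
  have h0 := H.δpos
  have h1 := H.δlt
  have rF := ltmo_nval_reader T.P2 _ _ ((T.mkB ε τ q z fa fb (fun x => s (T.frz ε x)) D).bb dm)
    _ (ltmo_read_F H S hq (by linarith : q ≤ 3))
  have rU : T.P2.NVal (T.G2 G χ) (T.c2 vU T.θR)
      (pair (T.Fb2 q) (pair ((T.mkB ε τ q z fa fb (fun x => s (T.frz ε x)) D).bb dm) (T.Yr ε q)))
      (T.δ ^ (-(15 * τ + 3 * χ))) := by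
    refine ltmo_read T.P2 _ _ T.θR h0 h1 hv0 (R := 9 * T.δ ^ (vU - (14 * τ + 3 * χ))) (by positivity) ?_ ?_
    · have := ltpr_size h0 h1 S.big (C := 9) (p := vU) (s := 14 * τ + 3 * χ) (by norm_num) (by linarith)
      have e : -(14 * τ + 3 * χ + τ) = -(15 * τ + 3 * χ) := by ring
      rwa [e] at this
    · intro x x' hx hx' gx gx' hA
      have hF : T.Fb2 q x = T.Fb2 q x' := congrArg Prod.fst hA
      have hb := congrArg (fun w => w.2.1) hA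
      have hY : T.Yr ε q x = T.Yr ε q x' := congrArg (fun w => w.2.2) hA
      refine (ltpr_inv2 H S hz hq hq3 fa fb s D hdm0 hdm1 (ltmo_yr hY).2.2.2 hF hb (hinv x x' hx hx' gx gx' hY)).trans ?_
      exact mul_le_mul_of_nonneg_left (ltmo_pw_le h0 h1 (by linarith)) (by norm_num)
  have rAll := ltk_nval_comp T.P2 _ _ _ _ (Real.rpow_pos_of_pos h0 _).le rF rU
  have e : T.δ ^ (-(60 * τ)) * T.δ ^ (-(15 * τ + 3 * χ)) = T.δ ^ (-(75 * τ + 3 * χ)) := by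
    rw [← Real.rpow_add h0]; congr 1; ring
  rw [e] at rAll
  exact ltk_nval_mono T.P2 rAll (fun _ h => h) (fun _ _ h => h) ⟨Prod.fst, fun _ => rfl⟩ le_rfl

/-! ## 5. the residual rate of the common constructor -/

theorem ltpr_gen {d g τ χ ε ζ κ : ℝ} {Q : Finset ℝ} {M : ℝ → ℝ} {G : Ω → Prop} {ns : ℕ} (H : T.Hyp d g τ χ ε Q M G)
    (S : T.Sm τ χ ε ζ) (hG : T.P2.pr (fun x => ¬ T.G2 G χ x) ≤ ζ) (hd : 0 < d) (hd1 : d ≤ 1) {q z : ℝ} (Z : T.Sz κ z ε χ ζ ns)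
    (hq : ε ≤ q) (hq3 : q + 3 * z ≤ 3) (hQ : ∀ k : ℕ, k ≤ 3 * ns → (k : ℝ) / ns ∈ Q) (a m : ℕ) (ha : q = (a : ℝ) / ns)
    (hm : z = (m : ℝ) / ns) (hb : T.bud2 ε q (q + z) ≤ κ ^ 2 / 100 * (z * T.ℓ))
    {fa fb fp : Frz → Ph → ℝ} (hfb : LtLip fb) (s : Frz → ℝ) {tD : Type} (D : Ω × Ω → tD)
    (hs : ∀ x, T.P2.p x ≠ 0 → |s (T.frz ε x)| ≤ 3 * T.δ ^ (-τ)) (hp : ∀ c F, fa c F + s c * fb c F = fp c F)
    (hfp : ∀ x x', T.P2.p x ≠ 0 → T.P2.p x' ≠ 0 → T.G2 G χ x → T.G2 G χ x' → T.Yr ε q x = T.Yr ε q x' →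
      |fp (T.frz ε x) (T.F x'.1) - fp (T.frz ε x) (T.F x.1)| ≤ T.δ ^ (q + ε - 14 * τ))
    (hinv : ∀ x x', T.P2.p x ≠ 0 → T.P2.p x' ≠ 0 → T.G2 G χ x → T.G2 G χ x' → T.Yr ε q x = T.Yr ε q x' →
      T.δ ^ (3 * χ) * |T.θ 0 x'.2 - T.θ 0 x.2|
        ≤ 2 * |fb (T.frz ε x) (T.F x'.1) - fb (T.frz ε x) (T.F x.1)| + T.δ ^ (6 - 14 * τ))
    (hD : ∀ x x', T.P2.p x ≠ 0 → T.P2.p x' ≠ 0 → T.Yr ε q x = T.Yr ε q x' → T.Fb2 q x = T.Fb2 q x' →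
      T.c2 (q + 2 * z) (T.vx ε) x = T.c2 (q + 2 * z) (T.vx ε) x' → D x = D x') (N : ℕ) :
    ∀ dm ∈ mesh N, T.P2.pr (fun x => T.P2.surC ((T.mkB ε τ q z fa fb (fun x => s (T.frz ε x)) D).bb dm)
      (T.mkB ε τ q z fa fb (fun x => s (T.frz ε x)) D).WP x < (d * dm - κ) * (z * T.ℓ)) ≤ κ := by
  intro dm hdm
  obtain ⟨k, hk, hkd⟩ := hdm
  have hdm0 : 0 ≤ dm := by rw [hkd]; positivity
  have hdm1 : dm ≤ 1 := by
    rw [hkd]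
    exact div_le_one_of_le₀ (by exact_mod_cast hk) (Nat.cast_nonneg N)
  obtain ⟨hτ, hχ, hε, -, -⟩ := ltmo_sm S
  have hℓ := ltpk_ell_pos T H.δpos H.δlt
  rcases hdm0.eq_or_lt with h0 | h0
  · refine le_trans (le_of_eq ?_) Z.κpos.le
    rw [← ent_pr_false T.P2]
    refine ent_pr_congr T.P2 fun x hx => ⟨fun h => ?_, False.elim⟩
    have h1 := ent_surC_nonneg T.P2 ((T.mkB ε τ q z fa fb (fun x => s (T.frz ε x)) D).bb dm)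
      (T.mkB ε τ q z fa fb (fun x => s (T.frz ε x)) D).WP hx
    have h2 : (d * dm - κ) * (z * T.ℓ) < 0 := by
      rw [← h0]
      have := mul_pos Z.κpos (mul_pos Z.zpos hℓ)
      linarith
    linarith
  · have hns : 0 < ns := by
      rcases Nat.eq_zero_or_pos ns with h | h
      · have := Z.grid
        rw [h] at this
        simp at this
        linarith
      · exact h
    obtain ⟨v1, v2, -⟩ := ltpr_V hns ha hm hdm0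
    refine ltpr_core H S hG hd hd1 Z hq hq3 hQ a m ha hm hb _ _ hdm0 hdm1 (N₁ := T.δ ^ (-(90 * τ)))
      (N₂ := T.δ ^ (-(75 * τ + 3 * χ))) (Real.rpow_pos_of_pos H.δpos _) (Real.rpow_pos_of_pos H.δpos _) ?_
      (ltpr_WP H S Z.zpos Z.z8 hq hq3 hfb s D hs hp hfp hD)
      (ltpr_U H S Z.zpos hq hq3 fa fb s D h0 hdm1 hinv (by linarith) v2)
    rw [ltpk_log_rpow T H.δpos, ltpk_log_rpow T H.δpos]
    have : 90 * τ + (75 * τ + 3 * χ) ≤ 5 * χ := by linarith [S.τχ]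
    calc 90 * τ * T.ℓ + (75 * τ + 3 * χ) * T.ℓ = (90 * τ + (75 * τ + 3 * χ)) * T.ℓ := by ring
      _ ≤ 5 * χ * T.ℓ := mul_le_mul_of_nonneg_right this hℓ.le

/-- the root name of the target is read from `Z_R` -/
theorem ltpr_C {d g τ χ ε : ℝ} {Q : Finset ℝ} {M : ℝ → ℝ} {G : Ω → Prop} (H : T.Hyp d g τ χ ε Q M G) {q : ℝ}
    {x x' : Ω × Ω} (hx : T.P2.p x ≠ 0) (hx' : T.P2.p x' ≠ 0) (hY : T.Yr ε q x = T.Yr ε q x') : T.C x.1 = T.C x'.1 := by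
  obtain ⟨-, -, pc⟩ := ltl_supp T x hx
  obtain ⟨-, -, pc'⟩ := ltl_supp T x' hx'
  have c1 : T.C x.1 = T.C x.2 := congrArg Prod.fst pc
  have c2 : T.C x'.1 = T.C x'.2 := congrArg Prod.fst pc'
  rw [c1, c2]
  exact (H.side _ _ (ltmo_yr hY).1).1

/-- LEAF P1-resid -/
theorem ltp1_resid {d g τ χ ε ζ κ : ℝ} {Q : Finset ℝ} {M : ℝ → ℝ} {G : Ω → Prop} {ns : ℕ} (H : T.Hyp d g τ χ ε Q M G)
    (S : T.Sm τ χ ε ζ) (hG : T.P2.pr (fun x => ¬ T.G2 G χ x) ≤ ζ) (hd : 0 < d) (hd1 : d ≤ 1) {q z : ℝ} (Z : T.Sz κ z ε χ ζ ns)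
    (hq : ε ≤ q) (hq3 : q + 3 * z ≤ 3) (hQ : ∀ k : ℕ, k ≤ 3 * ns → (k : ℝ) / ns ∈ Q) (a m : ℕ) (ha : q = (a : ℝ) / ns)
    (hm : z = (m : ℝ) / ns) (hb : T.bud2 ε q (q + z) ≤ κ ^ 2 / 100 * (z * T.ℓ)) (N : ℕ) :
    ∀ dm ∈ mesh N, (T.B1 ε τ q z).P.pr (fun x => (T.B1 ε τ q z).P.surC ((T.B1 ε τ q z).bb dm) (T.B1 ε τ q z).WP x
      < (d * dm - κ) * (T.B1 ε τ q z).L) ≤ κ := by
  have hL : (T.B1 ε τ q z).L = z * T.ℓ := (ltp_scale T H.δpos z 1).1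
  rw [hL]
  have hq3' : q ≤ 3 := by linarith [Z.zpos]
  exact ltpr_gen H S hG hd hd1 Z hq hq3 hQ a m ha hm hb (fa := Frz.fK') (fb := Frz.fJ') (fp := Frz.fx) ltpk_lip_J'
    Frz.θ (fun x => (T.C x.1, T.Fb2 q x, T.Om0 ε x)) (fun x hx => (ltpk_frz_bd H S hx).2.2.2.2.1) (fun _ _ => rfl)
    (fun x x' hx hx' gx gx' hY => (ltmo_two H S hq hq3' hx hx' gx gx' hY).1)
    (fun x x' hx hx' gx gx' hY => (ltmo_two H S hq hq3' hx hx' gx gx' hY).2.2.1)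
    (fun x x' hx hx' hY hF _ => by
      have hO : T.Om0 ε x = T.Om0 ε x' := congrArg (fun w => w.1.1) (ltmo_yr hY).2.2.2
      rw [ltpr_C H hx hx' hY, hF, hO]) N

/-- LEAF P2-resid -/
theorem ltp2_resid {d g τ χ ε ζ κ : ℝ} {Q : Finset ℝ} {M : ℝ → ℝ} {G : Ω → Prop} {ns : ℕ} (H : T.Hyp d g τ χ ε Q M G)
    (S : T.Sm τ χ ε ζ) (hG : T.P2.pr (fun x => ¬ T.G2 G χ x) ≤ ζ) (hd : 0 < d) (hd1 : d ≤ 1) {q z : ℝ} (Z : T.Sz κ z ε χ ζ ns)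
    (hq : ε ≤ q) (hq3 : q + 3 * z ≤ 3) (hQ : ∀ k : ℕ, k ≤ 3 * ns → (k : ℝ) / ns ∈ Q) (a m : ℕ) (ha : q = (a : ℝ) / ns)
    (hm : z = (m : ℝ) / ns) (hb : T.bud2 ε q (q + z) ≤ κ ^ 2 / 100 * (z * T.ℓ)) (N : ℕ) :
    ∀ dm ∈ mesh N, (T.B2 ε τ q z).P.pr (fun x => (T.B2 ε τ q z).P.surC ((T.B2 ε τ q z).bb dm) (T.B2 ε τ q z).WP x
      < (d * dm - κ) * (T.B2 ε τ q z).L) ≤ κ := by
  have hL : (T.B2 ε τ q z).L = z * T.ℓ := (ltp_scale T H.δpos z 1).1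
  rw [hL]
  have hq3' : q ≤ 3 := by linarith [Z.zpos]
  exact ltpr_gen H S hG hd hd1 Z hq hq3 hQ a m ha hm hb (fa := Frz.fJ') (fb := Frz.fL) (fp := Frz.fy) ltpk_lip_L
    (fun c => - c.A / 2) (fun x => ((T.C x.1, T.Fb2 q x, T.OmT ε x), T.c2 (q + 2 * z) (T.vx ε) x))
    (fun x hx => by
      have h1 := (ltpk_frz_bd H S hx).2.2.2.2.2
      have h2 : |-(T.frz ε x).A / 2| = |(T.frz ε x).A| / 2 := by
        rw [abs_div, abs_neg]; norm_num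
      show |-(T.frz ε x).A / 2| ≤ _
      rw [h2]
      linarith [abs_nonneg (T.frz ε x).A])
    (fun c F => by unfold Frz.fy; ring)
    (fun x x' hx hx' gx gx' hY => (ltmo_two H S hq hq3' hx hx' gx gx' hY).2.1)
    (fun x x' hx hx' gx gx' hY => (ltmo_two H S hq hq3' hx hx' gx gx' hY).2.2.2)
    (fun x x' hx hx' hY hF hX => by
      have hO : T.OmT ε x = T.OmT ε x' := congrArg (fun w => w.1) (ltmo_yr hY).2.2.2
      rw [ltpr_C H hx hx' hY, hF, hO, hX]) N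

end Claimed.Agent.R256
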