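import Claimed.Agent.R256.LT.Kit

/-!
# Row 256, unit LT, BOOST-E: the generic part (no `Bst`)      (architect helper170, for helper46's `ltb_boost`)

PAPER-FREE finite probability on `R255/Base/Law.lean` + `R255.rt_chain`.  Plan of `ltb_core` (= BOOST-E for abstract observations):
 0. `ltb_chain_unif`  finitely many pairs `(σ, κ₀(σ))` of `rt_chain` cover the interval of rates `[0, m - η/2]`  (compactness);
 1. `ltb_event`       if the conclusion fails, one class `|sur(T|Y) - σ L| ≤ κ₀ L/2` (with small information loss) has mass `≥ η/(2(#T+1)) - ...`;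
 2. `ltb_mesh_all`    union bound on the mesh;
 3. `ltb_choose`      choose one cell of the parent;
 4. `ltb_cell`        (from `ltb_hyp`) the `ChainData` of the cell;     5. `ltb_consts` numerics.
RULE: provers edit only the body of their theorem; statements are frozen (ask helper170).
-/

set_option autoImplicit false

namespace Claimed.Agent.R256

open scoped BigOperators
open Classical
open Claimed.Agent.R255
open Claimed.Agent.R255.FLaw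

/-! ## dictionary, one-sided -/

/-- lower bound of the surprise = upper bound of the mass -/
theorem ltb_dict_up {Ω : Type} [Fintype Ω] (P : FLaw Ω) {tA tB : Type} (F : Ω → tA) (G : Ω → tB) {ω : Ω} (hω : P.p ω ≠ 0)
    {ρ e : ℝ} (h0 : 0 < ρ) (h : e * lg ρ ≤ P.surC F G ω) : P.fib (pair F G) ω ≤ ρ ^ e * P.fib G ω := by
  have ha := ent_fib_pos P (pair F G) hω
  have hb := ent_fib_pos P G hω
  have hq : 0 < P.fib (pair F G) ω / P.fib G ω := div_pos ha hb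
  unfold FLaw.surC at h
  rw [← div_le_iff₀ hb, rt_rpow_lg ρ _ h0, ← Real.log_le_iff_le_exp hq]
  linarith

/-- upper bound of the surprise = lower bound of the mass -/
theorem ltb_dict_lo {Ω : Type} [Fintype Ω] (P : FLaw Ω) {tA tB : Type} (F : Ω → tA) (G : Ω → tB) {ω : Ω} (hω : P.p ω ≠ 0)
    {ρ e : ℝ} (h0 : 0 < ρ) (h : P.surC F G ω ≤ e * lg ρ) : ρ ^ e * P.fib G ω ≤ P.fib (pair F G) ω := by
  have ha := ent_fib_pos P (pair F G) hω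
  have hb := ent_fib_pos P G hω
  have hq : 0 < P.fib (pair F G) ω / P.fib G ω := div_pos ha hb
  unfold FLaw.surC at h
  rw [← le_div_iff₀ hb, rt_rpow_lg ρ _ h0, ← Real.le_log_iff_exp_le hq]
  linarith

/-- unconditional form -/
theorem ltb_dict_sur {Ω : Type} [Fintype Ω] (P : FLaw Ω) {tA : Type} (F : Ω → tA) {ω : Ω} (hω : P.p ω ≠ 0)
    {ρ e : ℝ} (h0 : 0 < ρ) (h : e * lg ρ ≤ - Real.log (P.fib F ω)) : P.fib F ω ≤ ρ ^ e := by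
  have ha := ent_fib_pos P F hω
  rw [rt_rpow_lg ρ _ h0, ← Real.log_le_iff_le_exp ha]
  linarith

/-! ## LEAF B0: uniformity of `rt_chain` in the rate -/

/-- a finite family of positive numbers has a positive lower bound -/
theorem ltb_fin_lb {ι : Type} (t : Finset ι) (f : ι → ℝ) (h : ∀ i ∈ t, 0 < f i) : ∃ c : ℝ, 0 < c ∧ ∀ i ∈ t, c ≤ f i := by
  induction t using Finset.induction_on with
  | empty => exact ⟨1, one_pos, fun i hi => absurd hi (Finset.notMem_empty i)⟩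
  | insert a s ha ih =>
    obtain ⟨c, hc, hcs⟩ := ih (fun i hi => h i (Finset.mem_insert_of_mem hi))
    refine ⟨min c (f a), lt_min hc (h a (Finset.mem_insert_self a s)), fun i hi => ?_⟩
    rcases Finset.mem_insert.1 hi with rfl | hi'
    · exact min_le_right _ _
    · exact (min_le_left _ _).trans (hcs i hi')

/-- LEAF B0.  `choose κf Nf ρf` from `rt_chain β γ σ 2` (for `σ` outside `[0, m)` take `κf = 1`); `isCompact_Icc.elim_nhds_subcover` with the balls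
`Metric.ball σ (κf σ / 2)`; `T` = image of the subcover under `σ ↦ (σ, κf σ)`; `N₁ = sup Nf + 1`; `κ₁`, `ρ₁` by `ltb_fin_lb`. -/
theorem ltb_chain_unif (β γ η : ℝ) (hβ : 0 < β) (hγ : 0 < γ) (hη : 0 < η) :
    ∃ T : Finset (ℝ × ℝ), ∃ κ₁ : ℝ, 0 < κ₁ ∧ (∀ x ∈ T, κ₁ ≤ x.2) ∧
      (∀ s : ℝ, 0 ≤ s → s ≤ min 1 (β + γ) - η / 2 → ∃ x ∈ T, |s - x.1| ≤ x.2 / 2) ∧
      ∃ N₁ : ℕ, 0 < N₁ ∧ ∀ mH : ℝ, 0 < mH → ∃ ρ₁ : ℝ, 0 < ρ₁ ∧
        ∀ x ∈ T, ∀ (C : ChainData) (H : C.Pt → C.Lb → Prop), C.ρ < ρ₁ → C.Hyp H 2 0 β γ x.1 x.2 mH N₁ → False := by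
  obtain ⟨m, hm⟩ : ∃ m, m = min 1 (β + γ) := ⟨_, rfl⟩
  rw [← hm]
  have hex : ∀ σ : ℝ, ∃ κ₀ : ℝ, 0 < κ₀ ∧ ∃ N₀ : ℕ, 0 < N₀ ∧ ∀ mH : ℝ, 0 < mH → ∃ ρ₀ : ℝ, 0 < ρ₀ ∧
      (0 ≤ σ → σ < m → ∀ (C : ChainData) (H : C.Pt → C.Lb → Prop) (a0 : ℝ) (N : ℕ), N₀ ≤ N → C.ρ < ρ₀ →
        C.Hyp H 2 a0 β γ σ κ₀ mH N → False) := by
    intro σ
    by_cases hσ : 0 ≤ σ ∧ σ < m
    · obtain ⟨κ₀, h1, N₀, h2, h3⟩ := rt_chain β γ σ 2 hβ hγ hσ.1 (hm ▸ hσ.2) (by norm_num)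
      refine ⟨κ₀, h1, N₀, h2, fun mH hmH => ?_⟩
      obtain ⟨ρ₀, h4, h5⟩ := h3 mH hmH
      exact ⟨ρ₀, h4, fun _ _ => h5⟩
    · exact ⟨1, one_pos, 1, one_pos, fun mH _ => ⟨1, one_pos, fun a b => absurd ⟨a, b⟩ hσ⟩⟩
  choose κf hκf Nf hNf ρf hρf hno using hex
  obtain ⟨t, ht, hcover⟩ := (isCompact_Icc (a := (0 : ℝ)) (b := m - η / 2)).elim_nhds_subcover
    (fun σ => Metric.ball σ (κf σ / 2)) (fun σ _ => Metric.ball_mem_nhds σ (by have := hκf σ; positivity))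
  obtain ⟨κ₁, hκ₁, hκ₁le⟩ := ltb_fin_lb t κf (fun σ _ => hκf σ)
  refine ⟨t.image (fun σ => (σ, κf σ)), κ₁, hκ₁, ?_, ?_, t.sup Nf + 1, Nat.succ_pos _, ?_⟩
  · intro x hx
    obtain ⟨σ, hσ, rfl⟩ := Finset.mem_image.1 hx
    exact hκ₁le σ hσ
  · intro s hs0 hs1
    have hmem := hcover ⟨hs0, hs1⟩
    rw [Set.mem_iUnion₂] at hmem
    obtain ⟨σ, hσ, hball⟩ := hmem
    refine ⟨(σ, κf σ), Finset.mem_image_of_mem _ hσ, ?_⟩
    rw [Metric.mem_ball, Real.dist_eq] at hball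
    exact hball.le
  · intro mH hmH
    obtain ⟨ρ₁, hρ₁, hρ₁le⟩ := ltb_fin_lb t (fun σ => ρf σ mH hmH) (fun σ _ => hρf σ mH hmH)
    refine ⟨ρ₁, hρ₁, ?_⟩
    intro x hx C H hCρ hyp
    obtain ⟨σ, hσ, rfl⟩ := Finset.mem_image.1 hx
    have hσI := ht σ hσ
    exact hno σ mH hmH hσI.1 (by have := hσI.2; linarith) C H 0 (t.sup Nf + 1)
      ((Finset.le_sup hσ).trans (Nat.le_succ _)) (lt_of_lt_of_le hCρ (hρ₁le σ hσ)) hyp

/-! ## LEAF B1: the chain data of a law on a product -/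

/-- the projection test of a law on `Pt × Lb`: source `X p`, target `Y p + c θ X p`, parameter `c θ`, trivial slice -/
noncomputable def ltbCh {Pt Lb : Type} [Fintype Pt] [Fintype Lb] (R : FLaw (Pt × Lb)) (ρ : ℝ) (X Y : Pt → ℝ) (c : Lb → ℝ) :
    ChainData where
  Pt := Pt
  Lb := Lb
  Sl := Unit
  π := fun p θ => R.p (p, θ)
  ρ := ρ
  slc := fun _ _ => ()
  src := fun p _ => X p
  tgt := fun p θ => Y p + c θ * X p
  par := c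
  tr := fun _ _ _ => 0

/-- LEAF B1.  Template: `R255.rt_hyp_xy_gen` (Rate/Chains.lean l.1800).  `la θ = R.fib snd`, `mu p = R.fib fst` (`rt_fib_snd`, `rt_fib_fst`),
`ms θ S = R.fib (pair F snd)` (`rt_fib_lb`), `rt_fib_par`; `ltb_dict_up/lo/sur`; `pm G = R.pr` (`Fintype.sum_prod_type`). -/
theorem ltb_hyp {Pt Lb : Type} [Fintype Pt] [Fintype Lb] (R : FLaw (Pt × Lb)) (ρ : ℝ) (X Y : Pt → ℝ) (c : Lb → ℝ)
    (H : Pt × Lb → Prop) (β γ σ κ mH : ℝ) (N : ℕ) (h0 : 0 < ρ) (h1 : ρ < 1) (hκ : 0 ≤ κ)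
    (bX : ∀ p, |X p| ≤ 1) (bT : ∀ p θ, |Y p + c θ * X p| ≤ 2) (bc : ∀ θ, |c θ| ≤ 1)
    (hH : mH ≤ R.pr H) (hpos : ∀ x, H x → R.p x ≠ 0)
    (hratio : R.pr (fun x => R.surC Prod.fst Prod.snd x + κ * lg ρ < - Real.log (R.fib Prod.fst x)) ≤ mH / 4)
    (hsrc : ∀ x, H x → ∀ d ∈ mesh N, (β * d - κ) * lg ρ ≤ R.surC (fun x => bbin ρ d (X x.1)) Prod.snd x)
    (htu : ∀ x, H x → (σ - κ) * lg ρ ≤
      R.surC (fun x => bbin ρ 1 (Y x.1 + c x.2 * X x.1)) (pair (fun x => bbin ρ 1 (X x.1)) Prod.snd) x)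
    (htl : ∀ x, H x → R.surC (fun x => bbin ρ 1 (Y x.1 + c x.2 * X x.1)) Prod.snd x ≤ (σ + κ) * lg ρ)
    (hpar : ∀ x, H x → ∀ d ∈ mesh N, (γ * d - κ) * lg ρ ≤ - Real.log (R.fib (fun x => bbin ρ d (c x.2)) x)) :
    (ltbCh R ρ X Y c).Hyp (fun p θ => H (p, θ)) 2 0 β γ σ κ mH N := by
  have hanti : ∀ {a b : ℝ}, a ≤ b → ρ ^ b ≤ ρ ^ a := fun h => Real.rpow_le_rpow_of_exponent_ge h0 h1.le h
  have hla : ∀ (p : Pt) (θ : Lb), (ltbCh R ρ X Y c).la θ = R.fib Prod.snd (p, θ) := fun p θ => (rt_fib_snd R p θ).symm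
  have hmu : ∀ (p : Pt) (θ : Lb), (ltbCh R ρ X Y c).mu p = R.fib Prod.fst (p, θ) := fun p θ => (rt_fib_fst R p θ).symm
  have hla0 : ∀ θ : Lb, 0 ≤ (ltbCh R ρ X Y c).la θ := fun θ => Finset.sum_nonneg fun p' _ => R.nonneg _
  have hms : ∀ {α : Type} (F : Pt × Lb → α) (p : Pt) (θ : Lb) (S : Pt → Prop), (∀ p', S p' ↔ F (p', θ) = F (p, θ)) →
      (ltbCh R ρ X Y c).ms θ S = R.fib (pair F Prod.snd) (p, θ) := by
    intro α F p θ S hS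
    rw [rt_fib_lb]
    exact Finset.sum_congr rfl fun p' _ => if_congr (hS p') rfl rfl
  have hpm : ∀ G : Pt → Lb → Prop, (ltbCh R ρ X Y c).pm G = R.pr (fun x => G x.1 x.2) := by
    intro G
    unfold FLaw.pr
    rw [Fintype.sum_prod_type]
    rfl
  have hmsT : ∀ (θ : Lb) (S : Pt → Prop), (∀ p', S p') → (ltbCh R ρ X Y c).ms θ S = (ltbCh R ρ X Y c).la θ :=
    fun θ S hS => Finset.sum_congr rfl fun p' _ => if_pos (hS p')
  refine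
    { ρpos := h0
      ρlt := h1
      nonneg := fun p θ => R.nonneg _
      sum_one := ?_
      bdd := fun p θ => ⟨(bX p).trans (by norm_num), bT p θ⟩
      bddL := fun θ => (bc θ).trans (by norm_num)
      rel := ?_
      hH := ?_
      hpos := fun p θ h => lt_of_le_of_ne (R.nonneg _) (Ne.symm (hpos _ h))
      hratio := ?_
      slc_up := ?_
      slc_lo := ?_
      src_up := ?_
      tgt_up := ?_
      tgt_lo := ?_
      par_up := ?_ }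
  · have := R.sum_one
    rw [Fintype.sum_prod_type] at this
    exact this
  · intro p θ₀ θ₁
    show |(Y p + c θ₁ * X p) - (Y p + c θ₀ * X p) - (c θ₁ - c θ₀) * X p - 0| ≤ 2 * ρ
    have e1 : (Y p + c θ₁ * X p) - (Y p + c θ₀ * X p) - (c θ₁ - c θ₀) * X p - 0 = 0 := by ring
    rw [e1, abs_zero]
    positivity
  · exact hH.trans (le_of_eq (hpm (fun p θ => H (p, θ))).symm)
  · refine le_trans (le_of_eq (hpm _)) ?_
    refine le_trans (ent_pr_mono R fun x hx hlt => ?_) hratio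
    obtain ⟨p, θ⟩ := x
    have hlt' : ρ ^ (-κ) * (R.fib Prod.fst (p, θ) * R.fib Prod.snd (p, θ)) < R.p (p, θ) := by
      rw [← hmu p θ, ← hla p θ]
      exact hlt
    have f1 := ent_fib_pos R Prod.fst hx
    have f2 := ent_fib_pos R Prod.snd hx
    have hpair : R.fib (pair Prod.fst Prod.snd) (p, θ) = R.p (p, θ) := ent_fib_id R (p, θ)
    have hr : 0 < ρ ^ (-κ) := Real.rpow_pos_of_pos h0 _
    have h3 := Real.log_lt_log (mul_pos hr (mul_pos f1 f2)) hlt'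
    rw [Real.log_mul hr.ne' (mul_pos f1 f2).ne', Real.log_mul f1.ne' f2.ne', Real.log_rpow h0] at h3
    have hlg : lg ρ = - Real.log ρ := by
      unfold lg
      rw [one_div, Real.log_inv]
    rw [ent_surC_eq_sub R _ _ hx, hpair, hlg]
    linarith
  · intro p θ _
    refine le_trans (le_of_eq (hmsT θ _ (fun p' => rfl))) ?_
    have h3 : 1 ≤ ρ ^ ((0:ℝ) - κ) := by
      have := hanti (show (0:ℝ) - κ ≤ 0 by linarith)
      rwa [Real.rpow_zero] at this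
    exact le_mul_of_one_le_left (hla0 θ) h3
  · intro p θ _
    refine le_trans ?_ (le_of_eq (hmsT θ _ (fun p' => rfl)).symm)
    have h3 : ρ ^ ((0:ℝ) + κ) ≤ 1 := by
      have := hanti (show (0:ℝ) ≤ 0 + κ by linarith)
      rwa [Real.rpow_zero] at this
    exact mul_le_of_le_one_left (hla0 θ) h3
  · intro (p : Pt) (θ : Lb) hHp d hd
    have hx := hpos _ hHp
    refine le_trans (le_of_eq (hms (fun x => bbin ρ d (X x.1)) p θ _ (fun p' => ⟨fun h => h.2, fun h => ⟨rfl, h⟩⟩))) ?_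
    refine (ltb_dict_up R _ _ hx h0 (hsrc _ hHp d hd)).trans (le_of_eq ?_)
    have e1 : β * d - κ = 0 + β * d - κ := by ring
    rw [e1, ← hla p θ]
    rfl
  · intro (p : Pt) (θ : Lb) hHp
    have hx := hpos _ hHp
    have e2 := hms (fun x => bbin ρ 1 (X x.1)) p θ
      (fun p' => (ltbCh R ρ X Y c).slc p' θ = (ltbCh R ρ X Y c).slc p θ ∧
        bbin (ltbCh R ρ X Y c).ρ 1 ((ltbCh R ρ X Y c).src p' θ) = bbin (ltbCh R ρ X Y c).ρ 1 ((ltbCh R ρ X Y c).src p θ))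
      (fun p' => ⟨fun h => h.2, fun h => ⟨rfl, h⟩⟩)
    have e3 := hms (pair (fun x : Pt × Lb => bbin ρ 1 (Y x.1 + c x.2 * X x.1)) (fun x => bbin ρ 1 (X x.1))) p θ
      (fun p' => (ltbCh R ρ X Y c).slc p' θ = (ltbCh R ρ X Y c).slc p θ ∧
        bbin (ltbCh R ρ X Y c).ρ 1 ((ltbCh R ρ X Y c).src p' θ) = bbin (ltbCh R ρ X Y c).ρ 1 ((ltbCh R ρ X Y c).src p θ) ∧
        bbin (ltbCh R ρ X Y c).ρ 1 ((ltbCh R ρ X Y c).tgt p' θ) = bbin (ltbCh R ρ X Y c).ρ 1 ((ltbCh R ρ X Y c).tgt p θ))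
      (fun p' => ⟨fun h => Prod.ext h.2.2 h.2.1, fun h => ⟨rfl, congrArg Prod.snd h, congrArg Prod.fst h⟩⟩)
    have e : R.fib (pair (pair (fun x : Pt × Lb => bbin ρ 1 (Y x.1 + c x.2 * X x.1)) (fun x => bbin ρ 1 (X x.1))) Prod.snd) (p, θ)
        = R.fib (pair (fun x : Pt × Lb => bbin ρ 1 (Y x.1 + c x.2 * X x.1)) (pair (fun x => bbin ρ 1 (X x.1)) Prod.snd)) (p, θ) := by
      refine ent_pr_congr R fun x' _ => ?_
      simp only [FLaw.pair, Prod.mk.injEq]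
      tauto
    refine le_trans (le_of_eq (e3.trans e)) ?_
    refine le_trans (ltb_dict_up R _ _ hx h0 (htu _ hHp)) (le_of_eq ?_)
    rw [← e2]
    rfl
  · intro (p : Pt) (θ : Lb) hHp
    have hx := hpos _ hHp
    refine le_trans ?_ (le_of_eq (hms (fun x : Pt × Lb => bbin ρ 1 (Y x.1 + c x.2 * X x.1)) p θ _ (fun p' => Iff.rfl)).symm)
    refine le_trans (le_of_eq ?_) (ltb_dict_lo R _ _ hx h0 (htl _ hHp))
    rw [← hla p θ]
    rfl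
  · intro (p : Pt) (θ : Lb) hHp d hd
    have hx := hpos _ hHp
    have h3 := ltb_dict_sur R _ hx h0 (hpar _ hHp d hd)
    rw [rt_fib_par R (fun θ => bbin ρ d (c θ)) p θ] at h3
    refine le_trans (le_of_eq ?_) h3
    refine Finset.sum_congr rfl fun θ' _ => ?_
    by_cases hc : bbin ρ d (c θ') = bbin ρ d (c θ)
    · rw [if_pos hc]
      exact if_pos hc
    · rw [if_neg hc]
      exact if_neg hc

/-! ## LEAF B2: from a law on `Ω` to a law on the product of the ranges -/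

/-- an observation as a map onto its (finite) range -/
def ltbRg {Ω tZ : Type} (Z : Ω → tZ) : Ω → Set.range Z := Set.rangeFactorization Z

theorem ltb_rg_eq_iff {Ω tZ : Type} (Z : Ω → tZ) (ω ω' : Ω) : ltbRg Z ω = ltbRg Z ω' ↔ Z ω = Z ω' := by
  rw [Subtype.ext_iff]
  rfl

/-- descent of a real function to the range of an observation (value `0` at the values that do not occur) -/
noncomputable def ltbDesc {Ω : Type} [Fintype Ω] (Q : FLaw Ω) {tZ : Type} (Z : Ω → tZ) (f : Ω → ℝ) (p : Set.range Z) : ℝ :=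
  if h : ∃ ω, Q.p ω ≠ 0 ∧ Z ω = p then f h.choose else 0

theorem ltb_desc_eq {Ω : Type} [Fintype Ω] (Q : FLaw Ω) {tZ : Type} (Z : Ω → tZ) (f : Ω → ℝ)
    (hdet : ∀ ω ω', Q.p ω ≠ 0 → Q.p ω' ≠ 0 → Z ω = Z ω' → f ω = f ω') {ω : Ω} (hω : Q.p ω ≠ 0) :
    ltbDesc Q Z f (ltbRg Z ω) = f ω := by
  have h : ∃ ω', Q.p ω' ≠ 0 ∧ Z ω' = (ltbRg Z ω : tZ) := ⟨ω, hω, rfl⟩
  unfold ltbDesc
  rw [dif_pos h]
  exact hdet _ _ h.choose_spec.1 hω h.choose_spec.2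

theorem ltb_desc_cases {Ω : Type} [Fintype Ω] (Q : FLaw Ω) {tZ : Type} (Z : Ω → tZ) (f : Ω → ℝ) (p : Set.range Z) :
    (∃ ω, Q.p ω ≠ 0 ∧ ltbDesc Q Z f p = f ω) ∨ ltbDesc Q Z f p = 0 := by
  by_cases h : ∃ ω, Q.p ω ≠ 0 ∧ Z ω = p
  · left
    refine ⟨h.choose, h.choose_spec.1, ?_⟩
    unfold ltbDesc
    rw [dif_pos h]
  · right
    unfold ltbDesc
    rw [dif_neg h]

/-- LEAF B2.  `R = Q.map (fun ω => (ltbRg Z ω, ltbRg W ω))`, `X = ltbDesc Q Z bf`, `Y = ltbDesc Q Z Yf`, `c = ltbDesc Q W cf`,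
`H' x = ∃ ω, Q.p ω ≠ 0 ∧ H ω ∧ (ltbRg Z ω, ltbRg W ω) = x`; `C = ltbCh R ρ X Y c`, `ltb_hyp`.  Transfers: `ent_map_pr`, `ent_map_surC`, `ent_map_fib`, `ent_map_supp`,
then `ent_surC_congr` / `ent_pr_congr` with `ltb_desc_eq`, `ltb_rg_eq_iff`. -/
theorem ltb_cell {Ω : Type} [Fintype Ω] (Q : FLaw Ω) {tZ tW : Type} (Z : Ω → tZ) (W : Ω → tW) (bf Yf cf : Ω → ℝ) (H : Ω → Prop)
    (ρ β γ σ κ mH : ℝ) (N : ℕ) (h0 : 0 < ρ) (h1 : ρ < 1) (hκ : 0 ≤ κ)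
    (detZ : ∀ ω ω', Q.p ω ≠ 0 → Q.p ω' ≠ 0 → Z ω = Z ω' → bf ω = bf ω' ∧ Yf ω = Yf ω')
    (detW : ∀ ω ω', Q.p ω ≠ 0 → Q.p ω' ≠ 0 → W ω = W ω' → cf ω = cf ω')
    (bdd : ∀ ω, Q.p ω ≠ 0 → |bf ω| ≤ 1 ∧ 0 ≤ Yf ω ∧ Yf ω ≤ 1 ∧ 0 ≤ cf ω ∧ cf ω ≤ 1)
    (hH : mH ≤ Q.pr H)
    (hratio : Q.pr (fun ω => Q.surC Z W ω + κ * lg ρ < - Real.log (Q.fib Z ω)) ≤ mH / 4)
    (hsrc : ∀ ω, Q.p ω ≠ 0 → H ω → ∀ d ∈ mesh N, (β * d - κ) * lg ρ ≤ Q.surC (fun ω => bbin ρ d (bf ω)) W ω)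
    (htu : ∀ ω, Q.p ω ≠ 0 → H ω → (σ - κ) * lg ρ ≤
      Q.surC (fun ω => bbin ρ 1 (Yf ω + cf ω * bf ω)) (pair (fun ω => bbin ρ 1 (bf ω)) W) ω)
    (htl : ∀ ω, Q.p ω ≠ 0 → H ω → Q.surC (fun ω => bbin ρ 1 (Yf ω + cf ω * bf ω)) W ω ≤ (σ + κ) * lg ρ)
    (hpar : ∀ ω, Q.p ω ≠ 0 → H ω → ∀ d ∈ mesh N,
      (γ * d - κ) * lg ρ ≤ - Real.log (Q.fib (fun ω => bbin ρ d (cf ω)) ω)) :
    ∃ (C : ChainData) (H' : C.Pt → C.Lb → Prop), C.ρ = ρ ∧ C.Hyp H' 2 0 β γ σ κ mH N := by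
  obtain ⟨φ, hφ⟩ : ∃ φ : Ω → Set.range Z × Set.range W, φ = fun ω => (ltbRg Z ω, ltbRg W ω) := ⟨_, rfl⟩
  obtain ⟨X, hXd⟩ : ∃ X : Set.range Z → ℝ, X = ltbDesc Q Z bf := ⟨_, rfl⟩
  obtain ⟨Y, hYd⟩ : ∃ Y : Set.range Z → ℝ, Y = ltbDesc Q Z Yf := ⟨_, rfl⟩
  obtain ⟨c, hcd⟩ : ∃ c : Set.range W → ℝ, c = ltbDesc Q W cf := ⟨_, rfl⟩
  have hX : ∀ ω, Q.p ω ≠ 0 → X (φ ω).1 = bf ω := fun ω h => by
    rw [hXd, hφ]
    exact ltb_desc_eq Q Z bf (fun a b h1 h2 h3 => (detZ a b h1 h2 h3).1) h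
  have hY : ∀ ω, Q.p ω ≠ 0 → Y (φ ω).1 = Yf ω := fun ω h => by
    rw [hYd, hφ]
    exact ltb_desc_eq Q Z Yf (fun a b h1 h2 h3 => (detZ a b h1 h2 h3).2) h
  have hc : ∀ ω, Q.p ω ≠ 0 → c (φ ω).2 = cf ω := fun ω h => by
    rw [hcd, hφ]
    exact ltb_desc_eq Q W cf detW h
  have e1 : ∀ ω ω', (φ ω').1 = (φ ω).1 ↔ Z ω' = Z ω := fun ω ω' => by
    rw [hφ]
    exact ltb_rg_eq_iff Z ω' ω
  have e2 : ∀ ω ω', (φ ω').2 = (φ ω).2 ↔ W ω' = W ω := fun ω ω' => by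
    rw [hφ]
    exact ltb_rg_eq_iff W ω' ω
  have bX : ∀ p, |X p| ≤ 1 := by
    intro p
    rw [hXd]
    rcases ltb_desc_cases Q Z bf p with ⟨ω, hω, e⟩ | e
    · rw [e]
      exact (bdd ω hω).1
    · rw [e, abs_zero]
      exact zero_le_one
  have bY : ∀ p, 0 ≤ Y p ∧ Y p ≤ 1 := by
    intro p
    rw [hYd]
    rcases ltb_desc_cases Q Z Yf p with ⟨ω, hω, e⟩ | e
    · rw [e]
      exact ⟨(bdd ω hω).2.1, (bdd ω hω).2.2.1⟩
    · rw [e]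
      exact ⟨le_rfl, zero_le_one⟩
  have bc : ∀ θ, 0 ≤ c θ ∧ c θ ≤ 1 := by
    intro θ
    rw [hcd]
    rcases ltb_desc_cases Q W cf θ with ⟨ω, hω, e⟩ | e
    · rw [e]
      exact ⟨(bdd ω hω).2.2.2.1, (bdd ω hω).2.2.2.2⟩
    · rw [e]
      exact ⟨le_rfl, zero_le_one⟩
  refine ⟨ltbCh (Q.map φ) ρ X Y c, fun p θ => ∃ ω, Q.p ω ≠ 0 ∧ H ω ∧ φ ω = (p, θ), rfl, ?_⟩
  refine ltb_hyp (Q.map φ) ρ X Y c (fun x => ∃ ω, Q.p ω ≠ 0 ∧ H ω ∧ φ ω = x) β γ σ κ mH N h0 h1 hκ bX ?_ ?_ ?_ ?_ ?_ ?_ ?_ ?_ ?_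
  · intro p θ
    have a1 := abs_le.1 (bX p)
    have a2 := bY p
    have a3 := bc θ
    have a4 : c θ * X p ≤ 1 := by nlinarith
    have a5 : -1 ≤ c θ * X p := by nlinarith
    exact abs_le.2 ⟨by linarith, by linarith⟩
  · intro θ
    rw [abs_of_nonneg (bc θ).1]
    exact (bc θ).2
  · rw [ent_map_pr]
    exact hH.trans (ent_pr_mono Q fun ω hω h => ⟨ω, hω, h, rfl⟩)
  · rintro x ⟨ω, hω, -, rfl⟩
    exact ent_map_supp Q φ hω
  · rw [ent_map_pr]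
    refine le_trans (ent_pr_mono Q fun ω hω h => ?_) hratio
    have s1 : (Q.map φ).surC Prod.fst Prod.snd (φ ω) = Q.surC Z W ω :=
      (ent_map_surC Q φ _ _ ω).trans (ent_surC_congr Q _ _ _ _ ω (fun ω' _ => e2 ω ω') (fun ω' _ _ => e1 ω ω'))
    have s2 : (Q.map φ).fib Prod.fst (φ ω) = Q.fib Z ω :=
      (ent_map_fib Q φ _ ω).trans (ent_pr_congr Q fun ω' _ => e1 ω ω')
    rw [s1, s2] at h
    exact h
  · rintro x ⟨ω, hω, hHω, rfl⟩ d hd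
    refine le_trans (hsrc ω hω hHω d hd) (le_of_eq ?_)
    refine Eq.symm ((ent_map_surC Q φ _ _ ω).trans (ent_surC_congr Q _ _ _ _ ω (fun ω' _ => e2 ω ω') (fun ω' hω' _ => ?_)))
    show bbin ρ d (X (φ ω').1) = bbin ρ d (X (φ ω).1) ↔ _
    rw [hX ω' hω', hX ω hω]
  · rintro x ⟨ω, hω, hHω, rfl⟩
    refine le_trans (htu ω hω hHω) (le_of_eq ?_)
    refine Eq.symm ((ent_map_surC Q φ _ _ ω).trans (ent_surC_congr Q _ _ _ _ ω (fun ω' hω' => ?_) (fun ω' hω' _ => ?_)))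
    · show (bbin ρ 1 (X (φ ω').1), (φ ω').2) = (bbin ρ 1 (X (φ ω).1), (φ ω).2) ↔
        (bbin ρ 1 (bf ω'), W ω') = (bbin ρ 1 (bf ω), W ω)
      rw [hX ω' hω', hX ω hω, Prod.mk.injEq, Prod.mk.injEq, e2 ω ω']
    · show bbin ρ 1 (Y (φ ω').1 + c (φ ω').2 * X (φ ω').1) = bbin ρ 1 (Y (φ ω).1 + c (φ ω).2 * X (φ ω).1) ↔ _
      rw [hX ω' hω', hX ω hω, hY ω' hω', hY ω hω, hc ω' hω', hc ω hω]
  · rintro x ⟨ω, hω, hHω, rfl⟩
    refine le_trans (le_of_eq ?_) (htl ω hω hHω)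
    refine (ent_map_surC Q φ _ _ ω).trans (ent_surC_congr Q _ _ _ _ ω (fun ω' _ => e2 ω ω') (fun ω' hω' _ => ?_))
    show bbin ρ 1 (Y (φ ω').1 + c (φ ω').2 * X (φ ω').1) = bbin ρ 1 (Y (φ ω).1 + c (φ ω).2 * X (φ ω).1) ↔ _
    rw [hX ω' hω', hX ω hω, hY ω' hω', hY ω hω, hc ω' hω', hc ω hω]
  · rintro x ⟨ω, hω, hHω, rfl⟩ d hd
    refine le_trans (hpar ω hω hHω d hd) (le_of_eq ?_)
    congr 2
    refine Eq.symm ((ent_map_fib Q φ _ ω).trans (ent_pr_congr Q fun ω' hω' => ?_))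
    show bbin ρ d (c (φ ω').2) = bbin ρ d (c (φ ω).2) ↔ _
    rw [hc ω' hω', hc ω hω]

/-! ## LEAF B3: information under refinement of the condition -/

/-- LEAF B3.  `F` a function of `(Y, Z)`: `I(X;Y|Z) - I(X;Y|F,Z) = I(X;F|Z) ≥ 0`.  Unfold `miC`; `ent_congr_ker` for `H(Y,F,Z) = H(Y,Z)`, `H(X,Y,F,Z) = H(X,Y,Z)`;
`ent_miC_nonneg P X F Z`. -/
theorem ltb_miC_refine {Ω : Type} [Fintype Ω] (P : FLaw Ω) {tA tB tC tD : Type} (X : Ω → tA) (Y : Ω → tB) (Z : Ω → tC) (F : Ω → tD)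
    (hF : ∀ ω ω', Y ω = Y ω' → Z ω = Z ω' → F ω = F ω') : P.miC X Y (pair F Z) ≤ P.miC X Y Z := by
  have h0 := ent_miC_nonneg P X F Z
  have h1 : P.ent (pair Y (pair F Z)) = P.ent (pair Y Z) := by
    refine ent_congr_ker P _ _ fun ω ω' _ _ => ?_
    simp only [FLaw.pair, Prod.mk.injEq]
    exact ⟨fun h => ⟨h.1, h.2.2⟩, fun h => ⟨h.1, hF ω ω' h.1 h.2, h.2⟩⟩
  have h2 : P.ent (pair (pair X Y) (pair F Z)) = P.ent (pair (pair X Y) Z) := by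
    refine ent_congr_ker P _ _ fun ω ω' _ _ => ?_
    simp only [FLaw.pair, Prod.mk.injEq]
    exact ⟨fun h => ⟨h.1, h.2.2⟩, fun h => ⟨h.1, hF ω ω' h.1.2 h.2, h.2⟩⟩
  have h3 : P.ent (pair X (pair F Z)) = P.ent (pair (pair X F) Z) := by
    refine ent_congr_ker P _ _ fun ω ω' _ _ => ?_
    simp only [FLaw.pair, Prod.mk.injEq]
    tauto
  unfold FLaw.miC at h0 ⊢
  rw [h1, h2, h3]
  linarith

/-- the conditional information only depends on the partition of the condition -/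
theorem ltb_miC_congr {Ω : Type} [Fintype Ω] (P : FLaw Ω) {tA tB tC tD : Type} (X : Ω → tA) (Y : Ω → tB) (Z : Ω → tC) (Z' : Ω → tD)
    (h : ∀ ω ω', Z ω = Z ω' ↔ Z' ω = Z' ω') : P.miC X Y Z = P.miC X Y Z' := by
  have h1 : ∀ {tE : Type} (U : Ω → tE), P.ent (pair U Z) = P.ent (pair U Z') := by
    intro tE U
    refine ent_congr_ker P _ _ fun ω ω' _ _ => ?_
    simp only [FLaw.pair, Prod.mk.injEq]
    rw [h ω ω']
  have h2 : P.ent Z = P.ent Z' := ent_congr_ker P _ _ fun ω ω' _ _ => h ω ω'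
  unfold FLaw.miC
  rw [h1 X, h1 Y, h1 (pair X Y), h2]

/-! ## LEAF B4: choice of a cell -/

/-- LEAF B4.  By contradiction: `P.pr G = E (cfib).pr G` (`ent_pr_tower`), `ent_ev_le_of_bad` with `Bad ω = h/8 < (cfib ω).pr Rb` (`c = h/2`, `M = 1`),
`ent_cell_markov` (`τ = h/8`): `h ≤ h/2 + 8 r/h`. -/
theorem ltb_choose {Ω : Type} [Fintype Ω] (P : FLaw Ω) {tC : Type} (C : Ω → tC) (G Rb : Ω → Prop) {h r : ℝ} (hh : 0 < h)
    (hG : h ≤ P.pr G) (hR : P.pr Rb ≤ r) (hr : 16 * r < h ^ 2) :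
    ∃ ω₀, P.p ω₀ ≠ 0 ∧ h / 2 ≤ (P.cfib C ω₀).pr G ∧ (P.cfib C ω₀).pr Rb ≤ h / 8 := by
  by_contra hcon
  push Not at hcon
  have h1 := ent_ev_le_of_bad P (f := fun ω => (P.cfib C ω).pr G) (fun ω => h / 8 ≤ (P.cfib C ω).pr Rb)
    (c := h / 2) (M := 1)
    (fun ω hω hb => by
      by_contra hlt
      push Not at hlt
      have := hcon ω hω hlt.le
      exact hb this.le)
    (fun ω _ _ => ent_pr_le_one _ _)
  rw [← ent_pr_tower P C G] at h1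
  have h2 := ent_cell_markov P C Rb (τ := h / 8) (by positivity)
  have h3 : P.pr Rb / (h / 8) ≤ r / (h / 8) := div_le_div_of_nonneg_right hR (by positivity)
  have h4 : r / (h / 8) = 8 * r / h := by
    field_simp
  have h5 : 8 * r / h < h / 2 := by
    rw [div_lt_iff₀ hh]
    nlinarith
  have h6 := ent_pr_nonneg P (fun ω => h / 8 ≤ (P.cfib C ω).pr Rb)
  nlinarith

/-! ## LEAF B5: the class of the failing rate -/

/-- LEAF B5.  `ltk_ent_ge` (`c = (m - η/2) L`, `τ = η/2`, contrapositive; if `m - η/2 < 0` then `hfail` contradicts `ent_entC_nonneg`): `{sur < (m-η/2)L}` has mass `> η/2`;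
it is covered by the classes (`hcov` at `s = sur/L`, `ent_surC_nonneg`), `ent_pr_exists_le`, pigeonhole; `ltk_info_tail P T1 Y Bv` with `t = κ₁/2 L`, `ent_miC_eq`. -/
theorem ltb_event {Ω : Type} [Fintype Ω] (P : FLaw Ω) {tT tY tB : Type} (T1 : Ω → tT) (Y : Ω → tY) (Bv : Ω → tB)
    (T : Finset (ℝ × ℝ)) {m η κ κ₁ L : ℝ} (hm : m ≤ 1) (hη : 0 < η) (hL : 0 < L) (hκ₁ : 0 < κ₁)
    (hcov : ∀ s : ℝ, 0 ≤ s → s ≤ m - η / 2 → ∃ x ∈ T, |s - x.1| ≤ x.2 / 2)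
    (hdef : P.entC T1 Y - P.entC T1 (pair Bv Y) ≤ κ * L)
    (hfail : P.entC T1 Y < (m - η) * L) :
    ∃ x ∈ T, η / (2 * ((T.card : ℝ) + 1)) - 2 * (κ * L + 1) / (κ₁ * L) ≤
      P.pr (fun ω => |P.surC T1 Y ω - x.1 * L| ≤ x.2 / 2 * L ∧ P.surC T1 Y ω ≤ P.surC T1 (pair Bv Y) ω + κ₁ / 2 * L) := by
  have hent := ent_entC_nonneg P T1 Y
  have hc : 0 ≤ (m - η / 2) * L := by
    by_contra hneg
    push Not at hneg
    have : (m - η) * L ≤ (m - η / 2) * L := mul_le_mul_of_nonneg_right (by linarith) hL.le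
    linarith
  have hmass : η / 2 < P.pr (fun ω => P.surC T1 Y ω < (m - η / 2) * L) := by
    by_contra hle
    push Not at hle
    have h1 := ltk_ent_ge P T1 Y hc hle
    have h2 : (m - η / 2) * L * (1 - η / 2) - (m - η) * L = ((1 - m) * η / 2 + η ^ 2 / 4) * L := by ring
    have h3 : 0 ≤ ((1 - m) * η / 2 + η ^ 2 / 4) * L := by
      have h4 : 0 ≤ (1 - m) * η := mul_nonneg (by linarith) hη.le
      have h5 : 0 ≤ η ^ 2 := sq_nonneg η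
      exact mul_nonneg (by linarith) hL.le
    linarith
  have hcover : P.pr (fun ω => P.surC T1 Y ω < (m - η / 2) * L)
      ≤ ∑ x ∈ T, P.pr (fun ω => |P.surC T1 Y ω - x.1 * L| ≤ x.2 / 2 * L) := by
    refine le_trans (ent_pr_mono P fun ω hω hlt => ?_)
      (ent_pr_exists_le P T (fun x ω => |P.surC T1 Y ω - x.1 * L| ≤ x.2 / 2 * L))
    have h0 := ent_surC_nonneg P T1 Y hω
    obtain ⟨x, hx, hxs⟩ := hcov (P.surC T1 Y ω / L) (div_nonneg h0 hL.le) (by rw [div_le_iff₀ hL]; exact hlt.le)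
    refine ⟨x, hx, ?_⟩
    have e : P.surC T1 Y ω - x.1 * L = (P.surC T1 Y ω / L - x.1) * L := by
      field_simp
    rw [e, abs_mul, abs_of_pos hL]
    exact mul_le_mul_of_nonneg_right hxs hL.le
  have hpig : ∃ x ∈ T, η / (2 * ((T.card : ℝ) + 1)) ≤ P.pr (fun ω => |P.surC T1 Y ω - x.1 * L| ≤ x.2 / 2 * L) := by
    by_contra hno
    push Not at hno
    have h1 : ∑ x ∈ T, P.pr (fun ω => |P.surC T1 Y ω - x.1 * L| ≤ x.2 / 2 * L)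
        ≤ ∑ _x ∈ T, η / (2 * ((T.card : ℝ) + 1)) := Finset.sum_le_sum fun x hx => (hno x hx).le
    rw [Finset.sum_const, nsmul_eq_mul] at h1
    have h2 : (T.card : ℝ) * (η / (2 * ((T.card : ℝ) + 1))) ≤ η / 2 := by
      have hc0 : (0 : ℝ) ≤ (T.card : ℝ) := Nat.cast_nonneg _
      rw [← mul_div_assoc, div_le_iff₀ (by positivity)]
      nlinarith
    linarith
  obtain ⟨x, hx, hxm⟩ := hpig
  refine ⟨x, hx, ?_⟩
  have ht : 0 < κ₁ / 2 * L := by positivity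
  have htail := ltk_info_tail P T1 Y Bv ht
  rw [ent_miC_eq] at htail
  have h3 : (P.entC T1 Y - P.entC T1 (pair Bv Y) + 1) / (κ₁ / 2 * L) ≤ 2 * (κ * L + 1) / (κ₁ * L) := by
    have e : 2 * (κ * L + 1) / (κ₁ * L) = (κ * L + 1) / (κ₁ / 2 * L) := by
      field_simp
    rw [e]
    exact div_le_div_of_nonneg_right (by linarith) ht.le
  have h4 := ent_pr_split P (fun ω => |P.surC T1 Y ω - x.1 * L| ≤ x.2 / 2 * L)
    (fun ω => P.surC T1 (pair Bv Y) ω + κ₁ / 2 * L < P.surC T1 Y ω)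
  have h5 : P.pr (fun ω => |P.surC T1 Y ω - x.1 * L| ≤ x.2 / 2 * L ∧ P.surC T1 (pair Bv Y) ω + κ₁ / 2 * L < P.surC T1 Y ω)
      ≤ P.pr (fun ω => P.surC T1 (pair Bv Y) ω + κ₁ / 2 * L < P.surC T1 Y ω) := ent_pr_mono P fun ω _ h => h.2
  have h6 : P.pr (fun ω => |P.surC T1 Y ω - x.1 * L| ≤ x.2 / 2 * L ∧ ¬ P.surC T1 (pair Bv Y) ω + κ₁ / 2 * L < P.surC T1 Y ω)
      ≤ P.pr (fun ω => |P.surC T1 Y ω - x.1 * L| ≤ x.2 / 2 * L ∧ P.surC T1 Y ω ≤ P.surC T1 (pair Bv Y) ω + κ₁ / 2 * L) :=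
    ent_pr_mono P fun ω _ h => ⟨h.1, not_lt.1 h.2⟩
  linarith

/-! ## LEAF B6: union bound on the mesh, numerics -/

/-- LEAF B6a.  `ent_pr_exists_le` over `Finset.range (N+1)`. -/
theorem ltb_mesh_all {Ω : Type} [Fintype Ω] (P : FLaw Ω) (N : ℕ) (Bad : ℝ → Ω → Prop) {κ : ℝ}
    (h : ∀ d ∈ mesh N, P.pr (Bad d) ≤ κ) : P.pr (fun ω => ∃ d ∈ mesh N, Bad d ω) ≤ ((N : ℝ) + 1) * κ := by
  have h1 : P.pr (fun ω => ∃ d ∈ mesh N, Bad d ω)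
      ≤ P.pr (fun ω => ∃ k ∈ Finset.range (N + 1), Bad ((k : ℝ) / (N : ℝ)) ω) := by
    refine ent_pr_mono P fun ω _ hω => ?_
    obtain ⟨d, ⟨k, hk, rfl⟩, hb⟩ := hω
    exact ⟨k, Finset.mem_range.2 (Nat.lt_succ_of_le hk), hb⟩
  have h2 := ent_pr_exists_le P (Finset.range (N + 1)) (fun k ω => Bad ((k : ℝ) / (N : ℝ)) ω)
  have h3 : ∑ k ∈ Finset.range (N + 1), P.pr (fun ω => Bad ((k : ℝ) / (N : ℝ)) ω) ≤ ∑ _k ∈ Finset.range (N + 1), κ :=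
    Finset.sum_le_sum fun k hk => h _ ⟨k, Nat.lt_succ_iff.1 (Finset.mem_range.1 hk), rfl⟩
  rw [Finset.sum_const, Finset.card_range, nsmul_eq_mul] at h3
  push_cast at h3
  linarith

/-- LEAF B6b.  `κ = min` of `κ₁`, `κ₁ h₀/16`, `h₀/(8(N+1))`, `κ₁ h₀²/256`;  `L₀ = max (16/(κ₁ h₀)) (256/(κ₁ h₀²))`. -/
theorem ltb_consts (κ₁ h₀ : ℝ) (N : ℕ) (hκ₁ : 0 < κ₁) (hh : 0 < h₀) :
    ∃ κ : ℝ, 0 < κ ∧ κ ≤ κ₁ ∧ ∃ L₀ : ℝ, 0 < L₀ ∧ ∀ L : ℝ, L₀ ≤ L →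
      2 * (κ * L + 1) / (κ₁ * L) ≤ h₀ / 4 ∧ 2 * (((N : ℝ) + 1) * κ) ≤ h₀ / 4 ∧ 16 * ((κ * L + 1) / (κ₁ * L)) < (h₀ / 2) ^ 2 := by
  obtain ⟨κ, hκdef⟩ : ∃ κ, κ = min (min κ₁ (κ₁ * h₀ / 16)) (min (h₀ / (8 * ((N : ℝ) + 1))) (κ₁ * h₀ ^ 2 / 256)) := ⟨_, rfl⟩
  have k1 : κ ≤ κ₁ := by rw [hκdef]; exact (min_le_left _ _).trans (min_le_left _ _)
  have k2 : κ ≤ κ₁ * h₀ / 16 := by rw [hκdef]; exact (min_le_left _ _).trans (min_le_right _ _)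
  have k3 : κ ≤ h₀ / (8 * ((N : ℝ) + 1)) := by rw [hκdef]; exact (min_le_right _ _).trans (min_le_left _ _)
  have k4 : κ ≤ κ₁ * h₀ ^ 2 / 256 := by rw [hκdef]; exact (min_le_right _ _).trans (min_le_right _ _)
  have hκ : 0 < κ := by
    rw [hκdef]
    exact lt_min (lt_min hκ₁ (by positivity)) (lt_min (by positivity) (by positivity))
  refine ⟨κ, hκ, k1, max (16 / (κ₁ * h₀)) (256 / (κ₁ * h₀ ^ 2)), lt_max_of_lt_left (by positivity), fun L hL => ?_⟩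
  have l1 : 16 / (κ₁ * h₀) ≤ L := (le_max_left _ _).trans hL
  have l2 : 256 / (κ₁ * h₀ ^ 2) ≤ L := (le_max_right _ _).trans hL
  have hLpos : 0 < L := lt_of_lt_of_le (by positivity) l1
  have l1' : 16 ≤ L * (κ₁ * h₀) := (div_le_iff₀ (by positivity)).1 l1
  have l2' : 256 ≤ L * (κ₁ * h₀ ^ 2) := (div_le_iff₀ (by positivity)).1 l2
  have hd : 0 < κ₁ * L := by positivity
  refine ⟨?_, ?_, ?_⟩
  · rw [div_le_iff₀ hd]
    have : κ * L ≤ κ₁ * h₀ / 16 * L := mul_le_mul_of_nonneg_right k2 hLpos.le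
    linarith
  · have h5 : ((N : ℝ) + 1) * κ ≤ ((N : ℝ) + 1) * (h₀ / (8 * ((N : ℝ) + 1))) :=
      mul_le_mul_of_nonneg_left k3 (by positivity)
    have e : ((N : ℝ) + 1) * (h₀ / (8 * ((N : ℝ) + 1))) = h₀ / 8 := by
      field_simp
    linarith
  · rw [← mul_div_assoc, div_lt_iff₀ hd]
    have h5 : κ * L ≤ κ₁ * h₀ ^ 2 / 256 * L := mul_le_mul_of_nonneg_right k4 hLpos.le
    have pos : 0 < L * (κ₁ * h₀ ^ 2) := by positivity
    linarith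

end Claimed.Agent.R256
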