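import Claimed.Agent.R256.LT.BoostA

/-!
# Row 256, unit LT, BOOST-E: the abstract statement `ltb_core` (glue of the leaves of `BoostA.lean`)      (helper170)
-/

set_option autoImplicit false

namespace Claimed.Agent.R256

open scoped BigOperators
open Classical
open Claimed.Agent.R255
open Claimed.Agent.R255.FLaw

/-- support of a cell -/
theorem ltb_cfib_supp {Ω : Type} [Fintype Ω] (P : FLaw Ω) {tC : Type} (C : Ω → tC) {ω₀ ω : Ω} (h0 : P.p ω₀ ≠ 0)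
    (h : (P.cfib C ω₀).p ω ≠ 0) : C ω = C ω₀ ∧ P.p ω ≠ 0 :=
  (ent_cnd_supp P _ (ent_fib_pos P C h0)).1 h

/-- surprise given the cell variable, inside the cell -/
theorem ltb_cfib_sur {Ω : Type} [Fintype Ω] (P : FLaw Ω) {tA tC : Type} (X : Ω → tA) (C : Ω → tC) {ω₀ ω : Ω}
    (hC : C ω = C ω₀) (hω : P.p ω ≠ 0) : - Real.log ((P.cfib C ω₀).fib X ω) = P.surC X C ω := by
  rw [ent_surC_eq_cfib P X C hω, ent_cfib_congr P C hC]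

/-- removing two bad events -/
theorem ltb_pr_diff {Ω : Type} [Fintype Ω] (P : FLaw Ω) (A B1 B2 : Ω → Prop) :
    P.pr A - P.pr B1 - P.pr B2 ≤ P.pr (fun ω => A ω ∧ ¬ B1 ω ∧ ¬ B2 ω) := by
  have h1 : P.pr A ≤ P.pr (fun ω => ((A ω ∧ ¬ B1 ω ∧ ¬ B2 ω) ∨ B1 ω) ∨ B2 ω) := by
    refine ent_pr_mono P fun ω _ hA => ?_
    by_cases b1 : B1 ω
    · exact Or.inl (Or.inr b1)
    · by_cases b2 : B2 ω
      · exact Or.inr b2
      · exact Or.inl (Or.inl ⟨hA, b1, b2⟩)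
  have h2 := ent_pr_or_le P (fun ω => (A ω ∧ ¬ B1 ω ∧ ¬ B2 ω) ∨ B1 ω) B2
  have h3 := ent_pr_or_le P (fun ω => A ω ∧ ¬ B1 ω ∧ ¬ B2 ω) B1
  linarith

/-- small scales have a large logarithm -/
theorem ltb_lg_ge {ρ L₀ : ℝ} (h0 : 0 < ρ) (h : ρ < Real.exp (-L₀)) : L₀ ≤ lg ρ := by
  unfold lg
  rw [one_div, Real.log_inv]
  have h2 := Real.log_lt_log h0 h
  rw [Real.log_exp] at h2
  linarith

/-- **BOOST-E for abstract observations**: point `Z`, record `W`, parent `Pa`; source `bf`, parameter `cf ∈ [0,1]`, target `Yf + cf bf`, `Yf ∈ [0,1]`. -/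
theorem ltb_core (β γ η : ℝ) (hβ : 0 < β) (hγ : 0 < γ) (hη : 0 < η) :
    ∃ N : ℕ, 0 < N ∧ ∃ κ : ℝ, 0 < κ ∧ ∃ ρ₀ : ℝ, 0 < ρ₀ ∧
      ∀ (Ω : Type) [Fintype Ω] (P : FLaw Ω) (tZ tW tP : Type) (Z : Ω → tZ) (W : Ω → tW) (Pa : Ω → tP)
        (bf Yf cf : Ω → ℝ) (ρ : ℝ), 0 < ρ → ρ < 1 → ρ < ρ₀ →
        (∀ ω ω', P.p ω ≠ 0 → P.p ω' ≠ 0 → Pa ω = Pa ω' → Z ω = Z ω' → bf ω = bf ω' ∧ Yf ω = Yf ω') →
        (∀ ω ω', P.p ω ≠ 0 → P.p ω' ≠ 0 → Pa ω = Pa ω' → W ω = W ω' → cf ω = cf ω') →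
        (∀ ω, P.p ω ≠ 0 → |bf ω| ≤ 1 ∧ 0 ≤ Yf ω ∧ Yf ω ≤ 1 ∧ 0 ≤ cf ω ∧ cf ω ≤ 1) →
        P.miC Z W Pa ≤ κ * lg ρ →
        (∀ d ∈ mesh N, P.pr (fun ω => P.surC (fun ω => bbin ρ d (cf ω)) Pa ω < (γ * d - κ) * lg ρ) ≤ κ) →
        (∀ d ∈ mesh N, P.pr (fun ω => P.surC (fun ω => bbin ρ d (bf ω)) (pair W Pa) ω < (β * d - κ) * lg ρ) ≤ κ) →
        P.entC (fun ω => bbin ρ 1 (Yf ω + cf ω * bf ω)) (pair W Pa)
          - P.entC (fun ω => bbin ρ 1 (Yf ω + cf ω * bf ω)) (pair (fun ω => bbin ρ 1 (bf ω)) (pair W Pa)) ≤ κ * lg ρ →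
        (min 1 (β + γ) - η) * lg ρ ≤ P.entC (fun ω => bbin ρ 1 (Yf ω + cf ω * bf ω)) (pair W Pa) := by
  obtain ⟨T, κ₁, hκ₁, hT, hcov, N₁, hN₁, hch⟩ := ltb_chain_unif β γ η hβ hγ hη
  obtain ⟨h₀, hh₀def⟩ : ∃ h₀ : ℝ, h₀ = η / (2 * ((T.card : ℝ) + 1)) := ⟨_, rfl⟩
  have hh₀ : 0 < h₀ := by rw [hh₀def]; positivity
  obtain ⟨κ, hκ, hκκ₁, L₀, hL₀, hnum⟩ := ltb_consts κ₁ h₀ N₁ hκ₁ hh₀
  obtain ⟨ρ₁, hρ₁, hno⟩ := hch (h₀ / 4) (by positivity)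
  refine ⟨N₁, hN₁, κ, hκ, min ρ₁ (Real.exp (-L₀)), lt_min hρ₁ (Real.exp_pos _), ?_⟩
  intro Ω _ P tZ tW tP Z W Pa bf Yf cf ρ h0 h1 hρ detZ detW bdd info slope resid defect
  by_contra hfail
  push Not at hfail
  have hL : L₀ ≤ lg ρ := ltb_lg_ge h0 (lt_of_lt_of_le hρ (min_le_right _ _))
  have hLpos : 0 < lg ρ := lt_of_lt_of_le hL₀ hL
  obtain ⟨n1, n2, n3⟩ := hnum (lg ρ) hL
  obtain ⟨x, hx, hev⟩ := ltb_event P (fun ω => bbin ρ 1 (Yf ω + cf ω * bf ω)) (pair W Pa) (fun ω => bbin ρ 1 (bf ω)) T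
    (min_le_left 1 (β + γ)) hη hLpos hκ₁ hcov defect hfail
  rw [← hh₀def] at hev
  have hx2 : κ₁ ≤ x.2 := hT x hx
  have hκx : κ ≤ x.2 := hκκ₁.trans hx2
  have b1 := ltb_mesh_all P N₁ (fun d ω => P.surC (fun ω => bbin ρ d (cf ω)) Pa ω < (γ * d - κ) * lg ρ) slope
  have b2 := ltb_mesh_all P N₁ (fun d ω => P.surC (fun ω => bbin ρ d (bf ω)) (pair W Pa) ω < (β * d - κ) * lg ρ) resid
  have hdiff := ltb_pr_diff P
    (fun ω => |P.surC (fun ω => bbin ρ 1 (Yf ω + cf ω * bf ω)) (pair W Pa) ω - x.1 * lg ρ| ≤ x.2 / 2 * lg ρ ∧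
      P.surC (fun ω => bbin ρ 1 (Yf ω + cf ω * bf ω)) (pair W Pa) ω ≤
        P.surC (fun ω => bbin ρ 1 (Yf ω + cf ω * bf ω)) (pair (fun ω => bbin ρ 1 (bf ω)) (pair W Pa)) ω + κ₁ / 2 * lg ρ)
    (fun ω => ∃ d ∈ mesh N₁, P.surC (fun ω => bbin ρ d (cf ω)) Pa ω < (γ * d - κ) * lg ρ)
    (fun ω => ∃ d ∈ mesh N₁, P.surC (fun ω => bbin ρ d (bf ω)) (pair W Pa) ω < (β * d - κ) * lg ρ)
  obtain ⟨G, hGdef⟩ : ∃ G : Ω → Prop, G = (fun ω =>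
    (|P.surC (fun ω => bbin ρ 1 (Yf ω + cf ω * bf ω)) (pair W Pa) ω - x.1 * lg ρ| ≤ x.2 / 2 * lg ρ ∧
      P.surC (fun ω => bbin ρ 1 (Yf ω + cf ω * bf ω)) (pair W Pa) ω ≤
        P.surC (fun ω => bbin ρ 1 (Yf ω + cf ω * bf ω)) (pair (fun ω => bbin ρ 1 (bf ω)) (pair W Pa)) ω + κ₁ / 2 * lg ρ) ∧
    (¬ ∃ d ∈ mesh N₁, P.surC (fun ω => bbin ρ d (cf ω)) Pa ω < (γ * d - κ) * lg ρ) ∧
    ¬ ∃ d ∈ mesh N₁, P.surC (fun ω => bbin ρ d (bf ω)) (pair W Pa) ω < (β * d - κ) * lg ρ) := ⟨_, rfl⟩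
  rw [← hGdef] at hdiff
  have hG : h₀ / 2 ≤ P.pr G := by linarith
  have hR : P.pr (fun ω => P.surC Z (pair W Pa) ω + κ₁ * lg ρ < P.surC Z Pa ω) ≤ (κ * lg ρ + 1) / (κ₁ * lg ρ) :=
    (ltk_info_tail P Z Pa W (mul_pos hκ₁ hLpos)).trans
      (div_le_div_of_nonneg_right (by linarith) (mul_pos hκ₁ hLpos).le)
  obtain ⟨ω₀, hω₀, c1, c2⟩ := ltb_choose P Pa G (fun ω => P.surC Z (pair W Pa) ω + κ₁ * lg ρ < P.surC Z Pa ω)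
    (h := h₀ / 2) (by positivity) hG hR n3
  have hs : ∀ ω, (P.cfib Pa ω₀).p ω ≠ 0 → Pa ω = Pa ω₀ ∧ P.p ω ≠ 0 := fun ω h => ltb_cfib_supp P Pa hω₀ h
  have hm1 : κ₁ * lg ρ ≤ x.2 * lg ρ := mul_le_mul_of_nonneg_right hx2 hLpos.le
  have hm2 : κ * lg ρ ≤ x.2 * lg ρ := mul_le_mul_of_nonneg_right hκx hLpos.le
  obtain ⟨C, H', hCρ, hyp⟩ := ltb_cell (P.cfib Pa ω₀) Z (pair W Pa) bf Yf cf G ρ β γ x.1 x.2 (h₀ / 4) N₁ h0 h1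
    (hκ₁.le.trans hx2)
    (fun ω ω' a b hz => detZ ω ω' (hs ω a).2 (hs ω' b).2 ((hs ω a).1.trans (hs ω' b).1.symm) hz)
    (fun ω ω' a b hw => detW ω ω' (hs ω a).2 (hs ω' b).2 ((hs ω a).1.trans (hs ω' b).1.symm) (congrArg Prod.fst hw))
    (fun ω a => bdd ω (hs ω a).2)
    (by linarith)
    (by
      refine le_trans (ent_pr_mono _ fun ω a hlt => ?_) (c2.trans (by linarith))
      rw [ent_surC_cfib P (pair W Pa) Z Pa (fun _ _ h => congrArg Prod.snd h) (hs ω a).1 (hs ω a).2,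
        ltb_cfib_sur P Z Pa (hs ω a).1 (hs ω a).2] at hlt
      linarith)
    (by
      intro ω a hGω d hd
      rw [ent_surC_cfib P (pair W Pa) _ Pa (fun _ _ h => congrArg Prod.snd h) (hs ω a).1 (hs ω a).2]
      rw [hGdef] at hGω
      have h3 := hGω.2.2
      push Not at h3
      have h4 := h3 d hd
      linarith)
    (by
      intro ω a hGω
      rw [ent_surC_cfib P (pair (fun ω => bbin ρ 1 (bf ω)) (pair W Pa)) _ Pa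
        (fun _ _ h => congrArg (fun z => z.2.2) h) (hs ω a).1 (hs ω a).2]
      rw [hGdef] at hGω
      have h3 := (abs_le.1 hGω.1.1).1
      have h4 := hGω.1.2
      linarith)
    (by
      intro ω a hGω
      rw [ent_surC_cfib P (pair W Pa) _ Pa (fun _ _ h => congrArg Prod.snd h) (hs ω a).1 (hs ω a).2]
      rw [hGdef] at hGω
      have h3 := (abs_le.1 hGω.1.1).2
      have h5 : 0 ≤ x.2 * lg ρ := mul_nonneg (hκ₁.le.trans hx2) hLpos.le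
      linarith)
    (by
      intro ω a hGω d hd
      rw [ltb_cfib_sur P _ Pa (hs ω a).1 (hs ω a).2]
      rw [hGdef] at hGω
      have h3 := hGω.2.1
      push Not at h3
      have h4 := h3 d hd
      linarith)
  exact hno x hx C H' (by rw [hCρ]; exact lt_of_lt_of_le hρ (min_le_left _ _)) hyp

end Claimed.Agent.R256
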