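import Claimed.Agent.R256.LT.Kit

/-!
# Row 256, unit LT, file 3: DEFINITIONS of the line test (Lemma act:line-test, 06 l.28-306)      (architect helper46)

## Real-variable vocabulary (used by `Geo.lean`, helper282; Mathlib only)
`Ph` = quadratic phase `(X,B,P,Y,N,D)`.  Fibre entries of a phase at the marks `(θ,r)`:
  `q1 = B + θX`, `q2 = Y + θX²`, `q3 = D + θN`, `q4 = P - 2rX`, `q5 = N - PX + rX²`.
`Frz` = frozen coefficients: contact frame `(X,P)`, line coefficients `(β,κ)`, time slope `θ`, angular gap `A`.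
GLOBAL linear forms of the phase (no translation: differences of two phases are what matters):
  `fH = Y - 2 c.X B`, `fJ = N - c.P X`, `fK = D - c.P B`, `fL = P - 2 c.β X + 2 c.κ B`, `fJ' = fJ - c.κ fH`, `fK' = fK - c.β fH`,
  `fx = fK' + c.θ fJ'`, `fy = fJ' - (c.A/2) fL`, `fw = B + c.θ X`, `fxt θ̄ r̄ = fK + θ̄ fJ - r̄ fH`.

## Two-point inequalities wanted from `Geo.lean`  (all reals bounded by `K ≥ 1`; `e ≤ 1` accuracy; constants `C`, powers of `K` free)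
(LEG)  marks within `e`, the five entries within `e`, `a = X' - X`:   `F' - F = (a, -θa, 2ra, -θ(2Xa+a²), Pa+ra², -θ(Pa+ra²)) + O(K³e)`  (order X,B,P,Y,N,D).
(ANN)  hence for `f ∈ {fx, fy, fL, fJ'}`: `|f c F' - f c F| ≤ C K^5 (a² + |a| μ + e)`, `μ = |X-c.X| + |P-c.P| + |r - c.β - c.κ θ|`.
(W)    `fw c F' - fw c F = (c.θ - θ) a + O(K e)`.
(MOT)  two targets `(F,θ,r)`, `(F',θ',r')` on legs from the SAME `F_R` (LEG with `a = A`, resp. `A'`), `r = β_R + κ_R θ + O(e)`, same for the primes,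
       `|A - A'| ≤ e₆`, `h = θ' - θ`, `E = |h| (μ' + |h|) + e₆ + e`, `μ' = |X-c.X| + |P-c.P| + |β_F-c.β| + |κ_F-c.κ| + |θ-c.θ| + |A-c.A|`, `|β_R + κ_R θ - β_F - κ_F θ| ≤ e`:
       `|F'-F| ≤ C K³ (|h| + e₆ + e)`;  `|Δfx|, |Δfy| ≤ C K^5 E`;  `|κ_R-κ_F| A² |h| ≤ |ΔfJ'| + C K^5 E`;  `2 |A| |κ_R-κ_F| |h| ≤ |ΔfL| + C K^5 E`.
(LIP)  every form is `C K²`-Lipschitz in the phase (sup norm).
(XT)   `Δ(fxt θ̄ r̄ - fx c) = (c.β + c.κ c.θ - r̄) ΔfH` if `c.θ = θ̄`.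

## The data and the hypotheses of the lemma:  `LtData`, `LtData.Hyp`.   Cells: `tcell δ p v` (dyadic, exactly nested in `p`), `trep` = left end.
-/

set_option autoImplicit false

namespace Claimed.Agent.R256

open scoped BigOperators
open Classical
open Claimed.Agent.R255
open Claimed.Agent.R255.FLaw

/-- quadratic phase -/
structure Ph where
  X : ℝ
  B : ℝ
  P : ℝ
  Y : ℝ
  N : ℝ
  D : ℝ

namespace Ph

def q1 (F : Ph) (θ : ℝ) : ℝ := F.B + θ * F.X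
def q2 (F : Ph) (θ : ℝ) : ℝ := F.Y + θ * F.X ^ 2
def q3 (F : Ph) (θ : ℝ) : ℝ := F.D + θ * F.N
def q4 (F : Ph) (r : ℝ) : ℝ := F.P - 2 * r * F.X
def q5 (F : Ph) (r : ℝ) : ℝ := F.N - F.P * F.X + r * F.X ^ 2

/-- all coordinates bounded by `K` -/
def Bd (F : Ph) (K : ℝ) : Prop := |F.X| ≤ K ∧ |F.B| ≤ K ∧ |F.P| ≤ K ∧ |F.Y| ≤ K ∧ |F.N| ≤ K ∧ |F.D| ≤ K

/-- sup distance `≤ R` -/
def Near (F F' : Ph) (R : ℝ) : Prop :=
  |F.X - F'.X| ≤ R ∧ |F.B - F'.B| ≤ R ∧ |F.P - F'.P| ≤ R ∧ |F.Y - F'.Y| ≤ R ∧ |F.N - F'.N| ≤ R ∧ |F.D - F'.D| ≤ R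

/-- the same fibre up to `e` -/
def SameFib (F : Ph) (θ r : ℝ) (F' : Ph) (θ' r' : ℝ) (e : ℝ) : Prop :=
  |θ - θ'| ≤ e ∧ |r - r'| ≤ e ∧ |F.q1 θ - F'.q1 θ'| ≤ e ∧ |F.q2 θ - F'.q2 θ'| ≤ e ∧ |F.q3 θ - F'.q3 θ'| ≤ e ∧
    |F.q4 r - F'.q4 r'| ≤ e ∧ |F.q5 r - F'.q5 r'| ≤ e

/-- the six dyadic cells at depth `p` -/
noncomputable def cell (δ p : ℝ) (F : Ph) : ℤ × ℤ × ℤ × ℤ × ℤ × ℤ :=
  (tcell δ p F.X, tcell δ p F.B, tcell δ p F.P, tcell δ p F.Y, tcell δ p F.N, tcell δ p F.D)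

end Ph

/-- frozen coefficients -/
structure Frz where
  X : ℝ
  P : ℝ
  β : ℝ
  κ : ℝ
  θ : ℝ
  A : ℝ

namespace Frz

variable (c : Frz) (F : Ph)

def fH : ℝ := F.Y - 2 * c.X * F.B
def fJ : ℝ := F.N - c.P * F.X
def fK : ℝ := F.D - c.P * F.B
def fL : ℝ := F.P - 2 * c.β * F.X + 2 * c.κ * F.B
def fJ' : ℝ := c.fJ F - c.κ * c.fH F
def fK' : ℝ := c.fK F - c.β * c.fH F
def fx : ℝ := c.fK' F + c.θ * c.fJ' F
noncomputable def fy : ℝ := c.fJ' F - c.A / 2 * c.fL F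
def fw : ℝ := F.B + c.θ * F.X
def fxt (θb rb : ℝ) : ℝ := c.fK F + θb * c.fJ F - rb * c.fH F

/-- all coefficients bounded by `K` -/
def Bd (K : ℝ) : Prop := |c.X| ≤ K ∧ |c.P| ≤ K ∧ |c.β| ≤ K ∧ |c.κ| ≤ K ∧ |c.θ| ≤ K ∧ |c.A| ≤ K

end Frz

/-- the data of the line test: one finite law; side `Zs`, root name `C`, phase `F`, line `(β,κ)`; two observations with marks `(θ i, r i)`, fibre labels `S i`;
output `O` of the observation `0`. -/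
structure LtData (Ω : Type) [Fintype Ω] where
  P : FLaw Ω
  δ : ℝ
  tZ : Type
  tC : Type
  tS : Type
  tO : Type
  Zs : Ω → tZ
  C : Ω → tC
  S : Fin 2 → Ω → tS
  O : Ω → tO
  F : Ω → Ph
  β : Ω → ℝ
  κ : Ω → ℝ
  θ : Fin 2 → Ω → ℝ
  r : Fin 2 → Ω → ℝ

namespace LtData

variable {Ω : Type} [Fintype Ω] (T : LtData Ω)

/-- `ℓ = log (1/δ)` -/
noncomputable def ℓ : ℝ := lg T.δ

/-- cell of a real observation -/
noncomputable def cb (p : ℝ) (v : Ω → ℝ) (ω : Ω) : ℤ := tcell T.δ p (v ω)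

/-- phase cells -/
noncomputable def Fb (p : ℝ) (ω : Ω) : ℤ × ℤ × ℤ × ℤ × ℤ × ℤ := (T.F ω).cell T.δ p

/-- angular cell -/
noncomputable def Xb (p : ℝ) (ω : Ω) : ℤ := tcell T.δ p (T.F ω).X

/-- root name and fibre label -/
def CS (i : Fin 2) (ω : Ω) : T.tC × T.tS := (T.C ω, T.S i ω)

/-- root name and output -/
def CO (ω : Ω) : T.tC × T.tO := (T.C ω, T.O ω)

/-- coarse marks of the observation `0` -/
noncomputable def mk0 (ε : ℝ) (ω : Ω) : ℤ × ℤ := (tcell T.δ ε (T.θ 0 ω), tcell T.δ ε (T.r 0 ω))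

/-- the reading `K + θ_ε J - r_ε H` of hypothesis (iii), contact frame frozen at depth `ε` -/
noncomputable def xt (ε : ℝ) (ω : Ω) : ℝ :=
  (Frz.mk (trep T.δ ε (T.F ω).X) (trep T.δ ε (T.F ω).P) 0 0 0 0).fxt (T.F ω) (trep T.δ ε (T.θ 0 ω)) (trep T.δ ε (T.r 0 ω))

/-- the law with the posterior copy `R = x.2` of the whole sample given `(C, S 0)`; the target is `x.1` -/
noncomputable def P2 : FLaw (Ω × Ω) := T.P.ext (T.P.kerOf (fun ω => ω) (T.CS 0))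

/-- the hypotheses of Lemma act:line-test at the tolerance `τ`; `G` = good event, `Q` = finite set of query depths, `ε` = depth of all frozen coefficients,
`χ` = separation exponent of (mis), `M` = the deterministic angular profile. -/
structure Hyp (d g τ χ ε : ℝ) (Q : Finset ℝ) (M : ℝ → ℝ) (G : Ω → Prop) : Prop where
  δpos : 0 < T.δ
  δlt : T.δ < 1
  good : T.P.pr (fun ω => ¬ G ω) ≤ τ
  side : ∀ ω ω', T.Zs ω = T.Zs ω' → T.C ω = T.C ω' ∧ T.F ω = T.F ω' ∧ T.β ω = T.β ω' ∧ T.κ ω = T.κ ω'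
  ci : T.P.CI (T.θ 0) (T.θ 1) T.Zs
  size : ∀ ω, T.P.p ω ≠ 0 → (T.F ω).Bd (T.δ ^ (-τ)) ∧ |T.β ω| ≤ T.δ ^ (-τ) ∧ |T.κ ω| ≤ T.δ ^ (-τ) ∧
    ∀ i, |T.θ i ω| ≤ T.δ ^ (-τ) ∧ |T.r i ω| ≤ T.δ ^ (-τ)
  sline : ∀ i ω, T.P.p ω ≠ 0 → G ω → |T.r i ω - T.β ω - T.κ ω * T.θ i ω| ≤ T.δ ^ (10 - τ)
  time : ∀ p ∈ Q, ∀ v ∈ Q, p ≤ v →
    T.P.pr (fun ω => T.P.surC (T.cb v (T.θ 0)) (pair T.Zs (T.cb p (T.θ 0))) ω < (d * (v - p) - τ) * T.ℓ) ≤ τ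
  fib : ∀ i ω ω', T.P.p ω ≠ 0 → T.P.p ω' ≠ 0 → G ω → G ω' → T.CS i ω = T.CS i ω' →
    (T.F ω).SameFib (T.θ i ω) (T.r i ω) (T.F ω') (T.θ i ω') (T.r i ω') (T.δ ^ (10 - τ))
  out1 : T.P.NVal G (T.cb 1 (T.θ 0)) T.CO (T.δ ^ (-τ))
  out2 : T.P.NVal G (T.Fb 1) (pair (T.Xb 1) T.CO) (T.δ ^ (-τ))
  out3 : T.P.NVal G (T.mk0 ε) T.CO (T.δ ^ (-τ))
  out4 : ∀ p ∈ Q, ∀ v ∈ Q, 1 ≤ p → p ≤ v → v ≤ 2 → v - p ≤ ε / 4 →
    T.P.NVal G (T.cb v (T.xt ε)) (pair (pair (T.Fb p) (T.mk0 ε)) T.CO) (T.δ ^ (-τ))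
  stat : ∀ i, T.P.miC (T.Xb 6) (T.S i) T.C ≤ τ * T.ℓ
  prof : ∀ z ∈ Q, T.P.pr (fun ω => τ * T.ℓ < |T.P.surC (T.Xb z) T.C ω - M z * T.ℓ|) ≤ τ
  mem : ∀ z ∈ Q, g * z ≤ M z
  mis : T.P2.pr (fun x => |T.κ x.2 - T.κ x.1| < T.δ ^ χ) ≤ τ

end LtData

end Claimed.Agent.R256
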