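import Claimed.Agent.R256.LT.App
import Claimed.Agent.R256.LT.AppRes

/-!
# Row 256, unit LT, file 9: GLUE of the two applications of BOOST-E      (architect helper46)
`ltp_x` : on a good double layer `H(x_{q+2z}|x_{q+z},E_q) = φx(q+2z,q) - φx(q+z,q) ≥ (min(1,2d) - η₁) z ℓ - 3 er`.
`ltp_y` : on a good double layer `H(y_{q+2z}|y_{q+z},x_{q+2z},E_q) ≥ (min(1,d+g') - η₁) z ℓ - 3 er`.
-/

set_option autoImplicit false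

namespace Claimed.Agent.R256

open scoped BigOperators
open Classical Finset
open Claimed.Agent.R255
open Claimed.Agent.R255.FLaw

/-- the hypotheses of BOOST-E are monotone in the tolerance -/
theorem ltb_hyp_mono {Ω : Type} [Fintype Ω] {B : Bst Ω} {β γ κ κ' : ℝ} {N : ℕ} (h : B.Hyp β γ κ N) (hκ : κ ≤ κ') : B.Hyp β γ κ' N := by
  have hL : 0 < B.L := by
    unfold Bst.L lg
    exact Real.log_pos (by rw [one_div]; exact (one_lt_inv₀ h.ρpos).2 h.ρlt)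
  refine ⟨h.ρpos, h.ρlt, h.bdd, h.detZ, h.detW, h.info.trans (by nlinarith), fun d hd => ?_, fun d hd => ?_, h.defect.trans (by nlinarith)⟩
  · refine le_trans (ent_pr_mono _ fun ω _ hω => ?_) ((h.slope d hd).trans hκ)
    refine lt_of_lt_of_le hω ?_
    nlinarith
  · refine le_trans (ent_pr_mono _ fun ω _ hω => ?_) ((h.resid d hd).trans hκ)
    refine lt_of_lt_of_le hω ?_
    nlinarith

/-- the error of a reading is small with respect to the layer -/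
theorem ltp_er_le {Ω : Type} [Fintype Ω] {T : LtData Ω} {κ z ε χ ζ : ℝ} {ns : ℕ} (Z : T.Sz κ z ε χ ζ ns) (hℓ : 0 < T.ℓ) :
    T.er χ ζ ≤ κ / 18 * (z * T.ℓ) := by
  unfold LtData.er
  have h1 := Z.χz
  have h2 := Z.ζz
  have h3 : κ ^ 2 * z ≤ κ * z := by
    have := Z.κpos
    have := Z.κ1
    have := Z.zpos
    nlinarith [mul_pos Z.κpos Z.zpos]
  have h4 : 5 * χ + 100 * ζ ≤ κ / 18 * z := by
    have e : κ / 18 * z = (κ * z) / 18 := by ring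
    rw [e]
    have := mul_pos Z.κpos Z.zpos
    linarith
  calc (5 * χ + 100 * ζ) * T.ℓ ≤ (κ / 18 * z) * T.ℓ := mul_le_mul_of_nonneg_right h4 hℓ.le
    _ = κ / 18 * (z * T.ℓ) := by ring

theorem ltp_ell_pos {Ω : Type} [Fintype Ω] (T : LtData Ω) (h0 : 0 < T.δ) (h1 : T.δ < 1) : 0 < T.ℓ := by
  unfold LtData.ℓ lg
  exact Real.log_pos (by rw [one_div]; exact (one_lt_inv₀ h0).2 h1)

/-- **first application** -/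
theorem ltp_x (d η₁ : ℝ) (hd : 0 < d) (hd1 : d ≤ 1) (hη : 0 < η₁) :
    ∃ κ₀ : ℝ, 0 < κ₀ ∧ ∃ ρ₀ : ℝ, 0 < ρ₀ ∧ ∀ κ : ℝ, κ ≤ κ₀ →
      ∀ (Ω : Type) [Fintype Ω] (T : LtData Ω) (g τ χ ε ζ : ℝ) (Q : Finset ℝ) (M : ℝ → ℝ) (G : Ω → Prop) (ns a m : ℕ) (q z : ℝ),
        T.Hyp d g τ χ ε Q M G → T.Sm τ χ ε ζ → T.P2.pr (fun x => ¬ T.G2 G χ x) ≤ ζ → T.Sz κ z ε χ ζ ns → ε ≤ q → q + 3 * z ≤ 3 →
        (∀ k : ℕ, k ≤ 3 * ns → (k : ℝ) / ns ∈ Q) → q = (a : ℝ) / ns → z = (m : ℝ) / ns → T.δ ^ z < ρ₀ →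
        T.P2.miC (T.Fb2 (q + 3 * z)) (T.Om ε) (fun x => (T.C x.1, T.Fb2 q x, T.Om0 ε x)) ≤ κ / 2 * (z * T.ℓ) →
        T.bud2 ε q (q + z) ≤ κ ^ 2 / 100 * (z * T.ℓ) →
        T.φx ε (q + 2 * z) q - T.φx ε (q + z) q - T.φx ε (q + 2 * z) (q + z) ≤ κ / 2 * (z * T.ℓ) →
        (min 1 (d + d) - η₁) * (z * T.ℓ) ≤ T.φx ε (q + 2 * z) q - T.φx ε (q + z) q + 3 * T.er χ ζ := by
  obtain ⟨N, _, κ₀, hκ₀, ρ₀, hρ₀, hB⟩ := ltb_boost d d η₁ hd hd hη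
  refine ⟨κ₀, hκ₀, ρ₀, hρ₀, fun κ hκ Ω _ T g τ χ ε ζ Q M G ns a m q z H S hG Z hq hq3 hQ ha hm hρ b1 b2 b3 => ?_⟩
  have hℓ := ltp_ell_pos T H.δpos H.δlt
  have hL : (T.B1 ε τ q z).L = z * T.ℓ := (ltp_scale T H.δpos z 1).1
  have her := ltp_er_le Z hℓ
  have hzl : 0 < z * T.ℓ := mul_pos Z.zpos hℓ
  obtain ⟨s1, s2, s3, s4, s5⟩ := ltp1_str H S Z.zpos hq
  have hyp : (T.B1 ε τ q z).Hyp d d κ N := by
    refine ⟨s1, s2, s3, s4, s5, ?_, ?_, ?_, ?_⟩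
    · rw [hL]
      have := ltp1_info H S hG Z hq hq3
      nlinarith [Z.κpos]
    · exact ltp1_slope H S hG hd hd1 Z hq hq3 hQ m hm N
    · exact ltp1_resid H S hG hd hd1 Z hq hq3 hQ a m ha hm b2 N
    · rw [hL]
      have := ltp1_defect H S hG Z hq hq3
      nlinarith [Z.κpos]
  have h := hB (Ω × Ω) (T.B1 ε τ q z) hρ (ltb_hyp_mono hyp hκ)
  rw [hL] at h
  exact h.trans (ltp1_concl H S hG Z hq hq3)

/-- **second application** -/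
theorem ltp_y (d g' η₁ : ℝ) (hd : 0 < d) (hd1 : d ≤ 1) (hg' : 0 < g') (hg1 : g' ≤ 1) (hη : 0 < η₁) :
    ∃ κ₀ : ℝ, 0 < κ₀ ∧ ∃ ρ₀ : ℝ, 0 < ρ₀ ∧ ∀ κ : ℝ, κ ≤ κ₀ →
      ∀ (Ω : Type) [Fintype Ω] (T : LtData Ω) (g τ χ ε ζ : ℝ) (Q : Finset ℝ) (M : ℝ → ℝ) (G : Ω → Prop) (ns a m : ℕ) (q z : ℝ),
        T.Hyp d g τ χ ε Q M G → T.Sm τ χ ε ζ → T.P2.pr (fun x => ¬ T.G2 G χ x) ≤ ζ → T.Sz κ z ε χ ζ ns → ε ≤ q → q + 3 * z ≤ 3 →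
        (∀ k : ℕ, k ≤ 3 * ns → (k : ℝ) / ns ∈ Q) → q = (a : ℝ) / ns → z = (m : ℝ) / ns → T.δ ^ z < ρ₀ →
        (∀ k : ℕ, k ≤ m → g' * ((k : ℝ) / ns) ≤ M (((m + k : ℕ) : ℝ) / ns) - M ((m : ℝ) / ns)) →
        T.P2.miC (T.Fb2 (q + 3 * z)) (T.Om ε) (fun x => (T.C x.1, T.Fb2 q x, T.OmT ε x)) ≤ κ / 2 * (z * T.ℓ) →
        T.bud2 ε q (q + z) ≤ κ ^ 2 / 100 * (z * T.ℓ) →
        T.φxy ε (q + 2 * z) q - T.φxy ε (q + z) q - T.φxy ε (q + 2 * z) (q + z) ≤ κ / 2 * (z * T.ℓ) →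
        (min 1 (d + g') - η₁) * (z * T.ℓ)
          ≤ T.P2.entC (T.c2 (q + 2 * z) (T.vy ε))
              (pair (pair (T.c2 (q + z) (T.vy ε)) (T.c2 (q + 2 * z) (T.vx ε))) (T.E ε q)) + 3 * T.er χ ζ := by
  obtain ⟨N, _, κ₀, hκ₀, ρ₀, hρ₀, hB⟩ := ltb_boost d g' η₁ hd hg' hη
  refine ⟨κ₀, hκ₀, ρ₀, hρ₀, fun κ hκ Ω _ T g τ χ ε ζ Q M G ns a m q z H S hG Z hq hq3 hQ ha hm hρ hw b1 b2 b3 => ?_⟩
  have hℓ := ltp_ell_pos T H.δpos H.δlt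
  have hL : (T.B2 ε τ q z).L = z * T.ℓ := (ltp_scale T H.δpos z 1).1
  have her := ltp_er_le Z hℓ
  have hzl : 0 < z * T.ℓ := mul_pos Z.zpos hℓ
  obtain ⟨s1, s2, s3, s4, s5⟩ := ltp2_str H S Z.zpos hq
  have hyp : (T.B2 ε τ q z).Hyp d g' κ N := by
    refine ⟨s1, s2, s3, s4, s5, ?_, ?_, ?_, ?_⟩
    · rw [hL]
      have := ltp2_info H S hG Z hq hq3
      nlinarith [Z.κpos]
    · exact ltp2_slope H S hG hg' hg1 Z hq hq3 hQ m hm hw N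
    · exact ltp2_resid H S hG hd hd1 Z hq hq3 hQ a m ha hm b2 N
    · rw [hL]
      have := ltp2_defect H S hG Z hq hq3
      nlinarith [Z.κpos]
  have h := hB (Ω × Ω) (T.B2 ε τ q z) hρ (ltb_hyp_mono hyp hκ)
  rw [hL] at h
  exact h.trans (ltp2_concl H S hG Z hq hq3)

end Claimed.Agent.R256
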