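import Claimed.Agent.R256.LT.Defs

/-!
# Row 256, unit LT, file 5: LABELS on the extended law `P2` (target `x.1`, posterior copy `x.2`)      (architect helper46)

`gap = X_F - X_R` (= `A` of the paper);  `frz ε` = all coefficients frozen at depth `ε` (left ends of the cells);  `Om ε` = `Ω` of the paper (7 cells at depth `ε`),
`OmT` = its target part (no `A`), `Om0` = the line coefficients;   `vx vy vL vJ vw` = values of the frozen forms at the target phase;  `c2 v f` = cell of `f` at depth `v`;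
`E ε q = (C, Ω, F_q)`;   `Ak ε k q = (C, S_k, X_q, Ω)` (fibre mode `k`);   `Yr ε q = (Z_R, X_{F,6}, θ̃_q, Ω)` (mark motion at `R`, `θ̃ = θ 0 x.2`);
`G2` = good event: both samples good, `|θ_0-θ_1|, |A|, |κ_R-κ_F| ≥ δ^χ`.
`Sm` = numeric side conditions of all layer lemmas;  `Lyr ε q v` = admissible layer;  `er = (5χ + 100ζ) ℓ` = the error of ONE reading:
every reading below has lists `≤ δ^(-4χ)`, every read label has `≤ δ^(-100)` values, `P2(¬G2) ≤ ζ`  (`R255.ent_ambiguity`).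
-/

set_option autoImplicit false

namespace Claimed.Agent.R256

open scoped BigOperators
open Classical
open Claimed.Agent.R255
open Claimed.Agent.R255.FLaw

namespace LtData

variable {Ω : Type} [Fintype Ω] (T : LtData Ω)

/-- `A = X_F - X_R` -/
def gap (x : Ω × Ω) : ℝ := (T.F x.1).X - (T.F x.2).X

/-- all coefficients frozen at depth `ε` -/
noncomputable def frz (ε : ℝ) (x : Ω × Ω) : Frz :=
  ⟨trep T.δ ε (T.F x.1).X, trep T.δ ε (T.F x.1).P, trep T.δ ε (T.β x.1), trep T.δ ε (T.κ x.1),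
    trep T.δ ε (T.θ 0 x.1), trep T.δ ε (T.gap x)⟩

noncomputable def Om0 (ε : ℝ) (x : Ω × Ω) : ℤ × ℤ := (tcell T.δ ε (T.β x.1), tcell T.δ ε (T.κ x.1))

noncomputable def OmT (ε : ℝ) (x : Ω × Ω) : (ℤ × ℤ) × (ℤ × ℤ) × (ℤ × ℤ) :=
  (T.Om0 ε x, (tcell T.δ ε (T.θ 0 x.1), tcell T.δ ε (T.r 0 x.1)), (tcell T.δ ε (T.θ 1 x.1), tcell T.δ ε (T.r 1 x.1)))

noncomputable def Om (ε : ℝ) (x : Ω × Ω) : ((ℤ × ℤ) × (ℤ × ℤ) × (ℤ × ℤ)) × ℤ := (T.OmT ε x, tcell T.δ ε (T.gap x))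

noncomputable def vx (ε : ℝ) (x : Ω × Ω) : ℝ := (T.frz ε x).fx (T.F x.1)
noncomputable def vy (ε : ℝ) (x : Ω × Ω) : ℝ := (T.frz ε x).fy (T.F x.1)
noncomputable def vL (ε : ℝ) (x : Ω × Ω) : ℝ := (T.frz ε x).fL (T.F x.1)
noncomputable def vJ (ε : ℝ) (x : Ω × Ω) : ℝ := (T.frz ε x).fJ' (T.F x.1)
noncomputable def vK (ε : ℝ) (x : Ω × Ω) : ℝ := (T.frz ε x).fK' (T.F x.1)
noncomputable def vw (ε : ℝ) (x : Ω × Ω) : ℝ := (T.frz ε x).fw (T.F x.1)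

/-- cell at depth `v` of a real observable on the extended space -/
noncomputable def c2 (v : ℝ) (f : Ω × Ω → ℝ) (x : Ω × Ω) : ℤ := tcell T.δ v (f x)

/-- target phase cells, angular cell -/
noncomputable def Fb2 (p : ℝ) (x : Ω × Ω) : ℤ × ℤ × ℤ × ℤ × ℤ × ℤ := T.Fb p x.1
noncomputable def Xb2 (p : ℝ) (x : Ω × Ω) : ℤ := T.Xb p x.1

/-- the mark of the copy -/
def θR (x : Ω × Ω) : ℝ := T.θ 0 x.2

/-- `(C, Ω, F_q)` -/
noncomputable def E (ε q : ℝ) (x : Ω × Ω) := (T.C x.1, T.Om ε x, T.Fb q x.1)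

/-- `(C, S_k, X_q, Ω)` -/
noncomputable def Ak (ε : ℝ) (k : Fin 2) (q : ℝ) (x : Ω × Ω) := (T.CS k x.1, T.Xb q x.1, T.Om ε x)

/-- `(Z_R, X_{F,6}, θ̃_q, Ω)` -/
noncomputable def Yr (ε q : ℝ) (x : Ω × Ω) := ((T.Zs x.2, T.Xb 6 x.1), tcell T.δ q (T.θR x), T.Om ε x)

/-- the good event on the extended space -/
def G2 (G : Ω → Prop) (χ : ℝ) (x : Ω × Ω) : Prop :=
  G x.1 ∧ G x.2 ∧ T.δ ^ χ ≤ |T.θ 0 x.1 - T.θ 1 x.1| ∧ T.δ ^ χ ≤ |T.gap x| ∧ T.δ ^ χ ≤ |T.κ x.2 - T.κ x.1|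

/-- numeric side conditions -/
structure Sm (τ χ ε ζ : ℝ) : Prop where
  τpos : 0 < τ
  big : 1000 ≤ T.δ ^ (-τ)
  τχ : 100 * τ ≤ χ
  χε : 100 * χ ≤ ε
  ε1 : ε ≤ 1 / 8
  ζ0 : 0 ≤ ζ

/-- the error of one reading -/
noncomputable def er (χ ζ : ℝ) : ℝ := (5 * χ + 100 * ζ) * T.ℓ

end LtData

/-- admissible layer -/
def Lyr (ε q v : ℝ) : Prop := ε ≤ q ∧ q ≤ v ∧ v ≤ 3 ∧ v - q ≤ ε / 4

end Claimed.Agent.R256
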