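import Claimed.Agent.R256.LT.Lab
import Claimed.Agent.R256.LT.Geo

/-!
# Row 256, unit LT, file 6: the extended law and the PER-LAYER entropy inequalities      (architect helper46)

All statements: one `T : LtData Ω` with `T.Hyp d g τ χ ε Q M G`, side conditions `T.Sm τ χ ε ζ`, `P2(¬G2) ≤ ζ`, one admissible layer `Lyr ε q v`.
Geometry: two-point inequalities of `Geo.lean` (helper282).  Readings: `ltk_nval_close/comp/mono`; entropy of a reading: `R255.ent_ambiguity` (`≤ er`).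
Nestedness of cells: `R255.rt_nested` / `rt_floor_div` (Rate/Chains.lean).

## A. the extended law   (`ltl_supp` ... `ltl_copy_info`, `ltl_sep`)
## B. per-layer inequalities
* `ltl_mode`  (L-mode) + splitting of `G`:   `H(x_v|E_q) + H(y_v|x_v,E_q) + H(L_v|x_v,y_v,E_q) + H(X_v|C,S_1,X_q,Ω) + H(X_v|C,S_0,X_q,Ω) ≤ H(F_v|E_q) + 10 er`.
   Proof.  `(F_v,Ω)` reads `(x,y,L,w,X)_v` (LIP).  `H(w_v|(x,y,L)_v,E_q) ≥ H(w_v|(x,y,L)_v,F_q,A_1) ≥ H(w_v|A_1) - H((x,y,L)_v,F_q|A_1)`; `A_1` reads `F_q` (LEG), `(F_q,A_1)` reads `(x,y,L)_v` (ANN: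
   `a² + |a| μ ≤ K δ^(q+ε)`, the frame is fixed by `F_q`); `(w_v,F_q,A_1)` reads `X_v` up to `δ^(-χ) K^c` (W, `|θ̄_0 - θ_1| ≥ δ^χ/2`).  Same with `A_0`, which also reads `w_v` (W, `|θ̄_0-θ_0| ≤ δ^ε`).
* `ltl_res`   (L-res), expected form:   `H(θ̃_v|Yr_q) ≤ H(L_v|x_v,y_v,E_q) + 5 er`.     `Yr_q` reads `C` (exactly), `F_q`, then `(x,y)_v` (MOT); `(L_v,F_q,Yr_q)` reads `θ̃_v` up to `δ^(-2χ) K^c`.
* `ltl_out`   (L-chain), layers in `[1,2]`:   `H(x_v|E_p) ≤ I(O;F_v|F_p,C) + 6 er`     (out3, out4, LIP, XT, sline).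
* `ltl_root`  (L-chain), the two root terms  (side, out1, out2).
-/

set_option autoImplicit false

namespace Claimed.Agent.R256

open scoped BigOperators
open Classical
open Claimed.Agent.R255
open Claimed.Agent.R255.FLaw

variable {Ω : Type} [Fintype Ω] (T : LtData Ω)

/-! ## A. the extended law -/

/-- LEAF A1 -/
theorem ltl_supp (x : Ω × Ω) (h : T.P2.p x ≠ 0) : T.P.p x.1 ≠ 0 ∧ T.P.p x.2 ≠ 0 ∧ T.CS 0 x.1 = T.CS 0 x.2 := by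
  have e : T.P2.p x = T.P.p x.1 * (T.P.cfib (T.CS 0) x.1).pr (fun ω => ω = x.2) := rfl
  rw [e] at h
  have h1 : T.P.p x.1 ≠ 0 := left_ne_zero_of_mul h
  have h2 := right_ne_zero_of_mul h
  have hpos := ent_fib_pos T.P (T.CS 0) h1
  rw [ent_cfib_pr T.P (T.CS 0) hpos] at h2
  have h3 : T.P.pr (fun ω => ω = x.2 ∧ T.CS 0 ω = T.CS 0 x.1) ≠ 0 := fun h0 => h2 (by rw [h0, zero_div])
  have h4 : 0 < T.P.pr (fun ω => ω = x.2 ∧ T.CS 0 ω = T.CS 0 x.1) := lt_of_le_of_ne (ent_pr_nonneg _ _) (Ne.symm h3)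
  obtain ⟨ω, ⟨h7, h5⟩, h6⟩ := (ent_pr_pos_iff _ _).1 h4
  subst h7
  exact ⟨h1, h6, h5.symm⟩

/-- LEAF A1.  The copy has the law `P`  (`ent_aux_kerOf_pr`). -/
theorem ltl_snd_pr (Ev : Ω → Prop) : T.P2.pr (fun x => Ev x.2) = T.P.pr Ev := by
  exact ent_aux_kerOf_pr T.P (fun ω => ω) (T.CS 0) (fun u _ => Ev u)

/-- LEAF A1 -/
theorem ltl_fst_pr (Ev : Ω → Prop) : T.P2.pr (fun x => Ev x.1) = T.P.pr Ev := by
  exact ent_ext_pr_fst T.P _ Ev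

/-- LEAF A1 -/
theorem ltl_snd_surC {α β : Type} (f : Ω → α) (h : Ω → β) (x : Ω × Ω) :
    T.P2.surC (fun x => f x.2) (fun x => h x.2) x = T.P.surC f h x.2 := by
  have e1 : T.P2.fib (pair (fun x : Ω × Ω => f x.2) (fun x => h x.2)) x = T.P.fib (pair f h) x.2 :=
    ltl_snd_pr T (fun ω => pair f h ω = pair f h x.2)
  have e2 : T.P2.fib (fun x : Ω × Ω => h x.2) x = T.P.fib h x.2 := ltl_snd_pr T (fun ω => h ω = h x.2)
  unfold FLaw.surC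
  rw [e1, e2]

/-- LEAF A1 -/
theorem ltl_fst_surC {α β : Type} (f : Ω → α) (h : Ω → β) (x : Ω × Ω) :
    T.P2.surC (fun x => f x.1) (fun x => h x.1) x = T.P.surC f h x.1 := by
  have e1 : T.P2.fib (pair (fun x : Ω × Ω => f x.1) (fun x => h x.1)) x = T.P.fib (pair f h) x.1 :=
    ltl_fst_pr T (fun ω => pair f h ω = pair f h x.1)
  have e2 : T.P2.fib (fun x : Ω × Ω => h x.1) x = T.P.fib h x.1 := ltl_fst_pr T (fun ω => h ω = h x.1)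
  unfold FLaw.surC
  rw [e1, e2]

/-- LEAF A1 -/
theorem ltl_snd_entC {α β : Type} (f : Ω → α) (h : Ω → β) :
    T.P2.entC (fun x => f x.2) (fun x => h x.2) = T.P.entC f h := by
  exact ent_kerOf_entC T.P (fun ω => ω) (T.CS 0) (fun u _ => f u) (fun u _ => h u)

/-- LEAF A1 -/
theorem ltl_fst_entC {α β : Type} (f : Ω → α) (h : Ω → β) :
    T.P2.entC (fun x => f x.1) (fun x => h x.1) = T.P.entC f h := by
  exact ent_ext_entC_fst T.P _ f h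

theorem ltl_aux_p (a b : Ω) : T.P2.p (a, b) = T.P.p a * (T.P.cfib (T.CS 0) a).p b := by
  have h : T.P2.p (a, b) = T.P.p a * (T.P.cfib (T.CS 0) a).fib (fun ω => ω) b := rfl
  rw [h, ent_fib_id]

theorem ltl_aux_pr (E : Ω → Ω → Prop) :
    T.P2.pr (fun x => E x.1 x.2) = ∑ a, T.P.p a * (T.P.cfib (T.CS 0) a).pr (E a) := by
  unfold FLaw.pr
  rw [Fintype.sum_prod_type]
  refine Finset.sum_congr rfl fun a _ => ?_
  rw [Finset.mul_sum]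
  refine Finset.sum_congr rfl fun b _ => ?_
  by_cases hE : E a b
  · rw [if_pos hE, if_pos hE, ltl_aux_p]
  · rw [if_neg hE, if_neg hE, mul_zero]

/-- LEAF A1.  Given the whole target the copy has the posterior kernel of `(C, S 0)`. -/
theorem ltl_post_surC {α : Type} (f : Ω → α) (x : Ω × Ω) (h : T.P2.p x ≠ 0) :
    T.P2.surC (fun x => f x.2) (fun x => x.1) x = T.P.surC f (T.CS 0) x.2 := by
  obtain ⟨h1, _, h3⟩ := ltl_supp T x h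
  have hpos := ent_fib_pos T.P (T.CS 0) h1
  have e2 : T.P2.fib (fun x : Ω × Ω => x.1) x = T.P.p x.1 := by
    rw [← ent_fib_id T.P x.1]
    exact ltl_fst_pr T (fun ω => ω = x.1)
  have e1 : T.P2.fib (pair (fun x : Ω × Ω => f x.2) (fun x => x.1)) x
      = T.P.p x.1 * (T.P.fib (pair f (T.CS 0)) x.2 / T.P.fib (T.CS 0) x.2) := by
    rw [ent_fib_pair, ltl_aux_pr T (fun a b => f b = f x.2 ∧ a = x.1), Finset.sum_eq_single x.1]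
    · rw [ent_cfib_pr T.P (T.CS 0) hpos, ent_fib_pair, ent_fib_congr T.P (T.CS 0) h3]
      congr 2
      exact ent_pr_congr T.P fun ω _ => by
        rw [h3]
        tauto
    · intro a _ ha
      rw [ent_pr_eq_zero _ (fun b _ hb => ha hb.2), mul_zero]
    · intro hh
      exact absurd (Finset.mem_univ _) hh
  unfold FLaw.surC
  rw [e1, e2, mul_div_cancel_left₀ _ h1]

/-- LEAF A2.  `I(X_{F,6}; copy | C) ≤ I(X_6; S_0 | C)`: `x.1 ⊥ x.2 | (C,S_0)` (`ent_resample_ci`), chain rule. -/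
theorem ltl_copy_info : T.P2.miC (T.Xb2 6) (fun x => x.2) (fun x => T.C x.1) ≤ T.P.miC (T.Xb 6) (T.S 0) T.C := by
  have hci := ent_resample_ci T.P (T.P.kerOf (fun ω => ω) (T.CS 0)) (pair (T.S 0) T.C)
    (fun ω ω' hh => ent_kerOf_congr T.P _ (T.CS 0) (by
      simp only [FLaw.pair, Prod.mk.injEq] at hh
      show (T.C ω, T.S 0 ω) = (T.C ω', T.S 0 ω')
      rw [hh.1, hh.2])) (T.Xb 6)
  have h0 : T.P2.miC (T.Xb2 6) (fun x => x.2) (pair (fun x => T.S 0 x.1) (fun x => T.C x.1)) = 0 := by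
    rw [ent_miC_comm]
    exact (ent_ci_iff _ _ _ _).1 hci
  have h1 : T.P2.miC (T.Xb2 6) (fun x => x.2) (fun x => T.C x.1)
      ≤ T.P2.miC (T.Xb2 6) (pair (fun x : Ω × Ω => x.2) (fun x => T.S 0 x.1)) (fun x => T.C x.1) :=
    ent_miC_mono T.P2 _ _ _ _ fun ω ω' _ _ h5 _ => congrArg Prod.fst h5
  have h2 := ent_miC_chain T.P2 (T.Xb2 6) (fun x : Ω × Ω => x.2) (fun x => T.S 0 x.1) (fun x => T.C x.1)
  have h3 : T.P2.miC (T.Xb2 6) (fun x => T.S 0 x.1) (fun x => T.C x.1) = T.P.miC (T.Xb 6) (T.S 0) T.C :=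
    ent_ext_miC_fst T.P _ (T.Xb 6) (T.S 0) T.C
  rw [h2, h0, h3, add_zero] at h1
  exact h1

/-- level bounds of the dyadic cells -/
theorem ltl_sp_lev {δ : ℝ} (h0 : 0 < δ) (h1 : δ < 1) {p : ℝ} (hp : 0 ≤ p) :
    1 ≤ δ ^ p * (2 : ℝ) ^ (tlev δ p) ∧ δ ^ p * (2 : ℝ) ^ (tlev δ p) ≤ 2 := by
  have hL : 0 < Real.logb 2 (1 / δ) :=
    Real.logb_pos (by norm_num) (by rw [one_div]; exact (one_lt_inv₀ h0).2 h1)
  have e : (2 : ℝ) ^ (p * Real.logb 2 (1 / δ)) = (δ ^ p)⁻¹ := by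
    rw [mul_comm, Real.rpow_mul (by norm_num), Real.rpow_logb (by norm_num) (by norm_num) (by positivity),
      one_div, Real.inv_rpow h0.le]
  have hpos : 0 < δ ^ p := Real.rpow_pos_of_pos h0 p
  have a1 : (δ ^ p)⁻¹ ≤ (2 : ℝ) ^ (tlev δ p) := by
    rw [← e, ← Real.rpow_natCast]
    exact Real.rpow_le_rpow_of_exponent_le (by norm_num) (Nat.le_ceil _)
  have a2 : (2 : ℝ) ^ (tlev δ p) ≤ 2 * (δ ^ p)⁻¹ := by
    rw [← e, ← Real.rpow_natCast]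
    have h : ((tlev δ p : ℕ) : ℝ) ≤ p * Real.logb 2 (1 / δ) + 1 :=
      (Nat.ceil_lt_add_one (mul_nonneg hp hL.le)).le
    calc (2 : ℝ) ^ ((tlev δ p : ℕ) : ℝ) ≤ (2 : ℝ) ^ (p * Real.logb 2 (1 / δ) + 1) :=
          Real.rpow_le_rpow_of_exponent_le (by norm_num) h
      _ = 2 * (2 : ℝ) ^ (p * Real.logb 2 (1 / δ)) := by
          rw [Real.rpow_add (by norm_num), Real.rpow_one]; ring
  constructor
  · have := mul_le_mul_of_nonneg_left a1 hpos.le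
    rwa [mul_inv_cancel₀ hpos.ne'] at this
  · have := mul_le_mul_of_nonneg_left a2 hpos.le
    calc δ ^ p * (2 : ℝ) ^ (tlev δ p) ≤ δ ^ p * (2 * (δ ^ p)⁻¹) := this
      _ = 2 := by field_simp

/-- the cells are exactly nested -/
theorem ltl_sp_nest {δ : ℝ} (h0 : 0 < δ) (h1 : δ < 1) {p q : ℝ} (hpq : p ≤ q) {v v' : ℝ}
    (h : tcell δ q v = tcell δ q v') : tcell δ p v = tcell δ p v' := by
  unfold tcell at h ⊢
  have hL : 0 < Real.logb 2 (1 / δ) :=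
    Real.logb_pos (by norm_num) (by rw [one_div]; exact (one_lt_inv₀ h0).2 h1)
  have hn : tlev δ p ≤ tlev δ q := Nat.ceil_mono (mul_le_mul_of_nonneg_right hpq hL.le)
  obtain ⟨m, hm⟩ := Nat.exists_eq_add_of_le hn
  rw [hm] at h
  rw [rt_floor_div v _ m, rt_floor_div v' _ m, h]

/-- where `|a - b| < δ^χ`, the cell of `b` reads the cell of `a` up to 8 values -/
theorem ltl_sp_read {Ω' : Type} [Fintype Ω'] {γ : Type} (P : FLaw Ω') {δ χ : ℝ} (h0 : 0 < δ) (h1 : δ < 1) (hχ : 0 ≤ χ)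
    (a b : Ω' → ℝ) (Y : Ω' → γ) :
    P.NVal (fun ω => |a ω - b ω| < δ ^ χ) (fun ω => tcell δ χ (a ω)) (pair (fun ω => tcell δ χ (b ω)) Y) 8 := by
  obtain ⟨l1, l2⟩ := ltl_sp_lev h0 h1 hχ
  have hpos : 0 < δ ^ χ := Real.rpow_pos_of_pos h0 χ
  have hpow : (0 : ℝ) < 2 ^ (tlev δ χ) := by positivity
  have hc : ∀ ω ω', P.p ω ≠ 0 → P.p ω' ≠ 0 → |a ω - b ω| < δ ^ χ → |a ω' - b ω'| < δ ^ χ →
      pair (fun ω => tcell δ χ (b ω)) Y ω = pair (fun ω => tcell δ χ (b ω)) Y ω' → |a ω - a ω'| ≤ 3 * δ ^ χ := by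
    intro ω ω' _ _ hE hE' hA
    have hV : tcell δ χ (b ω) = tcell δ χ (b ω') := congrArg Prod.fst hA
    have hb : |b ω - b ω'| ≤ δ ^ χ := by
      have h2 : |b ω * 2 ^ (tlev δ χ) - b ω' * 2 ^ (tlev δ χ)| < 1 := Int.abs_sub_lt_one_of_floor_eq_floor hV
      rw [← sub_mul, abs_mul, abs_of_pos hpow] at h2
      have h3 : |b ω - b ω'| * 2 ^ (tlev δ χ) ≤ δ ^ χ * 2 ^ (tlev δ χ) := h2.le.trans l1
      exact le_of_mul_le_mul_right h3 hpow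
    have e : a ω - a ω' = (a ω - b ω) + (b ω - b ω') - (a ω' - b ω') := by ring
    rw [e]
    have t1 := abs_sub ((a ω - b ω) + (b ω - b ω')) (a ω' - b ω')
    have t2 := abs_add_le (a ω - b ω) (b ω - b ω')
    linarith
  have h := ltk_nval_close P (fun ω => |a ω - b ω| < δ ^ χ) (pair (fun ω => tcell δ χ (b ω)) Y) a (tlev δ χ)
    (R := 3 * δ ^ χ) (by positivity) hc
  refine ltk_nval_mono P h (fun _ h => h) (fun _ _ h => h) ⟨id, fun _ => rfl⟩ ?_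
  linarith

/-- the abstract separation with all numbers -/
theorem ltl_sp_abs {Ω' : Type} [Fintype Ω'] {α β γ : Type} (P : FLaw Ω') (E : Ω' → Prop) (U : Ω' → α) (V : Ω' → β)
    (Y : Ω' → γ) {a ζ τ ℓ : ℝ} (ha : 0 < a) (hζ : 0 < ζ) (hτ1 : τ ≤ a / 2) (hτ2 : τ ≤ ζ * a / 80)
    (hℓ : 8 / a * (4 + 10 / ζ) ≤ ℓ) (hE : P.NVal E U (pair V Y) 8) (hI : P.miC U V Y ≤ τ * ℓ)
    (hs : P.pr (fun ω => P.surC U Y ω < (a - τ) * ℓ) ≤ τ) : P.pr E ≤ 3 * ζ / 10 + τ := by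
  obtain ⟨t, ht⟩ : ∃ t : ℝ, t = a / 8 * ℓ := ⟨_, rfl⟩
  have hz : 0 < 10 / ζ := by positivity
  have ht1 : 4 + 10 / ζ ≤ t := by
    have h1 := mul_le_mul_of_nonneg_left hℓ (by positivity : (0 : ℝ) ≤ a / 8)
    have e : a / 8 * (8 / a * (4 + 10 / ζ)) = 4 + 10 / ζ := by field_simp
    rw [e] at h1
    rw [ht]; exact h1
  have htpos : 0 < t := by linarith
  have hℓ0 : 0 < ℓ := by
    by_contra hcon
    have : a / 8 * ℓ ≤ 0 := mul_nonpos_of_nonneg_of_nonpos (by positivity) (not_lt.1 hcon)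
    linarith
  have hζt : 10 ≤ ζ * t := by
    have h1 : ζ * (10 / ζ) ≤ ζ * t := mul_le_mul_of_nonneg_left (by linarith) hζ.le
    have e : ζ * (10 / ζ) = 10 := by field_simp
    linarith
  have hlog : Real.log 8 ≤ 7 := by
    have := Real.log_le_sub_one_of_pos (by norm_num : (0 : ℝ) < 8)
    linarith
  have hst : Real.log 8 + t + t < (a - τ) * ℓ := by
    have h1 : a / 2 * ℓ ≤ (a - τ) * ℓ := mul_le_mul_of_nonneg_right (by linarith) hℓ0.le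
    have e : a / 2 * ℓ = 4 * t := by rw [ht]; ring
    linarith
  have h := ltk_sep P E U V Y (n := 8) (I := τ * ℓ) (s := (a - τ) * ℓ) (τ := τ) (t := t) (t' := t) (by norm_num) htpos
    hE hI hs hst
  have b1 : Real.exp (-t) ≤ ζ / 10 := by
    rw [Real.exp_neg, inv_le_comm₀ (Real.exp_pos t) (by positivity)]
    have h1 := Real.add_one_le_exp t
    have h2 : (ζ / 10)⁻¹ ≤ t := by
      rw [inv_div]; linarith
    linarith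
  have b2 : (τ * ℓ + 1) / t ≤ ζ / 5 := by
    rw [div_le_iff₀ htpos]
    have h1 : τ * ℓ ≤ ζ * a / 80 * ℓ := mul_le_mul_of_nonneg_right hτ2 hℓ0.le
    have e : ζ * a / 80 * ℓ = ζ * t / 10 := by rw [ht]; ring
    nlinarith
  linarith

/-- the separation of the two marks -/
theorem ltl_sp_theta {d g τ χ ε ζ : ℝ} {Q : Finset ℝ} {M : ℝ → ℝ} {G : Ω → Prop} (H : T.Hyp d g τ χ ε Q M G)
    (h0Q : (0 : ℝ) ∈ Q) (hχQ : χ ∈ Q) (hd : 0 < d) (hχ : 0 < χ) (hζ : 0 < ζ) (hτ0 : 0 < τ) (hτ1 : τ ≤ d * χ / 2)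
    (hτ2 : τ ≤ ζ * (d * χ) / 80) (hℓ : 8 / (d * χ) * (4 + 10 / ζ) ≤ T.ℓ) :
    T.P.pr (fun ω => |T.θ 0 ω - T.θ 1 ω| < T.δ ^ χ) ≤ 3 * ζ / 10 + τ := by
  have hℓ0 : 0 ≤ T.ℓ := le_trans (by positivity) hℓ
  refine ltl_sp_abs T.P _ (T.cb χ (T.θ 0)) (T.cb χ (T.θ 1)) T.Zs (mul_pos hd hχ) hζ hτ1 hτ2 hℓ
    (ltl_sp_read T.P H.δpos H.δlt hχ.le (T.θ 0) (T.θ 1) T.Zs) ?_ ?_
  · have hci := ent_ci_comp T.P (T.θ 0) (T.θ 1) T.Zs H.ci (fun a _ => tcell T.δ χ a) (fun b _ => tcell T.δ χ b)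
    have h0 : T.P.miC (T.cb χ (T.θ 0)) (T.cb χ (T.θ 1)) T.Zs = 0 := (ent_ci_iff T.P _ _ _).1 hci
    rw [h0]
    exact mul_nonneg hτ0.le hℓ0
  · refine le_trans (ent_pr_mono T.P fun ω hω h => ?_) (H.time 0 h0Q χ hχQ hχ.le)
    have c1 := ent_surC_chain T.P (T.cb 0 (T.θ 0)) (T.cb χ (T.θ 0)) T.Zs hω
    have c2 : T.P.surC (pair (T.cb 0 (T.θ 0)) (T.cb χ (T.θ 0))) T.Zs ω = T.P.surC (T.cb χ (T.θ 0)) T.Zs ω := by
      refine ent_surC_congr T.P _ _ T.Zs T.Zs ω (fun _ _ => Iff.rfl) fun ω' _ _ => ?_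
      simp only [FLaw.pair, Prod.mk.injEq]
      exact ⟨fun h => h.2, fun h => ⟨ltl_sp_nest H.δpos H.δlt hχ.le h, h⟩⟩
    have c3 : T.P.surC (T.cb χ (T.θ 0)) (pair (T.cb 0 (T.θ 0)) T.Zs) ω
        = T.P.surC (T.cb χ (T.θ 0)) (pair T.Zs (T.cb 0 (T.θ 0))) ω := by
      refine ent_surC_congr T.P _ _ _ _ ω (fun ω' _ => ?_) fun _ _ _ => Iff.rfl
      simp only [FLaw.pair, Prod.mk.injEq]
      tauto
    have c4 := ent_surC_nonneg T.P (T.cb 0 (T.θ 0)) T.Zs hω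
    have e : (d * (χ - 0) - τ) * T.ℓ = (d * χ - τ) * T.ℓ := by ring
    rw [e]
    linarith

/-- the separation of the target and of the copy -/
theorem ltl_sp_gap {d g τ χ ε ζ : ℝ} {Q : Finset ℝ} {M : ℝ → ℝ} {G : Ω → Prop} (H : T.Hyp d g τ χ ε Q M G)
    (hχQ : χ ∈ Q) (hg : 0 < g) (hχ : 0 < χ) (hχ6 : χ ≤ 6) (hζ : 0 < ζ) (hτ1 : τ ≤ g * χ / 2)
    (hτ2 : τ ≤ ζ * (g * χ) / 80) (hℓ : 8 / (g * χ) * (4 + 10 / ζ) ≤ T.ℓ) :
    T.P2.pr (fun x => |T.gap x| < T.δ ^ χ) ≤ 3 * ζ / 10 + τ := by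
  have hℓ0 : 0 ≤ T.ℓ := le_trans (by positivity) hℓ
  refine ltl_sp_abs T.P2 _ (T.Xb2 χ) (fun x => T.Xb χ x.2) (fun x => T.C x.1) (mul_pos hg hχ) hζ hτ1 hτ2 hℓ
    (ltl_sp_read T.P2 H.δpos H.δlt hχ.le (fun x => (T.F x.1).X) (fun x => (T.F x.2).X) (fun x => T.C x.1)) ?_ ?_
  · have m1 : T.P2.miC (T.Xb2 χ) (fun x => T.Xb χ x.2) (fun x => T.C x.1)
        ≤ T.P2.miC (T.Xb2 χ) (fun x => x.2) (fun x => T.C x.1) :=
      ent_miC_mono T.P2 _ _ _ _ fun x x' _ _ h _ => by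
        show T.Xb χ x.2 = T.Xb χ x'.2
        rw [show x.2 = x'.2 from h]
    have m2 : T.P2.miC (fun x : Ω × Ω => x.2) (T.Xb2 χ) (fun x => T.C x.1)
        ≤ T.P2.miC (fun x : Ω × Ω => x.2) (T.Xb2 6) (fun x => T.C x.1) :=
      ent_miC_mono T.P2 _ _ _ _ fun x x' _ _ h _ => ltl_sp_nest H.δpos H.δlt hχ6 h
    rw [ent_miC_comm T.P2 (T.Xb2 χ) (fun x : Ω × Ω => x.2)] at m1
    rw [ent_miC_comm T.P2 _ (T.Xb2 6)] at m2
    exact m1.trans (m2.trans ((ltl_copy_info T).trans (H.stat 0)))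
  · have e : T.P2.pr (fun x => T.P2.surC (T.Xb2 χ) (fun x => T.C x.1) x < (g * χ - τ) * T.ℓ)
        = T.P.pr (fun ω => T.P.surC (T.Xb χ) T.C ω < (g * χ - τ) * T.ℓ) := by
      rw [← ltl_fst_pr T]
      refine ent_pr_congr T.P2 fun x _ => ?_
      rw [show T.P2.surC (T.Xb2 χ) (fun x => T.C x.1) x = T.P.surC (T.Xb χ) T.C x.1 from
        ltl_fst_surC T (T.Xb χ) T.C x]
    rw [e]
    refine le_trans (ent_pr_mono T.P fun ω _ h => ?_) (H.prof χ hχQ)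
    have h1 : g * χ * T.ℓ ≤ M χ * T.ℓ := mul_le_mul_of_nonneg_right (H.mem χ hχQ) hℓ0
    have h2 : τ * T.ℓ < M χ * T.ℓ - T.P.surC (T.Xb χ) T.C ω := by nlinarith
    rw [abs_sub_comm]
    exact lt_of_lt_of_le h2 (le_abs_self _)

/-- LEAF A3 (separations).  `ltk_sep` twice: on `P` with `U = θ_0`-cell, `V = θ_1`-cell at depth `χ`, `Y = Zs` (`I = 0` by `ci`; `time` at `p = 0`);
on `P2` with `U = X_F`-cell, `V = X_R`-cell at depth `χ`, `Y = C` (`ltl_copy_info`, `stat`, `prof`, `mem`).  Plus `good` twice and `mis`.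
(`χ ≤ 6`: the cell at depth `χ` must be read from `X_{F,6}`.) -/
theorem ltl_sep (d g χ ζ : ℝ) (hd : 0 < d) (hg : 0 < g) (hχ : 0 < χ) (hχ6 : χ ≤ 6) (hζ : 0 < ζ) :
    ∃ τ₀ : ℝ, 0 < τ₀ ∧ ∀ τ : ℝ, 0 < τ → τ ≤ τ₀ → ∃ δ₀ : ℝ, 0 < δ₀ ∧
      ∀ (Ω : Type) [Fintype Ω] (T : LtData Ω) (ε : ℝ) (Q : Finset ℝ) (M : ℝ → ℝ) (G : Ω → Prop),
        T.Hyp d g τ χ ε Q M G → (0 : ℝ) ∈ Q → χ ∈ Q → T.δ < δ₀ → T.P2.pr (fun x => ¬ T.G2 G χ x) ≤ ζ := by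
  refine ⟨min (min (d * χ / 2) (ζ * (d * χ) / 80)) (min (min (g * χ / 2) (ζ * (g * χ) / 80)) (ζ / 20)),
    by positivity, fun τ hτ0 hτ => ?_⟩
  have t1 : τ ≤ d * χ / 2 := hτ.trans ((min_le_left _ _).trans (min_le_left _ _))
  have t2 : τ ≤ ζ * (d * χ) / 80 := hτ.trans ((min_le_left _ _).trans (min_le_right _ _))
  have t3 : τ ≤ g * χ / 2 := hτ.trans ((min_le_right _ _).trans ((min_le_left _ _).trans (min_le_left _ _)))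
  have t4 : τ ≤ ζ * (g * χ) / 80 := hτ.trans ((min_le_right _ _).trans ((min_le_left _ _).trans (min_le_right _ _)))
  have t5 : τ ≤ ζ / 20 := hτ.trans ((min_le_right _ _).trans (min_le_right _ _))
  refine ⟨Real.exp (-(8 / (d * χ) * (4 + 10 / ζ) + 8 / (g * χ) * (4 + 10 / ζ))), Real.exp_pos _, ?_⟩
  intro Ω _ T ε Q M G H h0Q hχQ hδ
  have hA : 0 ≤ 8 / (d * χ) * (4 + 10 / ζ) := by positivity
  have hB : 0 ≤ 8 / (g * χ) * (4 + 10 / ζ) := by positivity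
  have hℓ : 8 / (d * χ) * (4 + 10 / ζ) + 8 / (g * χ) * (4 + 10 / ζ) ≤ T.ℓ := by
    have h1 : Real.log T.δ < -(8 / (d * χ) * (4 + 10 / ζ) + 8 / (g * χ) * (4 + 10 / ζ)) :=
      (Real.log_lt_iff_lt_exp H.δpos).2 hδ
    have h2 : T.ℓ = - Real.log T.δ := by
      show Real.log (1 / T.δ) = _
      rw [one_div, Real.log_inv]
    rw [h2]
    linarith
  have p1 : T.P2.pr (fun x => ¬ G x.1) ≤ τ := (ltl_fst_pr T fun ω => ¬ G ω).le.trans H.good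
  have p2 : T.P2.pr (fun x => ¬ G x.2) ≤ τ := (ltl_snd_pr T fun ω => ¬ G ω).le.trans H.good
  have p3 : T.P2.pr (fun x => |T.θ 0 x.1 - T.θ 1 x.1| < T.δ ^ χ) ≤ 3 * ζ / 10 + τ :=
    (ltl_fst_pr T fun ω => |T.θ 0 ω - T.θ 1 ω| < T.δ ^ χ).le.trans
      (ltl_sp_theta T H h0Q hχQ hd hχ hζ hτ0 t1 t2 (by linarith))
  have p4 := ltl_sp_gap T H hχQ hg hχ hχ6 hζ t3 t4 (by linarith)
  have p5 := H.mis
  have hsub : T.P2.pr (fun x => ¬ T.G2 G χ x) ≤ T.P2.pr (fun x => (((¬ G x.1 ∨ ¬ G x.2) ∨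
      |T.θ 0 x.1 - T.θ 1 x.1| < T.δ ^ χ) ∨ |T.gap x| < T.δ ^ χ) ∨ |T.κ x.2 - T.κ x.1| < T.δ ^ χ) := by
    refine ent_pr_mono T.P2 fun x _ hx => ?_
    by_contra hno
    push Not at hno
    obtain ⟨⟨⟨⟨n1, n2⟩, n3⟩, n4⟩, n5⟩ := hno
    exact hx ⟨n1, n2, n3, n4, n5⟩
  have u1 := ent_pr_or_le T.P2 (fun x => ((¬ G x.1 ∨ ¬ G x.2) ∨ |T.θ 0 x.1 - T.θ 1 x.1| < T.δ ^ χ) ∨ |T.gap x| < T.δ ^ χ)
    (fun x => |T.κ x.2 - T.κ x.1| < T.δ ^ χ)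
  have u2 := ent_pr_or_le T.P2 (fun x => (¬ G x.1 ∨ ¬ G x.2) ∨ |T.θ 0 x.1 - T.θ 1 x.1| < T.δ ^ χ)
    (fun x => |T.gap x| < T.δ ^ χ)
  have u3 := ent_pr_or_le T.P2 (fun x => ¬ G x.1 ∨ ¬ G x.2) (fun x => |T.θ 0 x.1 - T.θ 1 x.1| < T.δ ^ χ)
  have u4 := ent_pr_or_le T.P2 (fun x => ¬ G x.1) (fun x => ¬ G x.2)
  linarith

/-! ## toolkit of the readings (prefix `ltlo_`) -/

theorem ltlo_log {δ : ℝ} (h0 : 0 < δ) (e : ℝ) : Real.log (δ ^ (-e)) = e * lg δ := by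
  unfold lg
  rw [Real.log_rpow h0, one_div, Real.log_inv]
  ring

theorem ltlo_lg_pos {δ : ℝ} (h0 : 0 < δ) (h1 : δ < 1) : 0 < lg δ :=
  Real.log_pos (by rw [one_div]; exact (one_lt_inv₀ h0).2 h1)

/-- `δ^(-a)` is monotone in `a` -/
theorem ltlo_mono {δ a b : ℝ} (h0 : 0 < δ) (h1 : δ < 1) (h : a ≤ b) : δ ^ (-a) ≤ δ ^ (-b) :=
  Real.rpow_le_rpow_of_exponent_ge h0 h1.le (by linarith)

/-- `δ^a` is antitone in `a` -/
theorem ltlo_anti {δ a b : ℝ} (h0 : 0 < δ) (h1 : δ < 1) (h : a ≤ b) : δ ^ b ≤ δ ^ a :=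
  Real.rpow_le_rpow_of_exponent_ge h0 h1.le h

/-- powers of `K = δ^(-τ)` -/
theorem ltlo_Kpow {δ : ℝ} (h0 : 0 < δ) (τ : ℝ) (n : ℕ) : (δ ^ (-τ)) ^ n = δ ^ (-((n : ℝ) * τ)) := by
  rw [← Real.rpow_natCast, ← Real.rpow_mul h0.le]
  congr 1
  ring

/-- the same cell: the values are close -/
theorem ltlo_cell_close {δ p v v' : ℝ} (h0 : 0 < δ) (h1 : δ < 1) (hp : 0 ≤ p) (h : tcell δ p v = tcell δ p v') : |v - v'| ≤ δ ^ p := by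
  obtain ⟨l1, -⟩ := ltl_sp_lev h0 h1 hp
  have hpow : (0 : ℝ) < 2 ^ (tlev δ p) := by positivity
  have h2 : |v * 2 ^ (tlev δ p) - v' * 2 ^ (tlev δ p)| < 1 := Int.abs_sub_lt_one_of_floor_eq_floor h
  rw [← sub_mul, abs_mul, abs_of_pos hpow] at h2
  have h3 : |v - v'| * 2 ^ (tlev δ p) ≤ δ ^ p * 2 ^ (tlev δ p) := h2.le.trans l1
  exact le_of_mul_le_mul_right h3 hpow

/-- the representative is close -/
theorem ltlo_rep_close {δ p : ℝ} (h0 : 0 < δ) (h1 : δ < 1) (hp : 0 ≤ p) (v : ℝ) : |v - trep δ p v| ≤ δ ^ p := by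
  obtain ⟨l1, -⟩ := ltl_sp_lev h0 h1 hp
  have hpow : (0 : ℝ) < 2 ^ (tlev δ p) := by positivity
  unfold trep tcell
  have f1 := Int.floor_le (v * 2 ^ (tlev δ p))
  have f2 := Int.lt_floor_add_one (v * 2 ^ (tlev δ p))
  have e : v - (⌊v * 2 ^ (tlev δ p)⌋ : ℝ) / 2 ^ (tlev δ p) = (v * 2 ^ (tlev δ p) - ⌊v * 2 ^ (tlev δ p)⌋) / 2 ^ (tlev δ p) := by
    field_simp
  rw [e, abs_div, abs_of_pos hpow, div_le_iff₀ hpow, abs_of_nonneg (by linarith)]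
  linarith

/-- the representative is a function of the cell -/
theorem ltlo_rep_congr {δ p v v' : ℝ} (h : tcell δ p v = tcell δ p v') : trep δ p v = trep δ p v' := by
  unfold trep
  rw [h]

/-- the same phase cell: the phases are near -/
theorem ltlo_ph_near {δ p : ℝ} {F F' : Ph} (h0 : 0 < δ) (h1 : δ < 1) (hp : 0 ≤ p) (h : F.cell δ p = F'.cell δ p) : F.Near F' (δ ^ p) := by
  have hc : (tcell δ p F.X, tcell δ p F.B, tcell δ p F.P, tcell δ p F.Y, tcell δ p F.N, tcell δ p F.D) =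
      (tcell δ p F'.X, tcell δ p F'.B, tcell δ p F'.P, tcell δ p F'.Y, tcell δ p F'.N, tcell δ p F'.D) := h
  simp only [Prod.mk.injEq] at hc
  obtain ⟨a1, a2, a3, a4, a5, a6⟩ := hc
  exact ⟨ltlo_cell_close h0 h1 hp a1, ltlo_cell_close h0 h1 hp a2, ltlo_cell_close h0 h1 hp a3, ltlo_cell_close h0 h1 hp a4,
    ltlo_cell_close h0 h1 hp a5, ltlo_cell_close h0 h1 hp a6⟩

/-- the phase cells are nested; the coordinates -/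
theorem ltlo_ph_nest {δ p q : ℝ} {F F' : Ph} (h0 : 0 < δ) (h1 : δ < 1) (hpq : p ≤ q) (h : F.cell δ q = F'.cell δ q) :
    F.cell δ p = F'.cell δ p ∧ tcell δ p F.X = tcell δ p F'.X ∧ tcell δ p F.P = tcell δ p F'.P := by
  have hc : (tcell δ q F.X, tcell δ q F.B, tcell δ q F.P, tcell δ q F.Y, tcell δ q F.N, tcell δ q F.D) =
      (tcell δ q F'.X, tcell δ q F'.B, tcell δ q F'.P, tcell δ q F'.Y, tcell δ q F'.N, tcell δ q F'.D) := h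
  simp only [Prod.mk.injEq] at hc
  obtain ⟨a1, a2, a3, a4, a5, a6⟩ := hc
  refine ⟨?_, ltl_sp_nest h0 h1 hpq a1, ltl_sp_nest h0 h1 hpq a3⟩
  show (tcell δ p F.X, tcell δ p F.B, tcell δ p F.P, tcell δ p F.Y, tcell δ p F.N, tcell δ p F.D) =
      (tcell δ p F'.X, tcell δ p F'.B, tcell δ p F'.P, tcell δ p F'.Y, tcell δ p F'.N, tcell δ p F'.D)
  rw [ltl_sp_nest h0 h1 hpq a1, ltl_sp_nest h0 h1 hpq a2, ltl_sp_nest h0 h1 hpq a3, ltl_sp_nest h0 h1 hpq a4,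
    ltl_sp_nest h0 h1 hpq a5, ltl_sp_nest h0 h1 hpq a6]

/-- the cells of a bounded real -/
theorem ltlo_cap {δ p R : ℝ} (h0 : 0 < δ) (h1 : δ < 1) (hp : 0 ≤ p) (hR : 0 ≤ R) :
    ∃ S : Finset ℤ, (S.card : ℝ) ≤ 4 * R * δ ^ (-p) + 3 ∧ ∀ v : ℝ, |v| ≤ R → tcell δ p v ∈ S := by
  obtain ⟨-, l2⟩ := ltl_sp_lev h0 h1 hp
  have hpos : 0 < δ ^ p := Real.rpow_pos_of_pos h0 p
  have hpow : (0 : ℝ) < 2 ^ (tlev δ p) := by positivity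
  have hle : (2 : ℝ) ^ (tlev δ p) ≤ 2 * δ ^ (-p) := by
    rw [Real.rpow_neg h0.le, ← div_eq_mul_inv, le_div_iff₀ hpos]
    linarith
  obtain ⟨B, hB⟩ : ∃ B : ℝ, B = R * 2 ^ (tlev δ p) := ⟨_, rfl⟩
  have hB0 : 0 ≤ B := by rw [hB]; positivity
  refine ⟨Finset.Icc (-⌈B⌉) ⌈B⌉, ?_, ?_⟩
  · rw [Int.card_Icc]
    have hc0 : 0 ≤ ⌈B⌉ := Int.ceil_nonneg hB0
    have e : ((⌈B⌉ + 1 - -⌈B⌉).toNat : ℝ) = 2 * (⌈B⌉ : ℝ) + 1 := by
      have : ((⌈B⌉ + 1 - -⌈B⌉).toNat : ℤ) = 2 * ⌈B⌉ + 1 := by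
        rw [Int.toNat_of_nonneg (by linarith)]
        ring
      exact_mod_cast this
    rw [e]
    have h3 := Int.ceil_lt_add_one B
    have h4 : B ≤ R * (2 * δ ^ (-p)) := by
      rw [hB]
      exact mul_le_mul_of_nonneg_left hle hR
    linarith
  · intro v hv
    obtain ⟨v1, v2⟩ := abs_le.1 hv
    rw [Finset.mem_Icc]
    unfold tcell
    constructor
    · rw [Int.le_floor]
      push_cast
      have h3 := Int.ceil_lt_add_one B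
      have h5 : -B ≤ v * 2 ^ (tlev δ p) := by
        rw [hB, ← neg_mul]
        exact mul_le_mul_of_nonneg_right v1 hpow.le
      have h6 := Int.le_ceil B
      linarith
    · have h5 : v * 2 ^ (tlev δ p) ≤ B := by
        rw [hB]
        exact mul_le_mul_of_nonneg_right v2 hpow.le
      have h6 : (⌊v * 2 ^ (tlev δ p)⌋ : ℝ) ≤ (⌈B⌉ : ℝ) := (Int.floor_le _).trans (h5.trans (Int.le_ceil B))
      exact_mod_cast h6

/-- the cells of a real bounded by `K^10` at depth `≤ 3` : at most `δ^(-4)` values -/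
theorem ltlo_cap4 {δ τ p : ℝ} (h0 : 0 < δ) (h1 : δ < 1) (hbig : 1000 ≤ δ ^ (-τ)) (hτ : 11 * τ ≤ 1) (hp : 0 ≤ p) (hp3 : p ≤ 3) :
    ∃ S : Finset ℤ, (S.card : ℝ) ≤ δ ^ (-(4 : ℝ)) ∧ ∀ v : ℝ, |v| ≤ (δ ^ (-τ)) ^ 10 → tcell δ p v ∈ S := by
  have hK0 : 0 < δ ^ (-τ) := by positivity
  obtain ⟨S, hS, hmem⟩ := ltlo_cap h0 h1 hp (by positivity : (0 : ℝ) ≤ (δ ^ (-τ)) ^ 10)
  refine ⟨S, hS.trans ?_, hmem⟩
  have hp1 : 1 ≤ δ ^ (-p) := Real.one_le_rpow_of_pos_of_le_one_of_nonpos h0 h1.le (by linarith)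
  have hK10 : 1 ≤ (δ ^ (-τ)) ^ 10 := one_le_pow₀ (by linarith)
  have hprod : 1 ≤ (δ ^ (-τ)) ^ 10 * δ ^ (-p) := by nlinarith
  calc 4 * (δ ^ (-τ)) ^ 10 * δ ^ (-p) + 3 ≤ 7 * ((δ ^ (-τ)) ^ 10 * δ ^ (-p)) := by linarith
    _ ≤ δ ^ (-τ) * ((δ ^ (-τ)) ^ 10 * δ ^ (-p)) := by
        exact mul_le_mul_of_nonneg_right (by linarith) (by positivity)
    _ = δ ^ (-(11 * τ + p)) := by
        rw [ltlo_Kpow h0, ← Real.rpow_add h0, ← Real.rpow_add h0]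
        congr 1
        push_cast
        ring
    _ ≤ δ ^ (-(4 : ℝ)) := ltlo_mono h0 h1 (by linarith)

/-- **the cost of one reading** -/
theorem ltlo_cost {Ω' : Type} [Fintype Ω'] {α β : Type} (P' : FLaw Ω') (Gd : Ω' → Prop) (A : Ω' → α) (B : Ω' → β) {δ χ ζ ζ' N : ℝ}
    (h0 : 0 < δ) (h1 : δ < 1) (hlog : Real.log 2 ≤ χ * lg δ) (hN1 : 1 ≤ N) (hN : N ≤ δ ^ (-(3 * χ))) (h : P'.NVal Gd B A N)
    (hM : ∃ S : Finset β, (S.card : ℝ) ≤ δ ^ (-(100 : ℝ)) ∧ ∀ ω, P'.p ω ≠ 0 → B ω ∈ S)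
    (hG : P'.pr (fun ω => ¬ Gd ω) ≤ ζ') (h100 : 100 * ζ' ≤ χ + 100 * ζ) :
    P'.entC B A ≤ (5 * χ + 100 * ζ) * lg δ := by
  have hℓ := ltlo_lg_pos h0 h1
  have h2 : P'.NVal (fun ω => ¬ ¬ Gd ω) B A N :=
    ltk_nval_mono P' h (fun _ hh => not_not.1 hh) (fun _ _ hh => hh) ⟨id, fun _ => rfl⟩ le_rfl
  have h3 := ent_ambiguity P' A B (fun ω => ¬ Gd ω) hN1 h2 hM hG
  rw [ltlo_log h0] at h3
  have h4 : Real.log N ≤ 3 * χ * lg δ := by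
    rw [← ltlo_log h0]
    exact Real.log_le_log (by linarith) hN
  have h5 : 100 * ζ' * lg δ ≤ (χ + 100 * ζ) * lg δ := mul_le_mul_of_nonneg_right h100 hℓ.le
  nlinarith

/-- **the cost of one metric reading**: the reader fixes `f` within `K^10 δ^v` on the good event -/
theorem ltlo_read {Ω' : Type} [Fintype Ω'] {α : Type} (P' : FLaw Ω') (Gd : Ω' → Prop) (A : Ω' → α) (f : Ω' → ℝ) {δ τ χ ζ ζ' v : ℝ}
    (h0 : 0 < δ) (h1 : δ < 1) (hbig : 1000 ≤ δ ^ (-τ)) (hτ0 : 0 < τ) (hτχ : 100 * τ ≤ χ) (hχ : χ ≤ 1) (hv0 : 0 ≤ v) (hv3 : v ≤ 3)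
    (hbd : ∀ ω, P'.p ω ≠ 0 → |f ω| ≤ (δ ^ (-τ)) ^ 10)
    (hcl : ∀ ω ω', P'.p ω ≠ 0 → P'.p ω' ≠ 0 → Gd ω → Gd ω' → A ω = A ω' → |f ω - f ω'| ≤ (δ ^ (-τ)) ^ 10 * δ ^ v)
    (hG : P'.pr (fun ω => ¬ Gd ω) ≤ ζ') (h100 : 100 * ζ' ≤ χ + 100 * ζ) :
    P'.entC (fun ω => tcell δ v (f ω)) A ≤ (5 * χ + 100 * ζ) * lg δ := by
  have hK0 : 0 < δ ^ (-τ) := by positivity
  have hℓ := ltlo_lg_pos h0 h1
  obtain ⟨-, l2⟩ := ltl_sp_lev h0 h1 hv0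
  have hK10 : 1 ≤ (δ ^ (-τ)) ^ 10 := one_le_pow₀ (by linarith)
  have hlog : Real.log 2 ≤ χ * lg δ := by
    have a1 : Real.log 2 ≤ Real.log (δ ^ (-τ)) := Real.log_le_log (by norm_num) (by linarith)
    rw [ltlo_log h0] at a1
    have a2 : τ * lg δ ≤ χ * lg δ := mul_le_mul_of_nonneg_right (by linarith) hℓ.le
    linarith
  have hN := ltk_nval_close P' Gd A f (tlev δ v) (R := (δ ^ (-τ)) ^ 10 * δ ^ v) (by positivity) hcl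
  have hb : (δ ^ (-τ)) ^ 10 * δ ^ v * 2 ^ (tlev δ v) + 2 ≤ δ ^ (-(3 * χ)) := by
    calc (δ ^ (-τ)) ^ 10 * δ ^ v * 2 ^ (tlev δ v) + 2 = (δ ^ (-τ)) ^ 10 * (δ ^ v * 2 ^ (tlev δ v)) + 2 := by ring
      _ ≤ (δ ^ (-τ)) ^ 10 * 2 + 2 := by
          have := mul_le_mul_of_nonneg_left l2 (by positivity : (0 : ℝ) ≤ (δ ^ (-τ)) ^ 10)
          linarith
      _ ≤ δ ^ (-τ) * (δ ^ (-τ)) ^ 10 := by nlinarith
      _ = δ ^ (-(11 * τ)) := by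
          rw [ltlo_Kpow h0, ← Real.rpow_add h0]
          congr 1
          push_cast
          ring
      _ ≤ δ ^ (-(3 * χ)) := ltlo_mono h0 h1 (by linarith)
  obtain ⟨S, hS, hmem⟩ := ltlo_cap4 h0 h1 hbig (by linarith) hv0 hv3
  have hone : 1 ≤ (δ ^ (-τ)) ^ 10 * δ ^ v * 2 ^ (tlev δ v) + 2 := by
    have : 0 ≤ (δ ^ (-τ)) ^ 10 * δ ^ v * 2 ^ (tlev δ v) := by positivity
    linarith
  refine ltlo_cost P' Gd A _ h0 h1 hlog hone hb hN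
    ⟨S, hS.trans (ltlo_mono h0 h1 (by norm_num)), fun ω hω => hmem _ (hbd ω hω)⟩ hG h100

/-! ## B. per-layer inequalities -/

variable {T}

/-- the phase cells of a bounded phase at depth `≤ 3` -/
theorem ltlo_cap_ph {δ τ p : ℝ} (h0 : 0 < δ) (h1 : δ < 1) (hbig : 1000 ≤ δ ^ (-τ)) (hτ : 11 * τ ≤ 1) (hp : 0 ≤ p) (hp3 : p ≤ 3) :
    ∃ S : Finset (ℤ × ℤ × ℤ × ℤ × ℤ × ℤ), (S.card : ℝ) ≤ δ ^ (-(100 : ℝ)) ∧ ∀ F : Ph, F.Bd ((δ ^ (-τ)) ^ 10) → F.cell δ p ∈ S := by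
  obtain ⟨S, hS, hmem⟩ := ltlo_cap4 h0 h1 hbig hτ hp hp3
  refine ⟨S ×ˢ S ×ˢ S ×ˢ S ×ˢ S ×ˢ S, ?_, ?_⟩
  · simp only [Finset.card_product]
    push_cast
    have hc : (0 : ℝ) ≤ S.card := Nat.cast_nonneg _
    have e : (S.card : ℝ) * ((S.card : ℝ) * ((S.card : ℝ) * ((S.card : ℝ) * ((S.card : ℝ) * (S.card : ℝ))))) = (S.card : ℝ) ^ 6 := by ring
    rw [e]
    calc (S.card : ℝ) ^ 6 ≤ (δ ^ (-(4 : ℝ))) ^ 6 := pow_le_pow_left₀ hc hS 6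
      _ = δ ^ (-((6 : ℕ) * (4 : ℝ))) := ltlo_Kpow h0 4 6
      _ ≤ δ ^ (-(100 : ℝ)) := ltlo_mono h0 h1 (by norm_num)
  · intro F hF
    obtain ⟨b1, b2, b3, b4, b5, b6⟩ := hF
    simp only [Ph.cell, Finset.mem_product]
    exact ⟨hmem _ b1, hmem _ b2, hmem _ b3, hmem _ b4, hmem _ b5, hmem _ b6⟩

/-- numeric consequences of `Sm` -/
theorem ltlo_num {d g τ χ ε ζ : ℝ} {Q : Finset ℝ} {M : ℝ → ℝ} {G : Ω → Prop} (H : T.Hyp d g τ χ ε Q M G) (S : T.Sm τ χ ε ζ) :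
    0 < T.δ ^ (-τ) ∧ 1 ≤ T.δ ^ (-τ) ∧ T.δ ^ (-τ) ≤ (T.δ ^ (-τ)) ^ 10 ∧ Real.log 2 ≤ χ * lg T.δ ∧ T.δ ^ (-τ) ≤ T.δ ^ (-(3 * χ)) ∧
      χ ≤ 1 ∧ 11 * τ ≤ 1 ∧ 100 * τ ≤ χ + 100 * ζ ∧ 100 * ζ ≤ χ + 100 * ζ := by
  have h0 := H.δpos
  have h1 := H.δlt
  have hτ := S.τpos
  have hb := S.big
  have a1 := S.τχ
  have a2 := S.χε
  have a3 := S.ε1
  have a4 := S.ζ0
  have hℓ := ltlo_lg_pos h0 h1
  have hK1 : 1 ≤ T.δ ^ (-τ) := by linarith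
  refine ⟨by positivity, hK1, ?_, ?_, ltlo_mono h0 h1 (by linarith), by linarith, by linarith, by linarith, by linarith⟩
  · calc T.δ ^ (-τ) = (T.δ ^ (-τ)) ^ 1 := (pow_one _).symm
      _ ≤ (T.δ ^ (-τ)) ^ 10 := pow_le_pow_right₀ hK1 (by norm_num)
  · have b1 : Real.log 2 ≤ Real.log (T.δ ^ (-τ)) := Real.log_le_log (by norm_num) (by linarith)
    rw [ltlo_log h0] at b1
    have b2 : τ * lg T.δ ≤ χ * lg T.δ := mul_le_mul_of_nonneg_right (by linarith) hℓ.le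
    linarith

/-- a representative at a nonnegative depth is bounded by `|v| + 1` -/
theorem ltlo_rep_bd {δ p v R : ℝ} (h0 : 0 < δ) (h1 : δ < 1) (hp : 0 ≤ p) (hv : |v| ≤ R) : |trep δ p v| ≤ R + 1 := by
  have a1 := ltlo_rep_close h0 h1 hp v
  have a2 : δ ^ p ≤ 1 := Real.rpow_le_one h0.le h1.le hp
  have a3 : |trep δ p v| ≤ |v| + |v - trep δ p v| := by
    have := abs_sub v (v - trep δ p v)
    rwa [sub_sub_cancel] at this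
  linarith

/-- the frozen coefficients are bounded -/
theorem ltlo_frz_bd {d g τ χ ε ζ : ℝ} {Q : Finset ℝ} {M : ℝ → ℝ} {G : Ω → Prop} (H : T.Hyp d g τ χ ε Q M G) (S : T.Sm τ χ ε ζ)
    (x : Ω × Ω) (hx : T.P2.p x ≠ 0) : (T.frz ε x).Bd (3 * T.δ ^ (-τ)) := by
  have h0 := H.δpos
  have h1 := H.δlt
  have hε : 0 ≤ ε := by linarith [S.τpos, S.τχ, S.χε]
  have hK : 1 ≤ T.δ ^ (-τ) := by linarith [S.big]
  obtain ⟨s1, s2, -⟩ := ltl_supp T x hx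
  obtain ⟨bF, bβ, bκ, bm⟩ := H.size x.1 s1
  obtain ⟨bF', -, -, -⟩ := H.size x.2 s2
  have hgap : |T.gap x| ≤ 2 * T.δ ^ (-τ) := by
    unfold LtData.gap
    have := ltg_s2 bF.1 bF'.1
    linarith
  refine ⟨?_, ?_, ?_, ?_, ?_, ?_⟩
  · exact (ltlo_rep_bd h0 h1 hε bF.1).trans (by linarith)
  · exact (ltlo_rep_bd h0 h1 hε bF.2.2.1).trans (by linarith)
  · exact (ltlo_rep_bd h0 h1 hε bβ).trans (by linarith)
  · exact (ltlo_rep_bd h0 h1 hε bκ).trans (by linarith)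
  · exact (ltlo_rep_bd h0 h1 hε (bm 0).1).trans (by linarith)
  · exact (ltlo_rep_bd h0 h1 hε hgap).trans (by linarith)

/-- the frozen coefficients are read from `(Ω, F_q)`, `q ≥ ε` -/
theorem ltlo_frz_congr (h0 : 0 < T.δ) (h1 : T.δ < 1) {ε q : ℝ} (hq : ε ≤ q) {x x' : Ω × Ω} (hO : T.Om ε x = T.Om ε x')
    (hF : T.Fb q x.1 = T.Fb q x'.1) : T.frz ε x = T.frz ε x' := by
  obtain ⟨-, nX, nP⟩ := ltlo_ph_nest h0 h1 hq hF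
  have hO' : (((tcell T.δ ε (T.β x.1), tcell T.δ ε (T.κ x.1)), (tcell T.δ ε (T.θ 0 x.1), tcell T.δ ε (T.r 0 x.1)),
      (tcell T.δ ε (T.θ 1 x.1), tcell T.δ ε (T.r 1 x.1))), tcell T.δ ε (T.gap x))
      = (((tcell T.δ ε (T.β x'.1), tcell T.δ ε (T.κ x'.1)), (tcell T.δ ε (T.θ 0 x'.1), tcell T.δ ε (T.r 0 x'.1)),
      (tcell T.δ ε (T.θ 1 x'.1), tcell T.δ ε (T.r 1 x'.1))), tcell T.δ ε (T.gap x')) := hO
  simp only [Prod.mk.injEq] at hO'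
  obtain ⟨⟨⟨o1, o2⟩, ⟨o3, -⟩, -, -⟩, o7⟩ := hO'
  unfold LtData.frz
  rw [ltlo_rep_congr nX, ltlo_rep_congr nP, ltlo_rep_congr o1, ltlo_rep_congr o2, ltlo_rep_congr o3, ltlo_rep_congr o7]

/-- `K = δ^(-τ) ≥ 1000`: a polynomial bound `c K^m ≤ K^10`, `c ≤ 10^6`, `m ≤ 8` -/
theorem ltlo_poly {K c : ℝ} (hK : 1000 ≤ K) (hc : c ≤ 1000000) {m : ℕ} (hm : m ≤ 8) : c * K ^ m ≤ K ^ 10 := by
  have hK1 : 1 ≤ K := by linarith
  have hK0 : 0 < K := by linarith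
  have a1 : K ^ m ≤ K ^ 8 := pow_le_pow_right₀ hK1 hm
  have a2 : (1000000 : ℝ) ≤ K ^ 2 := by nlinarith
  have a3 : 0 < K ^ 8 := by positivity
  have a4 : 0 < K ^ m := by positivity
  calc c * K ^ m ≤ 1000000 * K ^ m := mul_le_mul_of_nonneg_right hc a4.le
    _ ≤ K ^ 2 * K ^ 8 := mul_le_mul a2 a1 a4.le (by positivity)
    _ = K ^ 10 := by ring

/-- bound and two-point bound of the reading `xt` -/
theorem ltlo_xt {d g τ χ ε ζ : ℝ} {Q : Finset ℝ} {M : ℝ → ℝ} {G : Ω → Prop} (H : T.Hyp d g τ χ ε Q M G) (S : T.Sm τ χ ε ζ) :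
    (∀ ω, T.P.p ω ≠ 0 → |T.xt ε ω| ≤ (T.δ ^ (-τ)) ^ 10) ∧
    ∀ v, ε ≤ v → ∀ ω ω', T.P.p ω ≠ 0 → T.P.p ω' ≠ 0 → T.mk0 ε ω = T.mk0 ε ω' → T.Fb v ω = T.Fb v ω' →
      |T.xt ε ω - T.xt ε ω'| ≤ (T.δ ^ (-τ)) ^ 10 * T.δ ^ v := by
  have h0 := H.δpos
  have h1 := H.δlt
  have hε : 0 ≤ ε := by linarith [S.τpos, S.τχ, S.χε]
  have hb := S.big
  obtain ⟨K, hKd⟩ : ∃ K, K = T.δ ^ (-τ) := ⟨_, rfl⟩
  rw [← hKd] at hb ⊢
  have hK : 1 ≤ K := by linarith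
  have hK0 : 0 < K := by linarith
  have h2K : 1 ≤ 2 * K := by linarith
  have hfr : ∀ ω, T.P.p ω ≠ 0 → (Frz.mk (trep T.δ ε (T.F ω).X) (trep T.δ ε (T.F ω).P) 0 0 0 0).Bd (2 * K) ∧
      |trep T.δ ε (T.θ 0 ω)| ≤ 2 * K ∧ |trep T.δ ε (T.r 0 ω)| ≤ 2 * K := by
    intro ω hω
    obtain ⟨bF, -, -, bm⟩ := H.size ω hω
    rw [← hKd] at bF bm
    refine ⟨⟨(ltlo_rep_bd h0 h1 hε bF.1).trans (by linarith), (ltlo_rep_bd h0 h1 hε bF.2.2.1).trans (by linarith), ?_, ?_, ?_, ?_⟩,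
      (ltlo_rep_bd h0 h1 hε (bm 0).1).trans (by linarith), (ltlo_rep_bd h0 h1 hε (bm 0).2).trans (by linarith)⟩ <;>
    · simp only [abs_zero]
      positivity
  constructor
  · intro ω hω
    obtain ⟨hc, bθ, br⟩ := hfr ω hω
    have bF := (H.size ω hω).1
    rw [← hKd] at bF
    obtain ⟨fH, fJ, fK, -⟩ := ltg_form_bd h2K hc bF
    unfold LtData.xt Frz.fxt
    have t1 := ltg_m2 bθ fJ
    have t2 := ltg_m2 br fH
    have t3 := ltg_s2 (ltg_a2 fK t1) t2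
    refine t3.trans ?_
    have e : 10 * (2 * K) ^ 3 * K + 2 * K * (10 * (2 * K) ^ 3 * K) + 2 * K * (10 * (2 * K) ^ 3 * K) = 80 * K ^ 4 + 320 * K ^ 5 := by ring
    rw [e]
    have p1 := ltlo_poly hb (show (80 : ℝ) * 1000 ≤ 1000000 by norm_num) (show 4 ≤ 8 by norm_num)
    have p2 := ltlo_poly hb (show (320 : ℝ) * 1000 ≤ 1000000 by norm_num) (show 5 ≤ 8 by norm_num)
    have p3 : 0 < K ^ 4 := by positivity
    have p4 : 0 < K ^ 5 := by positivity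
    nlinarith
  · intro v hv ω ω' hω hω' hmk hF
    obtain ⟨hc, bθ, br⟩ := hfr ω hω
    obtain ⟨-, nX, nP⟩ := ltlo_ph_nest h0 h1 hv hF
    have hmk' : (tcell T.δ ε (T.θ 0 ω), tcell T.δ ε (T.r 0 ω)) = (tcell T.δ ε (T.θ 0 ω'), tcell T.δ ε (T.r 0 ω')) := hmk
    simp only [Prod.mk.injEq] at hmk'
    have hnear : (T.F ω').Near (T.F ω) (T.δ ^ v) := ltlo_ph_near h0 h1 (hε.trans hv) hF.symm
    obtain ⟨fH, fJ, fK, -⟩ := ltg_lip h2K hc hnear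
    unfold LtData.xt
    rw [← ltlo_rep_congr nX, ← ltlo_rep_congr nP, ← ltlo_rep_congr hmk'.1, ← ltlo_rep_congr hmk'.2]
    obtain ⟨c, hcd⟩ : ∃ c, c = Frz.mk (trep T.δ ε (T.F ω).X) (trep T.δ ε (T.F ω).P) 0 0 0 0 := ⟨_, rfl⟩
    rw [← hcd] at fH fJ fK ⊢
    have e : c.fxt (T.F ω) (trep T.δ ε (T.θ 0 ω)) (trep T.δ ε (T.r 0 ω)) - c.fxt (T.F ω') (trep T.δ ε (T.θ 0 ω)) (trep T.δ ε (T.r 0 ω))
        = (c.fK (T.F ω) - c.fK (T.F ω')) + trep T.δ ε (T.θ 0 ω) * (c.fJ (T.F ω) - c.fJ (T.F ω'))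
          - trep T.δ ε (T.r 0 ω) * (c.fH (T.F ω) - c.fH (T.F ω')) := by
      unfold Frz.fxt
      ring
    rw [e]
    have t1 := ltg_m2 bθ fJ
    have t2 := ltg_m2 br fH
    have t3 := ltg_s2 (ltg_a2 fK t1) t2
    refine t3.trans ?_
    have hδv : 0 < T.δ ^ v := Real.rpow_pos_of_pos h0 v
    have e2 : 10 * (2 * K) ^ 3 * T.δ ^ v + 2 * K * (10 * (2 * K) ^ 3 * T.δ ^ v) + 2 * K * (10 * (2 * K) ^ 3 * T.δ ^ v)
        = (80 * K ^ 3 + 320 * K ^ 4) * T.δ ^ v := by ring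
    rw [e2]
    refine mul_le_mul_of_nonneg_right ?_ hδv.le
    have p1 := ltlo_poly hb (show (80 : ℝ) * 1000 ≤ 1000000 by norm_num) (show 3 ≤ 8 by norm_num)
    have p2 := ltlo_poly hb (show (320 : ℝ) * 1000 ≤ 1000000 by norm_num) (show 4 ≤ 8 by norm_num)
    have p3 : 0 < K ^ 3 := by positivity
    have p4 : 0 < K ^ 4 := by positivity
    nlinarith

/-- bound of `vx`, and: `(xt_v, E_p)` fixes `vx` within `K^10 δ^v` on the good event  (XT, sline) -/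
theorem ltlo_vx {d g τ χ ε ζ : ℝ} {Q : Finset ℝ} {M : ℝ → ℝ} {G : Ω → Prop} (H : T.Hyp d g τ χ ε Q M G) (S : T.Sm τ χ ε ζ)
    {p v : ℝ} (hl : Lyr ε p v) :
    (∀ x, T.P2.p x ≠ 0 → |T.vx ε x| ≤ (T.δ ^ (-τ)) ^ 10) ∧
    ∀ x x', T.P2.p x ≠ 0 → T.P2.p x' ≠ 0 → T.G2 G χ x → T.G2 G χ x' → T.cb v (T.xt ε) x.1 = T.cb v (T.xt ε) x'.1 →
      T.E ε p x = T.E ε p x' → |T.vx ε x - T.vx ε x'| ≤ (T.δ ^ (-τ)) ^ 10 * T.δ ^ v := by
  have h0 := H.δpos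
  have h1 := H.δlt
  have hτ := S.τpos
  have hε : 0 ≤ ε := by linarith [S.τpos, S.τχ, S.χε]
  have hb := S.big
  obtain ⟨l1, l2, l3, l4⟩ := hl
  have hfb := ltlo_frz_bd H S
  have hsz := H.size
  have hsl := H.sline
  obtain ⟨K, hKd⟩ : ∃ K, K = T.δ ^ (-τ) := ⟨_, rfl⟩
  rw [← hKd] at hb hfb hsz ⊢
  have hK : 1 ≤ K := by linarith
  have hK0 : 0 < K := by linarith
  have h3K : 1 ≤ 3 * K := by linarith
  constructor
  · intro x hx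
    obtain ⟨s1, -, -⟩ := ltl_supp T x hx
    obtain ⟨-, -, -, -, -, -, fx, -⟩ := ltg_form_bd h3K (hfb x hx) (hsz x.1 s1).1
    refine fx.trans ?_
    have e : 10 * (3 * K) ^ 3 * K = 270 * K ^ 4 := by ring
    rw [e]
    exact ltlo_poly hb (by norm_num) (by norm_num)
  · intro x x' hx hx' hg hg' hxt hE
    obtain ⟨s1, -, -⟩ := ltl_supp T x hx
    have hE' : (T.C x.1, T.Om ε x, T.Fb p x.1) = (T.C x'.1, T.Om ε x', T.Fb p x'.1) := hE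
    simp only [Prod.mk.injEq] at hE'
    obtain ⟨-, hO, hF⟩ := hE'
    have hc' := ltlo_frz_congr h0 h1 l1 hO hF
    have hr : tcell T.δ ε (T.r 0 x.1) = tcell T.δ ε (T.r 0 x'.1) := by
      have := congrArg (fun o : ((ℤ × ℤ) × (ℤ × ℤ) × (ℤ × ℤ)) × ℤ => o.1.2.1.2) hO
      exact this
    have hnear : (T.F x'.1).Near (T.F x.1) (T.δ ^ p) := ltlo_ph_near h0 h1 (hε.trans l1) hF.symm
    have hcb := hfb x hx
    have hx2 := ltg_xt_two (rb := trep T.δ ε (T.r 0 x.1)) h3K hcb hnear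
    have e1 : T.xt ε x.1 = (T.frz ε x).fxt (T.F x.1) (T.frz ε x).θ (trep T.δ ε (T.r 0 x.1)) :=
      ltg_xt_frame rfl rfl _ _ _
    have e2 : T.xt ε x'.1 = (T.frz ε x).fxt (T.F x'.1) (T.frz ε x).θ (trep T.δ ε (T.r 0 x.1)) := by
      rw [hc', ltlo_rep_congr hr]
      exact ltg_xt_frame rfl rfl _ _ _
    rw [← e1, ← e2] at hx2
    have hclose : |T.xt ε x.1 - T.xt ε x'.1| ≤ T.δ ^ v := ltlo_cell_close h0 h1 (hε.trans (l1.trans l2)) hxt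
    have e3 : T.vx ε x - T.vx ε x' = (T.frz ε x).fx (T.F x.1) - (T.frz ε x).fx (T.F x'.1) := by
      unfold LtData.vx
      rw [← hc']
    rw [e3]
    -- the coefficient
    obtain ⟨-, bβ, bκ, bm⟩ := hsz x.1 s1
    have sl := hsl 0 x.1 s1 hg.1
    have sl2 : T.δ ^ (10 - τ) ≤ T.δ ^ ε := ltlo_anti h0 h1 (by linarith [S.τχ, S.χε, S.ε1])
    have cβ := ltlo_rep_close h0 h1 hε (T.β x.1)
    have cκ := ltlo_rep_close h0 h1 hε (T.κ x.1)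
    have cθ := ltlo_rep_close h0 h1 hε (T.θ 0 x.1)
    have cr := ltlo_rep_close h0 h1 hε (T.r 0 x.1)
    have hδε : 0 < T.δ ^ ε := Real.rpow_pos_of_pos h0 ε
    have hcoef : |(T.frz ε x).β + (T.frz ε x).κ * (T.frz ε x).θ - trep T.δ ε (T.r 0 x.1)| ≤ 7 * K * T.δ ^ ε := by
      have e4 : (T.frz ε x).β + (T.frz ε x).κ * (T.frz ε x).θ - trep T.δ ε (T.r 0 x.1)
          = -(T.r 0 x.1 - T.β x.1 - T.κ x.1 * T.θ 0 x.1) - (T.β x.1 - trep T.δ ε (T.β x.1))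
            - (T.κ x.1 - trep T.δ ε (T.κ x.1)) * (T.frz ε x).θ - T.κ x.1 * (T.θ 0 x.1 - trep T.δ ε (T.θ 0 x.1))
            + (T.r 0 x.1 - trep T.δ ε (T.r 0 x.1)) := by
        show trep T.δ ε (T.β x.1) + trep T.δ ε (T.κ x.1) * trep T.δ ε (T.θ 0 x.1) - trep T.δ ε (T.r 0 x.1)
          = -(T.r 0 x.1 - T.β x.1 - T.κ x.1 * T.θ 0 x.1) - (T.β x.1 - trep T.δ ε (T.β x.1))
            - (T.κ x.1 - trep T.δ ε (T.κ x.1)) * trep T.δ ε (T.θ 0 x.1) - T.κ x.1 * (T.θ 0 x.1 - trep T.δ ε (T.θ 0 x.1))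
            + (T.r 0 x.1 - trep T.δ ε (T.r 0 x.1))
        ring
      rw [e4]
      have t1 := ltg_m2 cκ hcb.2.2.2.2.1
      have t2 := ltg_m2 bκ cθ
      have t3 := ltg_a2 (ltg_s2 (ltg_s2 (ltg_s2 (ltg_n1 (sl.trans sl2)) cβ) t1) t2) cr
      refine t3.trans ?_
      nlinarith
    have hδp : 0 < T.δ ^ p := Real.rpow_pos_of_pos h0 p
    have hδv : 0 < T.δ ^ v := Real.rpow_pos_of_pos h0 v
    have hpe : T.δ ^ ε * T.δ ^ p ≤ T.δ ^ v := by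
      rw [← Real.rpow_add h0]
      exact ltlo_anti h0 h1 (by linarith)
    have hx3 : |(T.xt ε x.1 - T.xt ε x'.1) - ((T.frz ε x).fx (T.F x.1) - (T.frz ε x).fx (T.F x'.1))| ≤ 1890 * K ^ 4 * T.δ ^ v := by
      refine hx2.trans ?_
      calc |(T.frz ε x).β + (T.frz ε x).κ * (T.frz ε x).θ - trep T.δ ε (T.r 0 x.1)| * (10 * (3 * K) ^ 3 * T.δ ^ p)
          ≤ 7 * K * T.δ ^ ε * (10 * (3 * K) ^ 3 * T.δ ^ p) := mul_le_mul_of_nonneg_right hcoef (by positivity)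
        _ = 1890 * K ^ 4 * (T.δ ^ ε * T.δ ^ p) := by ring
        _ ≤ 1890 * K ^ 4 * T.δ ^ v := mul_le_mul_of_nonneg_left hpe (by positivity)
    have hfin : |(T.frz ε x).fx (T.F x.1) - (T.frz ε x).fx (T.F x'.1)| ≤ T.δ ^ v + 1890 * K ^ 4 * T.δ ^ v := by
      have := abs_sub (T.xt ε x.1 - T.xt ε x'.1) ((T.xt ε x.1 - T.xt ε x'.1) - ((T.frz ε x).fx (T.F x.1) - (T.frz ε x).fx (T.F x'.1)))
      rw [sub_sub_cancel] at this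
      linarith
    refine hfin.trans ?_
    have p1 := ltlo_poly hb (show (1891 : ℝ) ≤ 1000000 by norm_num) (show 4 ≤ 8 by norm_num)
    have p2 : 1 ≤ K ^ 4 := one_le_pow₀ hK
    calc T.δ ^ v + 1890 * K ^ 4 * T.δ ^ v = (1 + 1890 * K ^ 4) * T.δ ^ v := by ring
      _ ≤ K ^ 10 * T.δ ^ v := mul_le_mul_of_nonneg_right (by linarith) hδv.le

/- LEAF B1 `ltl_mode` : PROVED in `LT/LayerB1.lean` (same name, same statement). -/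

/- LEAF B2 `ltl_res` : PROVED in `LT/LayerB2.lean` (same name, same statement). -/

/-- LEAF B3 -/
theorem ltl_out {d g τ χ ε ζ : ℝ} {Q : Finset ℝ} {M : ℝ → ℝ} {G : Ω → Prop} (H : T.Hyp d g τ χ ε Q M G) (S : T.Sm τ χ ε ζ)
    (hG : T.P2.pr (fun x => ¬ T.G2 G χ x) ≤ ζ) {p v : ℝ} (hl : Lyr ε p v) (hp : p ∈ Q) (hv : v ∈ Q) (h1 : 1 ≤ p) (h2 : v ≤ 2) :
    T.P2.entC (T.c2 v (T.vx ε)) (T.E ε p)
      ≤ T.P.entC (T.Fb v) (pair (T.Fb p) T.C) - T.P.entC (T.Fb v) (pair (T.Fb p) T.CO) + 6 * T.er χ ζ := by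
  have hδ0 := H.δpos
  have hδ1 := H.δlt
  have hε : 0 ≤ ε := by linarith [S.τpos, S.τχ, S.χε]
  obtain ⟨hK0, hK1, hK10, hlog, hK3, hχ1, hτ11, h100, h100'⟩ := ltlo_num H S
  obtain ⟨l1, l2, l3, l4⟩ := hl
  have hv0 : 0 ≤ v := hε.trans (l1.trans l2)
  have her : 0 ≤ T.er χ ζ := by
    unfold LtData.er
    exact mul_nonneg (by linarith [S.τpos, S.τχ, S.ζ0]) (ltlo_lg_pos hδ0 hδ1).le
  obtain ⟨xb, xc⟩ := ltlo_xt H S
  obtain ⟨vb, vc⟩ := ltlo_vx H S (⟨l1, l2, l3, l4⟩ : Lyr ε p v)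
  -- Step 1, on the extended law
  have a1 : T.P2.entC (T.c2 v (T.vx ε)) (T.E ε p)
      ≤ T.P2.entC (pair (fun x : Ω × Ω => T.cb v (T.xt ε) x.1) (T.c2 v (T.vx ε))) (T.E ε p) :=
    ent_entC_mono T.P2 _ _ _ fun ω ω' _ _ h _ => congrArg Prod.snd h
  have a2 := ent_entC_chain T.P2 (fun x : Ω × Ω => T.cb v (T.xt ε) x.1) (T.c2 v (T.vx ε)) (T.E ε p)
  have a3 : T.P2.entC (T.c2 v (T.vx ε)) (pair (fun x : Ω × Ω => T.cb v (T.xt ε) x.1) (T.E ε p)) ≤ T.er χ ζ :=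
    ltlo_read T.P2 (T.G2 G χ) _ (T.vx ε) hδ0 hδ1 S.big S.τpos S.τχ hχ1 hv0 l3 vb
      (fun x x' hx hx' hg hg' hA => vc x x' hx hx' hg hg' (congrArg Prod.fst hA) (congrArg Prod.snd hA)) hG h100'
  have a4 : T.P2.entC (fun x : Ω × Ω => T.cb v (T.xt ε) x.1) (T.E ε p)
      ≤ T.P2.entC (fun x : Ω × Ω => T.cb v (T.xt ε) x.1) (fun x => pair (T.mk0 ε) (pair (T.Fb p) T.C) x.1) :=
    ent_entC_anti T.P2 _ _ _ fun x x' _ _ h => by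
      have hE' : (T.C x.1, T.Om ε x, T.Fb p x.1) = (T.C x'.1, T.Om ε x', T.Fb p x'.1) := h
      simp only [Prod.mk.injEq] at hE'
      obtain ⟨hC, hO, hF⟩ := hE'
      have hm : T.mk0 ε x.1 = T.mk0 ε x'.1 := congrArg (fun o : ((ℤ × ℤ) × (ℤ × ℤ) × (ℤ × ℤ)) × ℤ => o.1.2.1) hO
      show (T.mk0 ε x.1, T.Fb p x.1, T.C x.1) = (T.mk0 ε x'.1, T.Fb p x'.1, T.C x'.1)
      rw [hm, hF, hC]
  have a5 := ltl_fst_entC T (T.cb v (T.xt ε)) (pair (T.mk0 ε) (pair (T.Fb p) T.C))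
  -- Step 2, on the law of the target
  have b1 := ent_entC_chain T.P (T.mk0 ε) (T.cb v (T.xt ε)) (pair (T.Fb p) T.C)
  have b2 := ent_entC_chain T.P (T.Fb v) (pair (T.mk0 ε) (T.cb v (T.xt ε))) (pair (T.Fb p) T.C)
  have b3 := ent_entC_chain T.P (pair (T.mk0 ε) (T.cb v (T.xt ε))) (T.Fb v) (pair (T.Fb p) T.C)
  have b4 : T.P.entC (pair (T.Fb v) (pair (T.mk0 ε) (T.cb v (T.xt ε)))) (pair (T.Fb p) T.C)
      = T.P.entC (pair (pair (T.mk0 ε) (T.cb v (T.xt ε))) (T.Fb v)) (pair (T.Fb p) T.C) :=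
    ent_entC_congr T.P _ _ _ _ (fun _ _ _ _ => Iff.rfl) fun ω ω' _ _ _ => by
      simp only [FLaw.pair, Prod.mk.injEq]
      tauto
  have b5 := ent_entC_chain T.P (T.mk0 ε) (T.cb v (T.xt ε)) (pair (T.Fb v) (pair (T.Fb p) T.C))
  have b6 : T.P.entC (T.mk0 ε) (pair (T.Fb v) (pair (T.Fb p) T.C)) ≤ T.P.entC (T.mk0 ε) (pair (T.Fb p) T.C) :=
    ent_entC_anti T.P _ _ _ fun ω ω' _ _ h => congrArg Prod.snd h
  have b7 : T.P.entC (T.cb v (T.xt ε)) (pair (T.mk0 ε) (pair (T.Fb v) (pair (T.Fb p) T.C))) ≤ T.er χ ζ :=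
    ltlo_read T.P (fun _ => True) _ (T.xt ε) hδ0 hδ1 S.big S.τpos S.τχ hχ1 hv0 l3 xb
      (fun ω ω' hω hω' _ _ hA => xc v (l1.trans l2) ω ω' hω hω' (congrArg Prod.fst hA) (congrArg (fun o => o.2.1) hA))
      (ζ' := 0) (by rw [ent_pr_eq_zero T.P fun _ _ h => h trivial]) (by linarith [S.τpos, S.τχ, S.ζ0])
  -- the output
  have c1 : T.P.entC (T.Fb v) (pair (T.Fb p) T.CO)
      ≤ T.P.entC (pair (pair (T.mk0 ε) (T.cb v (T.xt ε))) (T.Fb v)) (pair (T.Fb p) T.CO) :=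
    ent_entC_mono T.P _ _ _ fun ω ω' _ _ h _ => congrArg Prod.snd h
  have c2 := ent_entC_chain T.P (pair (T.mk0 ε) (T.cb v (T.xt ε))) (T.Fb v) (pair (T.Fb p) T.CO)
  have c3 : T.P.entC (T.Fb v) (pair (pair (T.mk0 ε) (T.cb v (T.xt ε))) (pair (T.Fb p) T.CO))
      ≤ T.P.entC (T.Fb v) (pair (pair (T.mk0 ε) (T.cb v (T.xt ε))) (pair (T.Fb p) T.C)) :=
    ent_entC_anti T.P _ _ _ fun ω ω' _ _ h => by
      simp only [FLaw.pair, LtData.CO, Prod.mk.injEq] at h ⊢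
      tauto
  have c4 := ent_entC_chain T.P (T.mk0 ε) (T.cb v (T.xt ε)) (pair (T.Fb p) T.CO)
  obtain ⟨Sε, hSε, hmemε⟩ := ltlo_cap4 hδ0 hδ1 S.big hτ11 hε (by linarith [S.ε1] : ε ≤ 3)
  obtain ⟨Sv, hSv, hmemv⟩ := ltlo_cap4 hδ0 hδ1 S.big hτ11 hv0 l3
  have c5 : T.P.entC (T.mk0 ε) (pair (T.Fb p) T.CO) ≤ T.er χ ζ := by
    refine le_trans (ent_entC_anti T.P _ _ T.CO fun ω ω' _ _ h => congrArg Prod.snd h) ?_
    refine ltlo_cost T.P G T.CO (T.mk0 ε) hδ0 hδ1 hlog hK1 hK3 H.out3 ⟨Sε ×ˢ Sε, ?_, ?_⟩ H.good h100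
    · rw [Finset.card_product]
      push_cast
      have hc : (0 : ℝ) ≤ Sε.card := Nat.cast_nonneg _
      calc (Sε.card : ℝ) * Sε.card ≤ T.δ ^ (-(4 : ℝ)) * T.δ ^ (-(4 : ℝ)) := mul_le_mul hSε hSε hc (by positivity)
        _ = T.δ ^ (-(8 : ℝ)) := by rw [← Real.rpow_add hδ0]; norm_num
        _ ≤ T.δ ^ (-(100 : ℝ)) := ltlo_mono hδ0 hδ1 (by norm_num)
    · intro ω hω
      obtain ⟨-, -, -, bm⟩ := H.size ω hω
      exact Finset.mem_product.2 ⟨hmemε _ ((bm 0).1.trans hK10), hmemε _ ((bm 0).2.trans hK10)⟩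
  have c6 : T.P.entC (T.cb v (T.xt ε)) (pair (T.mk0 ε) (pair (T.Fb p) T.CO)) ≤ T.er χ ζ := by
    refine le_trans (ent_entC_anti T.P _ _ (pair (pair (T.Fb p) (T.mk0 ε)) T.CO) fun ω ω' _ _ h => ?_) ?_
    · simp only [FLaw.pair, Prod.mk.injEq] at h ⊢
      tauto
    · exact ltlo_cost T.P G _ (T.cb v (T.xt ε)) hδ0 hδ1 hlog hK1 hK3 (H.out4 p hp v hv h1 l2 h2 l4)
        ⟨Sv, hSv.trans (ltlo_mono hδ0 hδ1 (by norm_num)), fun ω hω => hmemv _ (xb ω hω)⟩ H.good h100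
  linarith

/-- LEAF B4.  `H(O|F_2,C) ≥ H(O|Zs) ≥ H(θ_{0,1}|Zs) - H(θ_{0,1}|C,O)`;   `H(F_1|C,O) ≤ H(X_1|C) + H(F_1|X_1,C,O)`. -/
theorem ltl_root {d g τ χ ε ζ : ℝ} {Q : Finset ℝ} {M : ℝ → ℝ} {G : Ω → Prop} (H : T.Hyp d g τ χ ε Q M G) (S : T.Sm τ χ ε ζ)
    (hG : T.P2.pr (fun x => ¬ T.G2 G χ x) ≤ ζ) :
    T.P.entC (T.cb 1 (T.θ 0)) T.Zs ≤ T.P.entC T.O (pair (T.Fb 2) T.C) + T.er χ ζ ∧
      T.P.entC (T.Fb 1) T.CO ≤ T.P.entC (T.Xb 1) T.C + T.er χ ζ := by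
  have h0 := H.δpos
  have h1 := H.δlt
  obtain ⟨hK0, hK1, hK10, hlog, hK3, hχ1, hτ11, h100, -⟩ := ltlo_num H S
  constructor
  · have a1 : T.P.entC (T.cb 1 (T.θ 0)) T.Zs ≤ T.P.entC (pair T.O (T.cb 1 (T.θ 0))) T.Zs :=
      ent_entC_mono T.P _ _ _ fun ω ω' _ _ h _ => congrArg Prod.snd h
    have a2 := ent_entC_chain T.P T.O (T.cb 1 (T.θ 0)) T.Zs
    have a3 : T.P.entC T.O T.Zs ≤ T.P.entC T.O (pair (T.Fb 2) T.C) :=
      ent_entC_anti T.P _ _ _ fun ω ω' _ _ h => by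
        obtain ⟨s1, s2, -, -⟩ := H.side ω ω' h
        show (T.Fb 2 ω, T.C ω) = (T.Fb 2 ω', T.C ω')
        unfold LtData.Fb
        rw [s1, s2]
    have a4 : T.P.entC (T.cb 1 (T.θ 0)) (pair T.O T.Zs) ≤ T.P.entC (T.cb 1 (T.θ 0)) T.CO :=
      ent_entC_anti T.P _ _ _ fun ω ω' _ _ h => by
        have e1 : T.O ω = T.O ω' := congrArg Prod.fst h
        have e2 : T.Zs ω = T.Zs ω' := congrArg Prod.snd h
        show (T.C ω, T.O ω) = (T.C ω', T.O ω')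
        rw [e1, (H.side ω ω' e2).1]
    obtain ⟨Sc, hSc, hmem⟩ := ltlo_cap4 h0 h1 S.big hτ11 (zero_le_one) (by norm_num : (1 : ℝ) ≤ 3)
    have a5 : T.P.entC (T.cb 1 (T.θ 0)) T.CO ≤ T.er χ ζ :=
      ltlo_cost T.P G T.CO (T.cb 1 (T.θ 0)) h0 h1 hlog hK1 hK3 H.out1
        ⟨Sc, hSc.trans (ltlo_mono h0 h1 (by norm_num)), fun ω hω => hmem _ ((((H.size ω hω).2.2.2 0).1).trans hK10)⟩ H.good h100
    linarith
  · have a1 : T.P.entC (T.Fb 1) T.CO ≤ T.P.entC (pair (T.Xb 1) (T.Fb 1)) T.CO :=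
      ent_entC_mono T.P _ _ _ fun ω ω' _ _ h _ => congrArg Prod.snd h
    have a2 := ent_entC_chain T.P (T.Xb 1) (T.Fb 1) T.CO
    have a3 : T.P.entC (T.Xb 1) T.CO ≤ T.P.entC (T.Xb 1) T.C :=
      ent_entC_anti T.P _ _ _ fun ω ω' _ _ h => congrArg Prod.fst h
    obtain ⟨Sc, hSc, hmem⟩ := ltlo_cap_ph h0 h1 S.big hτ11 (zero_le_one) (by norm_num : (1 : ℝ) ≤ 3)
    have a5 : T.P.entC (T.Fb 1) (pair (T.Xb 1) T.CO) ≤ T.er χ ζ :=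
      ltlo_cost T.P G _ (T.Fb 1) h0 h1 hlog hK1 hK3 H.out2
        ⟨Sc, hSc, fun ω hω => hmem _ (by
          obtain ⟨b1, b2, b3, b4, b5, b6⟩ := (H.size ω hω).1
          exact ⟨b1.trans hK10, b2.trans hK10, b3.trans hK10, b4.trans hK10, b5.trans hK10, b6.trans hK10⟩)⟩ H.good h100
    linarith

end Claimed.Agent.R256
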