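import Claimed.Agent.R256.LT.AppKit

/-!
# Row 256, unit LT: proof of `ltl_mode` (leaf L-LT-LB1)      (helper68, for architect helper46)

§1  reading of a finite FAMILY of real observables by one reader (`ltlm_fam`): one `er` for the whole tuple.
§2  the abstract entropy algebra (`ltlm_glue`).
§3  geometry of two samples with the same fibre label.
§4  the six readings, `ltl_mode`.
-/

set_option autoImplicit false

namespace Claimed.Agent.R256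

open scoped BigOperators
open Classical
open Claimed.Agent.R255
open Claimed.Agent.R255.FLaw

/-! ## 1. families -/

/-- lists of a family read by one reader -/
theorem ltlm_nval_pi {Ω' : Type} [Fintype Ω'] {α : Type} (P' : FLaw Ω') (Gd : Ω' → Prop) (A : Ω' → α) {n : ℕ}
    (B : Fin n → Ω' → ℤ) {N : ℝ} (h : ∀ i, P'.NVal Gd (B i) A N) :
    P'.NVal Gd (fun ω i => B i ω) A (N ^ n) := by
  intro ω₀
  choose S hS hmem using fun i => h i ω₀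
  refine ⟨Fintype.piFinset S, ?_, fun ω hω hg hA => ?_⟩
  · rw [Fintype.card_piFinset]
    push_cast
    calc ∏ i, ((S i).card : ℝ) ≤ ∏ _i : Fin n, N := Finset.prod_le_prod (fun i _ => by positivity) fun i _ => hS i
      _ = N ^ n := by rw [Finset.prod_const, Finset.card_univ, Fintype.card_fin]
  · rw [Fintype.mem_piFinset]
    exact fun i => hmem i ω hω hg hA

/-- **the cost of the reading of a family**: the reader fixes every `f i` within `W δ^v` on the good event -/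
theorem ltlm_fam {Ω' : Type} [Fintype Ω'] {α β : Type} (P' : FLaw Ω') (Gd : Ω' → Prop) (A : Ω' → α) {n : ℕ} (hn : n ≤ 6)
    (f : Fin n → Ω' → ℝ) {δ τ χ ζ ζ' v W : ℝ}
    (h0 : 0 < δ) (h1 : δ < 1) (hbig : 1000 ≤ δ ^ (-τ)) (hτ0 : 0 < τ) (hτχ : 100 * τ ≤ χ) (hχ : χ ≤ 1) (hv0 : 0 ≤ v) (hv3 : v ≤ 3)
    (hW0 : 0 ≤ W) (hW : (2 * W + 2) ^ n ≤ δ ^ (-(3 * χ)))
    (hbd : ∀ i ω, P'.p ω ≠ 0 → |f i ω| ≤ (δ ^ (-τ)) ^ 10)
    (hcl : ∀ i ω ω', P'.p ω ≠ 0 → P'.p ω' ≠ 0 → Gd ω → Gd ω' → A ω = A ω' → |f i ω - f i ω'| ≤ W * δ ^ v)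
    (hG : P'.pr (fun ω => ¬ Gd ω) ≤ ζ') (h100 : 100 * ζ' ≤ χ + 100 * ζ)
    (B' : Ω' → β) (hB : ∀ ω ω', (∀ i, tcell δ v (f i ω) = tcell δ v (f i ω')) → B' ω = B' ω') :
    P'.entC B' A ≤ (5 * χ + 100 * ζ) * lg δ := by
  have hK0 : 0 < δ ^ (-τ) := by positivity
  have hℓ := ltlo_lg_pos h0 h1
  obtain ⟨-, l2⟩ := ltl_sp_lev h0 h1 hv0
  have hlog : Real.log 2 ≤ χ * lg δ := by
    have a1 : Real.log 2 ≤ Real.log (δ ^ (-τ)) := Real.log_le_log (by norm_num) (by linarith)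
    rw [ltlo_log h0] at a1
    have a2 : τ * lg δ ≤ χ * lg δ := mul_le_mul_of_nonneg_right (by linarith) hℓ.le
    linarith
  have hN1 : ∀ i, P'.NVal Gd (fun ω => tcell δ v (f i ω)) A (2 * W + 2) := fun i => by
    have hN := ltk_nval_close P' Gd A (f i) (tlev δ v) (R := W * δ ^ v) (by positivity) (hcl i)
    refine ltk_nval_mono P' hN (fun _ h => h) (fun _ _ h => h) ⟨id, fun _ => rfl⟩ ?_
    have := mul_le_mul_of_nonneg_left l2 hW0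
    calc W * δ ^ v * 2 ^ (tlev δ v) + 2 = W * (δ ^ v * 2 ^ (tlev δ v)) + 2 := by ring
      _ ≤ 2 * W + 2 := by linarith
  have hN := ltlm_nval_pi P' Gd A (fun i ω => tcell δ v (f i ω)) hN1
  obtain ⟨S, hS, hmem⟩ := ltlo_cap4 h0 h1 hbig (by linarith) hv0 hv3
  have hone : 1 ≤ (2 * W + 2) ^ n := one_le_pow₀ (by linarith)
  have hcap : ((Fintype.piFinset fun _ : Fin n => S).card : ℝ) ≤ δ ^ (-(100 : ℝ)) := by
    rw [Fintype.card_piFinset]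
    push_cast
    rw [Finset.prod_const, Finset.card_univ, Fintype.card_fin]
    have h4 : 1 ≤ δ ^ (-(4 : ℝ)) := Real.one_le_rpow_of_pos_of_le_one_of_nonpos h0 h1.le (by norm_num)
    calc ((S.card : ℝ)) ^ n ≤ (δ ^ (-(4 : ℝ))) ^ n := pow_le_pow_left₀ (by positivity) hS n
      _ ≤ (δ ^ (-(4 : ℝ))) ^ 6 := pow_le_pow_right₀ h4 hn
      _ = δ ^ (-((6 : ℕ) * (4 : ℝ))) := ltlo_Kpow h0 4 6
      _ ≤ δ ^ (-(100 : ℝ)) := ltlo_mono h0 h1 (by norm_num)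
  have hmain := ltlo_cost P' Gd A (fun ω i => tcell δ v (f i ω)) h0 h1 hlog hone hW hN
    ⟨_, hcap, fun ω hω => Fintype.mem_piFinset.2 fun i => hmem _ (hbd i ω hω)⟩ hG h100
  refine le_trans (ent_entC_mono P' (fun ω i => tcell δ v (f i ω)) B' A fun ω ω' _ _ h _ => hB ω ω' fun i => congrFun h i) hmain

/-! ## 2. the entropy algebra -/

theorem ltlm_glue {Ω' : Type} [Fintype Ω'] (P : FLaw Ω') {t1 t2 t3 t4 t5 t6 t7 t8 t9 t10 : Type}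
    (x : Ω' → t1) (y : Ω' → t2) (L : Ω' → t3) (w : Ω' → t4) (X : Ω' → t5) (Fq : Ω' → t6) (Fv : Ω' → t7) (E : Ω' → t8)
    (A1 : Ω' → t9) (A0 : Ω' → t10) {r : ℝ}
    (hE1 : ∀ ω ω', Fq ω = Fq ω' → A1 ω = A1 ω' → E ω = E ω')
    (hE0 : ∀ ω ω', Fq ω = Fq ω' → A0 ω = A0 ω' → E ω = E ω')
    (R1 : P.entC (pair (pair (pair (pair x y) L) w) X) (pair Fv E) ≤ r)
    (R2 : P.entC Fq A1 ≤ r)
    (R3 : P.entC (pair (pair x y) L) (pair Fq A1) ≤ r)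
    (R4 : P.entC X (pair w (pair Fq A1)) ≤ r)
    (R5 : P.entC Fq A0 ≤ r)
    (R6 : P.entC (pair (pair (pair x y) L) w) (pair Fq A0) ≤ r) :
    P.entC x E + P.entC y (pair x E) + P.entC L (pair (pair x y) E) + P.entC X A1 + P.entC X A0 ≤ P.entC Fv E + 7 * r := by
  obtain ⟨U, hU⟩ : ∃ U, U = pair (pair x y) L := ⟨_, rfl⟩
  rw [← hU] at R1 R3 R6
  have c1 : P.entC U E = P.entC (pair x y) E + P.entC L (pair (pair x y) E) := by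
    rw [hU]; exact ent_entC_chain P (pair x y) L E
  have c2 := ent_entC_chain P x y E
  have c3 := ent_entC_chain P (pair U w) X E
  have c4 := ent_entC_chain P U w E
  have c5 : P.entC (pair (pair U w) X) E ≤ P.entC (pair Fv (pair (pair U w) X)) E :=
    ent_entC_mono P _ _ E fun ω ω' _ _ h _ => congrArg Prod.snd h
  have c6 := ent_entC_chain P Fv (pair (pair U w) X) E
  -- the mode 1
  have d1 : P.entC w (pair U (pair Fq A1)) ≤ P.entC w (pair U E) :=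
    ent_entC_anti P w _ _ fun ω ω' _ _ h => by
      simp only [FLaw.pair, Prod.mk.injEq] at h ⊢
      exact ⟨h.1, hE1 ω ω' h.2.1 h.2.2⟩
  have d2 := ent_entC_chain P U w (pair Fq A1)
  have d3 : P.entC w (pair Fq A1) ≤ P.entC (pair U w) (pair Fq A1) :=
    ent_entC_mono P _ _ _ fun ω ω' _ _ h _ => congrArg Prod.snd h
  have d4 := ent_entC_chain P Fq w A1
  have d5 : P.entC w A1 ≤ P.entC (pair Fq w) A1 :=
    ent_entC_mono P _ _ _ fun ω ω' _ _ h _ => congrArg Prod.snd h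
  have e1 : P.entC X A1 ≤ P.entC (pair (pair w Fq) X) A1 :=
    ent_entC_mono P _ _ _ fun ω ω' _ _ h _ => congrArg Prod.snd h
  have e2 := ent_entC_chain P (pair w Fq) X A1
  have e3 := ent_entC_pair_le_add P w Fq A1
  have e4 : P.entC X (pair (pair w Fq) A1) ≤ P.entC X (pair w (pair Fq A1)) :=
    ent_entC_anti P X _ _ fun ω ω' _ _ h => by
      simp only [FLaw.pair, Prod.mk.injEq] at h ⊢
      exact ⟨h.1.1, h.1.2, h.2⟩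
  -- the mode 0
  have f1 : P.entC X (pair (pair U w) (pair Fq A0)) ≤ P.entC X (pair (pair U w) E) :=
    ent_entC_anti P X _ _ fun ω ω' _ _ h => by
      simp only [FLaw.pair, Prod.mk.injEq] at h ⊢
      exact ⟨h.1, hE0 ω ω' h.2.1 h.2.2⟩
  have f2 := ent_entC_chain P (pair U w) X (pair Fq A0)
  have f3 : P.entC X (pair Fq A0) ≤ P.entC (pair (pair U w) X) (pair Fq A0) :=
    ent_entC_mono P _ _ _ fun ω ω' _ _ h _ => congrArg Prod.snd h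
  have f4 := ent_entC_chain P Fq X A0
  have f5 : P.entC X A0 ≤ P.entC (pair Fq X) A0 :=
    ent_entC_mono P _ _ _ fun ω ω' _ _ h _ => congrArg Prod.snd h
  linarith

/-! ## 3. geometry of two samples -/

theorem ltlm_Kabs {K c : ℝ} {m : ℕ} (hK : 1000 ≤ K) (hm : m + 3 ≤ 10) (hc : c ≤ 10 ^ 9) : c * K ^ m ≤ K ^ 10 := by
  have hK0 : 0 < K := by linarith
  have h3 : (10 : ℝ) ^ 9 ≤ K ^ 3 := by
    have := pow_le_pow_left₀ (by norm_num : (0 : ℝ) ≤ 1000) hK 3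
    norm_num at this ⊢
    linarith
  calc c * K ^ m ≤ K ^ 3 * K ^ m := mul_le_mul_of_nonneg_right (hc.trans h3) (by positivity)
    _ = K ^ (m + 3) := by rw [← pow_add, add_comm]
    _ ≤ K ^ 10 := pow_le_pow_right₀ (by linarith) hm

theorem ltlm_near_mono {F F' : Ph} {R R' : ℝ} (h : F.Near F' R) (hR : R ≤ R') : F.Near F' R' := by
  obtain ⟨h1, h2, h3, h4, h5, h6⟩ := h
  exact ⟨h1.trans hR, h2.trans hR, h3.trans hR, h4.trans hR, h5.trans hR, h6.trans hR⟩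

theorem ltlm_bd_mono {F : Ph} {R R' : ℝ} (h : F.Bd R) (hR : R ≤ R') : F.Bd R' := by
  obtain ⟨h1, h2, h3, h4, h5, h6⟩ := h
  exact ⟨h1.trans hR, h2.trans hR, h3.trans hR, h4.trans hR, h5.trans hR, h6.trans hR⟩

section geo

variable {Ω : Type} [Fintype Ω] {T : LtData Ω} {d g τ χ ε ζ : ℝ} {Q : Finset ℝ} {M : ℝ → ℝ} {G : Ω → Prop}

theorem ltlm_W (H : T.Hyp d g τ χ ε Q M G) (S : T.Sm τ χ ε ζ) {n : ℕ} (hn : n ≤ 6) :
    (2 * (T.δ ^ (-τ)) ^ 10 + 2) ^ n ≤ T.δ ^ (-(3 * χ)) := by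
  have h0 := H.δpos
  have h1 := H.δlt
  have hK := S.big
  have hK10 : 1 ≤ (T.δ ^ (-τ)) ^ 10 := one_le_pow₀ (by linarith)
  have a1 : 2 * (T.δ ^ (-τ)) ^ 10 + 2 ≤ (T.δ ^ (-τ)) ^ 11 := by
    rw [pow_succ]
    nlinarith
  calc (2 * (T.δ ^ (-τ)) ^ 10 + 2) ^ n ≤ ((T.δ ^ (-τ)) ^ 11) ^ n := pow_le_pow_left₀ (by positivity) a1 n
    _ ≤ ((T.δ ^ (-τ)) ^ 11) ^ 6 := pow_le_pow_right₀ (one_le_pow₀ (by linarith)) hn
    _ = (T.δ ^ (-τ)) ^ 66 := by rw [← pow_mul]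
    _ = T.δ ^ (-((66 : ℕ) * τ)) := ltlo_Kpow h0 τ 66
    _ ≤ T.δ ^ (-(3 * χ)) := ltlo_mono h0 h1 (by
        have := S.τχ
        have := S.τpos
        push_cast
        linarith)

theorem ltlm_eps (S : T.Sm τ χ ε ζ) : 0 < χ ∧ χ ≤ 1 ∧ 0 < ε ∧ τ ≤ 1 := by
  have a1 := S.τpos
  have a2 := S.τχ
  have a3 := S.χε
  have a4 := S.ε1
  refine ⟨by linarith, by linarith, by linarith, by linarith⟩

/-- the accuracy of the fibres is below every depth `≤ 3` -/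
theorem ltlm_e_le (H : T.Hyp d g τ χ ε Q M G) (S : T.Sm τ χ ε ζ) {p : ℝ} (hp : p ≤ 3) : T.δ ^ (10 - τ) ≤ T.δ ^ p := by
  obtain ⟨-, -, -, b⟩ := ltlm_eps S
  exact ltlo_anti H.δpos H.δlt (by linarith)

/-- the values of the forms are bounded -/
theorem ltlm_val_bd (H : T.Hyp d g τ χ ε Q M G) (S : T.Sm τ χ ε ζ) {x : Ω × Ω} (hx : T.P2.p x ≠ 0) :
    |T.vx ε x| ≤ (T.δ ^ (-τ)) ^ 10 ∧ |T.vy ε x| ≤ (T.δ ^ (-τ)) ^ 10 ∧ |T.vL ε x| ≤ (T.δ ^ (-τ)) ^ 10 ∧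
      |T.vw ε x| ≤ (T.δ ^ (-τ)) ^ 10 ∧ |T.vJ ε x| ≤ (T.δ ^ (-τ)) ^ 10 := by
  have hK := S.big
  obtain ⟨s1, -, -⟩ := ltl_supp T x hx
  obtain ⟨bF, -⟩ := H.size x.1 s1
  obtain ⟨-, -, -, bL, bJ, -, bx, by', bw⟩ := ltg_form_bd (by linarith : 1 ≤ 3 * T.δ ^ (-τ)) (ltpk_frz_bd H S hx) bF
  have e : 10 * (3 * T.δ ^ (-τ)) ^ 3 * T.δ ^ (-τ) ≤ (T.δ ^ (-τ)) ^ 10 := by
    have := ltlm_Kabs (c := 270) (m := 4) hK (by norm_num) (by norm_num)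
    calc 10 * (3 * T.δ ^ (-τ)) ^ 3 * T.δ ^ (-τ) = 270 * (T.δ ^ (-τ)) ^ 4 := by ring
      _ ≤ _ := this
  exact ⟨bx.trans e, by'.trans e, bL.trans e, bw.trans e, bJ.trans e⟩

/-- the coordinates of the phase are bounded -/
theorem ltlm_ph_bd (H : T.Hyp d g τ χ ε Q M G) (S : T.Sm τ χ ε ζ) {x : Ω × Ω} (hx : T.P2.p x ≠ 0) :
    (T.F x.1).Bd ((T.δ ^ (-τ)) ^ 10) := by
  have hK := S.big
  obtain ⟨s1, -, -⟩ := ltl_supp T x hx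
  obtain ⟨bF, -⟩ := H.size x.1 s1
  refine ltlm_bd_mono bF ?_
  have := ltlm_Kabs (c := 1) (m := 1) hK (by norm_num) (by norm_num)
  linarith

/-- the frame is fixed by `(F_q, Ω)` -/
theorem ltlm_frz_eq (H : T.Hyp d g τ χ ε Q M G) {q : ℝ} (hq : ε ≤ q) {x x' : Ω × Ω} (hF : T.Fb2 q x = T.Fb2 q x')
    (hO : T.Om ε x = T.Om ε x') : T.frz ε x = T.frz ε x' := by
  obtain ⟨a1, a2⟩ := ltpk_frz_XP T H.δpos H.δlt hq hF
  obtain ⟨b1, b2, b3, b4⟩ := ltpk_frz_Om T hO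
  cases hh : T.frz ε x
  cases hh' : T.frz ε x'
  simp_all

/-- the defect of the frame on a good sample -/
theorem ltlm_mu (H : T.Hyp d g τ χ ε Q M G) (S : T.Sm τ χ ε ζ) (k : Fin 2) {x : Ω × Ω} (hx : T.P2.p x ≠ 0) (hg : G x.1) :
    |(T.F x.1).X - (T.frz ε x).X| + |(T.F x.1).P - (T.frz ε x).P|
      + |T.r k x.1 - (T.frz ε x).β - (T.frz ε x).κ * T.θ k x.1| ≤ 2 * T.δ ^ (-τ) * T.δ ^ ε := by
  have h0 := H.δpos
  have h1 := H.δlt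
  have hK := S.big
  obtain ⟨-, -, hε, -⟩ := ltlm_eps S
  obtain ⟨s1, -, -⟩ := ltl_supp T x hx
  obtain ⟨-, -, -, bm⟩ := H.size x.1 s1
  have a1 : |(T.F x.1).X - (T.frz ε x).X| ≤ T.δ ^ ε := ltlo_rep_close h0 h1 hε.le _
  have a2 : |(T.F x.1).P - (T.frz ε x).P| ≤ T.δ ^ ε := ltlo_rep_close h0 h1 hε.le _
  have a3 : |T.β x.1 - (T.frz ε x).β| ≤ T.δ ^ ε := ltlo_rep_close h0 h1 hε.le _
  have a4 : |T.κ x.1 - (T.frz ε x).κ| ≤ T.δ ^ ε := ltlo_rep_close h0 h1 hε.le _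
  have a5 := H.sline k x.1 s1 hg
  have a6 := ltlm_e_le H S (p := ε) (by have := S.ε1; linarith)
  have a7 := (bm k).1
  have hD : 0 < T.δ ^ ε := Real.rpow_pos_of_pos h0 ε
  have e : T.r k x.1 - (T.frz ε x).β - (T.frz ε x).κ * T.θ k x.1
      = (T.r k x.1 - T.β x.1 - T.κ x.1 * T.θ k x.1) + (T.β x.1 - (T.frz ε x).β) + (T.κ x.1 - (T.frz ε x).κ) * T.θ k x.1 := by
    ring
  have a8 : |T.r k x.1 - (T.frz ε x).β - (T.frz ε x).κ * T.θ k x.1| ≤ T.δ ^ ε + T.δ ^ ε + T.δ ^ ε * T.δ ^ (-τ) := by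
    rw [e]
    exact ltg_a2 (ltg_a2 (a5.trans a6) a3) (ltg_m2 a4 a7)
  nlinarith

/-- two good samples with the same `A_k` -/
theorem ltlm_fib (H : T.Hyp d g τ χ ε Q M G) (k : Fin 2) {q : ℝ} (hq0 : 0 ≤ q) {x x' : Ω × Ω} (hx : T.P2.p x ≠ 0)
    (hx' : T.P2.p x' ≠ 0) (hg : G x.1) (hg' : G x'.1) (hA : T.Ak ε k q x = T.Ak ε k q x') :
    (T.F x.1).SameFib (T.θ k x.1) (T.r k x.1) (T.F x'.1) (T.θ k x'.1) (T.r k x'.1) (T.δ ^ (10 - τ)) ∧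
      |(T.F x'.1).X - (T.F x.1).X| ≤ T.δ ^ q ∧ T.Om ε x = T.Om ε x' := by
  obtain ⟨s1, -, -⟩ := ltl_supp T x hx
  obtain ⟨s1', -, -⟩ := ltl_supp T x' hx'
  unfold LtData.Ak at hA
  simp only [Prod.mk.injEq] at hA
  obtain ⟨hA1, hA2, hA3⟩ := hA
  refine ⟨H.fib k x.1 x'.1 s1 s1' hg hg' hA1, ?_, hA3⟩
  rw [abs_sub_comm]
  exact ltlo_cell_close H.δpos H.δlt hq0 hA2

/-- (LEG) the fibre label and the angular cell fix the phase at the depth of the angular cell -/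
theorem ltlm_leg (H : T.Hyp d g τ χ ε Q M G) (S : T.Sm τ χ ε ζ) (k : Fin 2) {q : ℝ} (hq0 : 0 ≤ q) (hq3 : q ≤ 3) {x x' : Ω × Ω}
    (hx : T.P2.p x ≠ 0) (hx' : T.P2.p x' ≠ 0) (hg : G x.1) (hg' : G x'.1) (hA : T.Ak ε k q x = T.Ak ε k q x') :
    (T.F x.1).Near (T.F x'.1) ((T.δ ^ (-τ)) ^ 10 * T.δ ^ q) := by
  have h0 := H.δpos
  have hK := S.big
  obtain ⟨hf, ha, -⟩ := ltlm_fib H k hq0 hx hx' hg hg' hA
  obtain ⟨s1, -, -⟩ := ltl_supp T x hx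
  obtain ⟨s1', -, -⟩ := ltl_supp T x' hx'
  obtain ⟨bF, -, -, bm⟩ := H.size x.1 s1
  obtain ⟨bF', -⟩ := H.size x'.1 s1'
  have he := ltlm_e_le H S hq3
  have hD : 0 < T.δ ^ q := Real.rpow_pos_of_pos h0 q
  have hK3 : 0 < (T.δ ^ (-τ)) ^ 3 := by positivity
  refine ltlm_near_mono (ltg_leg_near (by linarith) (by positivity) bF bF' (bm k).1 (bm k).2 hf) ?_
  have e1 := ltlm_Kabs (c := 11) (m := 3) hK (by norm_num) (by norm_num)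
  calc 4 * (T.δ ^ (-τ)) ^ 3 * |(T.F x'.1).X - (T.F x.1).X| + 7 * (T.δ ^ (-τ)) ^ 3 * T.δ ^ (10 - τ)
      ≤ 4 * (T.δ ^ (-τ)) ^ 3 * T.δ ^ q + 7 * (T.δ ^ (-τ)) ^ 3 * T.δ ^ q :=
        add_le_add (mul_le_mul_of_nonneg_left ha (by positivity)) (mul_le_mul_of_nonneg_left he (by positivity))
    _ = 11 * (T.δ ^ (-τ)) ^ 3 * T.δ ^ q := by ring
    _ ≤ _ := mul_le_mul_of_nonneg_right e1 hD.le

/-- the powers of a layer -/
theorem ltlm_lyr (H : T.Hyp d g τ χ ε Q M G) (S : T.Sm τ χ ε ζ) {q v : ℝ} (hl : Lyr ε q v) :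
    T.δ ^ q * T.δ ^ ε ≤ T.δ ^ v ∧ T.δ ^ q ≤ T.δ ^ ε ∧ T.δ ^ (10 - τ) ≤ T.δ ^ v ∧ 0 < T.δ ^ v ∧ 0 < T.δ ^ q ∧ 0 < T.δ ^ ε := by
  have h0 := H.δpos
  have h1 := H.δlt
  obtain ⟨-, -, hε, -⟩ := ltlm_eps S
  obtain ⟨l1, l2, l3, l4⟩ := hl
  refine ⟨?_, ltlo_anti h0 h1 l1, ltlm_e_le H S l3, Real.rpow_pos_of_pos h0 _, Real.rpow_pos_of_pos h0 _,
    Real.rpow_pos_of_pos h0 _⟩
  rw [← Real.rpow_add h0]
  exact ltlo_anti h0 h1 (by linarith)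

/-- (ANN) -/
theorem ltlm_ann (H : T.Hyp d g τ χ ε Q M G) (S : T.Sm τ χ ε ζ) (k : Fin 2) {q v : ℝ} (hl : Lyr ε q v) {x x' : Ω × Ω}
    (hx : T.P2.p x ≠ 0) (hx' : T.P2.p x' ≠ 0) (hg : G x.1) (hg' : G x'.1) (hA : T.Ak ε k q x = T.Ak ε k q x')
    (hF : T.Fb2 q x = T.Fb2 q x') :
    |T.vx ε x - T.vx ε x'| ≤ (T.δ ^ (-τ)) ^ 10 * T.δ ^ v ∧ |T.vy ε x - T.vy ε x'| ≤ (T.δ ^ (-τ)) ^ 10 * T.δ ^ v ∧
      |T.vL ε x - T.vL ε x'| ≤ (T.δ ^ (-τ)) ^ 10 * T.δ ^ v ∧ |T.vJ ε x - T.vJ ε x'| ≤ (T.δ ^ (-τ)) ^ 10 * T.δ ^ v := by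
  have h0 := H.δpos
  have hK := S.big
  obtain ⟨-, -, hε, -⟩ := ltlm_eps S
  obtain ⟨p1, p2, p3, p4, p5, p6⟩ := ltlm_lyr H S hl
  obtain ⟨hf, ha, hO⟩ := ltlm_fib H k (hε.le.trans hl.1) hx hx' hg hg' hA
  obtain ⟨s1, -, -⟩ := ltl_supp T x hx
  obtain ⟨s1', -, -⟩ := ltl_supp T x' hx'
  obtain ⟨bF, -, -, bm⟩ := H.size x.1 s1
  obtain ⟨bF', -⟩ := H.size x'.1 s1'
  have hc := ltlm_frz_eq H hl.1 hF hO
  have hK3 : T.δ ^ (-τ) ≤ 3 * T.δ ^ (-τ) := by linarith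
  obtain ⟨gL, gJ, -, gx, gy⟩ := ltg_ann (K := 3 * T.δ ^ (-τ)) (e := T.δ ^ (10 - τ)) (c := T.frz ε x) (by linarith) (by positivity)
    (ltlm_bd_mono bF' hK3) ((bm k).1.trans hK3) ((bm k).2.trans hK3) (ltpk_frz_bd H S hx) hf rfl (ltlm_mu H S k hx hg)
  have hb : 70 * (3 * T.δ ^ (-τ)) ^ 6 * (((T.F x'.1).X - (T.F x.1).X) ^ 2
      + |(T.F x'.1).X - (T.F x.1).X| * (2 * T.δ ^ (-τ) * T.δ ^ ε) + T.δ ^ (10 - τ)) ≤ (T.δ ^ (-τ)) ^ 10 * T.δ ^ v := by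
    obtain ⟨a, haa⟩ : ∃ a, a = |(T.F x'.1).X - (T.F x.1).X| := ⟨_, rfl⟩
    obtain ⟨K, hKK⟩ : ∃ K, K = T.δ ^ (-τ) := ⟨_, rfl⟩
    rw [← sq_abs, ← haa, ← hKK]
    rw [← haa] at ha
    rw [← hKK] at hK
    have ha0 : 0 ≤ a := by rw [haa]; exact abs_nonneg _
    have q1 : a ^ 2 ≤ T.δ ^ v := by
      calc a ^ 2 = a * a := by ring
        _ ≤ T.δ ^ q * T.δ ^ ε := mul_le_mul ha (ha.trans p2) ha0 p5.le
        _ ≤ _ := p1
    have q2 : a * (2 * K * T.δ ^ ε) ≤ 2 * K * T.δ ^ v := by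
      calc a * (2 * K * T.δ ^ ε) = 2 * K * (a * T.δ ^ ε) := by ring
        _ ≤ 2 * K * (T.δ ^ q * T.δ ^ ε) :=
          mul_le_mul_of_nonneg_left (mul_le_mul_of_nonneg_right ha p6.le) (by linarith)
        _ ≤ _ := mul_le_mul_of_nonneg_left p1 (by linarith)
    have q3 : a ^ 2 + a * (2 * K * T.δ ^ ε) + T.δ ^ (10 - τ) ≤ 3 * K * T.δ ^ v := by nlinarith
    have e1 := ltlm_Kabs (c := 153090) (m := 7) hK (by norm_num) (by norm_num)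
    calc 70 * (3 * K) ^ 6 * (a ^ 2 + a * (2 * K * T.δ ^ ε) + T.δ ^ (10 - τ)) ≤ 70 * (3 * K) ^ 6 * (3 * K * T.δ ^ v) :=
          mul_le_mul_of_nonneg_left q3 (by positivity)
      _ = 153090 * K ^ 7 * T.δ ^ v := by ring
      _ ≤ _ := mul_le_mul_of_nonneg_right e1 p4.le
  unfold LtData.vx LtData.vy LtData.vL LtData.vJ
  rw [← hc]
  refine ⟨?_, ?_, ?_, ?_⟩
  · rw [abs_sub_comm]; exact gx.trans hb
  · rw [abs_sub_comm]; exact gy.trans hb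
  · rw [abs_sub_comm]; exact gL.trans hb
  · rw [abs_sub_comm]; exact gJ.trans hb

/-- (W) the own fibre does not move `w` -/
theorem ltlm_w (H : T.Hyp d g τ χ ε Q M G) (S : T.Sm τ χ ε ζ) {q v : ℝ} (hl : Lyr ε q v) {x x' : Ω × Ω}
    (hx : T.P2.p x ≠ 0) (hx' : T.P2.p x' ≠ 0) (hg : G x.1) (hg' : G x'.1) (hA : T.Ak ε 0 q x = T.Ak ε 0 q x')
    (hF : T.Fb2 q x = T.Fb2 q x') : |T.vw ε x - T.vw ε x'| ≤ (T.δ ^ (-τ)) ^ 10 * T.δ ^ v := by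
  have h0 := H.δpos
  have h1 := H.δlt
  have hK := S.big
  obtain ⟨-, -, hε, -⟩ := ltlm_eps S
  obtain ⟨p1, p2, p3, p4, p5, p6⟩ := ltlm_lyr H S hl
  obtain ⟨hf, ha, hO⟩ := ltlm_fib H 0 (hε.le.trans hl.1) hx hx' hg hg' hA
  obtain ⟨s1, -, -⟩ := ltl_supp T x hx
  obtain ⟨s1', -, -⟩ := ltl_supp T x' hx'
  obtain ⟨bF, -, -, bm⟩ := H.size x.1 s1
  obtain ⟨bF', -⟩ := H.size x'.1 s1'
  have hc := ltlm_frz_eq H hl.1 hF hO
  have gw := ltg_w (T.frz ε x) (K := T.δ ^ (-τ)) (e := T.δ ^ (10 - τ)) (by linarith) (by positivity) bF' (bm 0).1 hf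
  have a1 : |(T.frz ε x).θ - T.θ 0 x.1| ≤ T.δ ^ ε := by
    rw [abs_sub_comm]
    exact ltlo_rep_close h0 h1 hε.le _
  have a2 : |((T.frz ε x).θ - T.θ 0 x.1) * ((T.F x'.1).X - (T.F x.1).X)| ≤ T.δ ^ v :=
    (ltg_m2 a1 ha).trans (by rw [mul_comm]; exact p1)
  unfold LtData.vw
  rw [← hc, abs_sub_comm]
  have a3 : |(T.frz ε x).fw (T.F x'.1) - (T.frz ε x).fw (T.F x.1)| ≤ 7 * (T.δ ^ (-τ)) ^ 3 * T.δ ^ (10 - τ) + T.δ ^ v := by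
    have e : (T.frz ε x).fw (T.F x'.1) - (T.frz ε x).fw (T.F x.1)
        = ((T.frz ε x).fw (T.F x'.1) - (T.frz ε x).fw (T.F x.1) - ((T.frz ε x).θ - T.θ 0 x.1) * ((T.F x'.1).X - (T.F x.1).X))
          + ((T.frz ε x).θ - T.θ 0 x.1) * ((T.F x'.1).X - (T.F x.1).X) := by ring
    rw [e]
    exact ltg_a2 gw a2
  refine a3.trans ?_
  have e1 := ltlm_Kabs (c := 8) (m := 3) hK (by norm_num) (by norm_num)
  have hK3 : 1 ≤ (T.δ ^ (-τ)) ^ 3 := one_le_pow₀ (by linarith)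
  calc 7 * (T.δ ^ (-τ)) ^ 3 * T.δ ^ (10 - τ) + T.δ ^ v ≤ 7 * (T.δ ^ (-τ)) ^ 3 * T.δ ^ v + (T.δ ^ (-τ)) ^ 3 * T.δ ^ v :=
        add_le_add (mul_le_mul_of_nonneg_left p3 (by positivity)) (by nlinarith)
    _ = 8 * (T.δ ^ (-τ)) ^ 3 * T.δ ^ v := by ring
    _ ≤ _ := mul_le_mul_of_nonneg_right e1 p4.le

/-- (W, inverse) the other fibre: `w` reads the angle -/
theorem ltlm_winv (H : T.Hyp d g τ χ ε Q M G) (S : T.Sm τ χ ε ζ) {q v : ℝ} (hl : Lyr ε q v) {x x' : Ω × Ω}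
    (hx : T.P2.p x ≠ 0) (hx' : T.P2.p x' ≠ 0) (hg : T.G2 G χ x) (hg' : T.G2 G χ x') (hA : T.Ak ε 1 q x = T.Ak ε 1 q x')
    (hF : T.Fb2 q x = T.Fb2 q x') (hw : T.c2 v (T.vw ε) x = T.c2 v (T.vw ε) x') :
    |(T.F x.1).X - (T.F x'.1).X| ≤ 16 * (T.δ ^ (-τ)) ^ 3 * T.δ ^ (-χ) * T.δ ^ v := by
  have h0 := H.δpos
  have h1 := H.δlt
  have hK := S.big
  obtain ⟨hχ, -, hε, -⟩ := ltlm_eps S
  obtain ⟨p1, p2, p3, p4, p5, p6⟩ := ltlm_lyr H S hl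
  have hv0 : 0 ≤ v := hε.le.trans (hl.1.trans hl.2.1)
  obtain ⟨hf, ha, hO⟩ := ltlm_fib H 1 (hε.le.trans hl.1) hx hx' hg.1 hg'.1 hA
  obtain ⟨s1, -, -⟩ := ltl_supp T x hx
  obtain ⟨s1', -, -⟩ := ltl_supp T x' hx'
  obtain ⟨bF, -, -, bm⟩ := H.size x.1 s1
  obtain ⟨bF', -⟩ := H.size x'.1 s1'
  have hc := ltlm_frz_eq H hl.1 hF hO
  have gw := ltg_w_inv (T.frz ε x) (K := T.δ ^ (-τ)) (e := T.δ ^ (10 - τ)) (by linarith) (by positivity) bF' (bm 1).1 hf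
  have a0 : |T.vw ε x - T.vw ε x'| ≤ T.δ ^ v := ltlo_cell_close h0 h1 hv0 hw
  unfold LtData.vw at a0
  rw [← hc, abs_sub_comm] at a0
  have a1 : |T.θ 0 x.1 - (T.frz ε x).θ| ≤ T.δ ^ ε := ltlo_rep_close h0 h1 hε.le _
  have a2 : T.δ ^ ε ≤ T.δ ^ χ / 2 := by
    have b1 : T.δ ^ ε ≤ T.δ ^ (χ + τ) := ltlo_anti h0 h1 (by
      have := S.τχ
      have := S.χε
      linarith)
    have b2 : T.δ ^ (χ + τ) * T.δ ^ (-τ) = T.δ ^ χ := by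
      rw [← Real.rpow_add h0]
      congr 1
      ring
    have b3 : 0 < T.δ ^ (χ + τ) := Real.rpow_pos_of_pos h0 _
    nlinarith
  have a3 : T.δ ^ χ / 2 ≤ |(T.frz ε x).θ - T.θ 1 x.1| := by
    have b1 := hg.2.2.1
    have b2 : |T.θ 0 x.1 - T.θ 1 x.1| ≤ |T.θ 0 x.1 - (T.frz ε x).θ| + |(T.frz ε x).θ - T.θ 1 x.1| := abs_sub_le _ _ _
    linarith
  have hχp : 0 < T.δ ^ χ := Real.rpow_pos_of_pos h0 χ
  have a4 : T.δ ^ χ / 2 * |(T.F x'.1).X - (T.F x.1).X| ≤ 8 * (T.δ ^ (-τ)) ^ 3 * T.δ ^ v := by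
    have hK3 : 1 ≤ (T.δ ^ (-τ)) ^ 3 := one_le_pow₀ (by linarith)
    calc T.δ ^ χ / 2 * |(T.F x'.1).X - (T.F x.1).X| ≤ |(T.frz ε x).θ - T.θ 1 x.1| * |(T.F x'.1).X - (T.F x.1).X| :=
          mul_le_mul_of_nonneg_right a3 (abs_nonneg _)
      _ ≤ T.δ ^ v + 7 * (T.δ ^ (-τ)) ^ 3 * T.δ ^ (10 - τ) := gw.trans (by linarith)
      _ ≤ (T.δ ^ (-τ)) ^ 3 * T.δ ^ v + 7 * (T.δ ^ (-τ)) ^ 3 * T.δ ^ v :=
          add_le_add (by nlinarith) (mul_le_mul_of_nonneg_left p3 (by positivity))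
      _ = _ := by ring
  rw [abs_sub_comm]
  have e : T.δ ^ (-χ) * T.δ ^ χ = 1 := by
    rw [← Real.rpow_add h0]
    simp
  have hm : 0 < T.δ ^ (-χ) := Real.rpow_pos_of_pos h0 _
  calc |(T.F x'.1).X - (T.F x.1).X| = 2 * T.δ ^ (-χ) * (T.δ ^ χ / 2 * |(T.F x'.1).X - (T.F x.1).X|) := by
        have : 2 * T.δ ^ (-χ) * (T.δ ^ χ / 2 * |(T.F x'.1).X - (T.F x.1).X|)
            = (T.δ ^ (-χ) * T.δ ^ χ) * |(T.F x'.1).X - (T.F x.1).X| := by ring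
        rw [this, e, one_mul]
    _ ≤ 2 * T.δ ^ (-χ) * (8 * (T.δ ^ (-τ)) ^ 3 * T.δ ^ v) := mul_le_mul_of_nonneg_left a4 (by positivity)
    _ = _ := by ring

/-! ## 4. the readings -/

/-- (LIP) the fine phase cell and the frame read the five cells -/
theorem ltlm_R1 (H : T.Hyp d g τ χ ε Q M G) (S : T.Sm τ χ ε ζ) (hG : T.P2.pr (fun x => ¬ T.G2 G χ x) ≤ ζ) {q v : ℝ}
    (hl : Lyr ε q v) :
    T.P2.entC (pair (pair (pair (pair (T.c2 v (T.vx ε)) (T.c2 v (T.vy ε))) (T.c2 v (T.vL ε))) (T.c2 v (T.vw ε))) (T.Xb2 v))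
      (pair (T.Fb2 v) (T.E ε q)) ≤ T.er χ ζ := by
  have h0 := H.δpos
  have h1 := H.δlt
  have hK := S.big
  obtain ⟨hχ, hχ1, hε, -⟩ := ltlm_eps S
  obtain ⟨p1, p2, p3, p4, p5, p6⟩ := ltlm_lyr H S hl
  have hv0 : 0 ≤ v := hε.le.trans (hl.1.trans hl.2.1)
  refine ltlm_fam T.P2 (T.G2 G χ) (pair (T.Fb2 v) (T.E ε q)) (n := 5) (by norm_num)
    ![T.vx ε, T.vy ε, T.vL ε, T.vw ε, fun x => (T.F x.1).X] h0 h1 hK S.τpos S.τχ hχ1 hv0 hl.2.2.1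
    (W := (T.δ ^ (-τ)) ^ 10) (by positivity) (ltlm_W H S (by norm_num)) ?_ ?_ hG (by linarith) _ ?_
  · intro i x hx
    obtain ⟨b1, b2, b3, b4, -⟩ := ltlm_val_bd H S hx
    have b5 := (ltlm_ph_bd H S hx).1
    fin_cases i
    · exact b1
    · exact b2
    · exact b3
    · exact b4
    · exact b5
  · intro i x x' hx hx' _ _ hA
    simp only [FLaw.pair, LtData.E, Prod.mk.injEq] at hA
    obtain ⟨hFv, -, hO, hFq⟩ := hA
    have hc := ltlm_frz_eq H hl.1 hFq hO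
    have hn : (T.F x.1).Near (T.F x'.1) (T.δ ^ v) := ltlo_ph_near h0 h1 hv0 hFv
    obtain ⟨-, -, -, gL, -, -, gx, gy, gw⟩ := ltg_lip (by linarith : 1 ≤ 3 * T.δ ^ (-τ)) (ltpk_frz_bd H S hx) hn
    have e : 10 * (3 * T.δ ^ (-τ)) ^ 3 * T.δ ^ v ≤ (T.δ ^ (-τ)) ^ 10 * T.δ ^ v := by
      have := ltlm_Kabs (c := 270) (m := 3) hK (by norm_num) (by norm_num)
      calc 10 * (3 * T.δ ^ (-τ)) ^ 3 * T.δ ^ v = 270 * (T.δ ^ (-τ)) ^ 3 * T.δ ^ v := by ring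
        _ ≤ _ := mul_le_mul_of_nonneg_right this p4.le
    have e' : T.δ ^ v ≤ (T.δ ^ (-τ)) ^ 10 * T.δ ^ v := by
      have : 1 ≤ (T.δ ^ (-τ)) ^ 10 := one_le_pow₀ (by linarith)
      nlinarith
    fin_cases i
    · show |T.vx ε x - T.vx ε x'| ≤ _
      unfold LtData.vx
      rw [← hc, abs_sub_comm]
      exact gx.trans e
    · show |T.vy ε x - T.vy ε x'| ≤ _
      unfold LtData.vy
      rw [← hc, abs_sub_comm]
      exact gy.trans e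
    · show |T.vL ε x - T.vL ε x'| ≤ _
      unfold LtData.vL
      rw [← hc, abs_sub_comm]
      exact gL.trans e
    · show |T.vw ε x - T.vw ε x'| ≤ _
      unfold LtData.vw
      rw [← hc, abs_sub_comm]
      exact gw.trans e
    · exact hn.1.trans e'
  · intro x x' h
    have h0' : T.c2 v (T.vx ε) x = T.c2 v (T.vx ε) x' := h 0
    have h1' : T.c2 v (T.vy ε) x = T.c2 v (T.vy ε) x' := h 1
    have h2' : T.c2 v (T.vL ε) x = T.c2 v (T.vL ε) x' := h 2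
    have h3' : T.c2 v (T.vw ε) x = T.c2 v (T.vw ε) x' := h 3
    have h4' : T.Xb2 v x = T.Xb2 v x' := h 4
    simp only [FLaw.pair, h0', h1', h2', h3', h4']

/-- (LEG) `A_k` reads `F_q` -/
theorem ltlm_R2 (H : T.Hyp d g τ χ ε Q M G) (S : T.Sm τ χ ε ζ) (hG : T.P2.pr (fun x => ¬ T.G2 G χ x) ≤ ζ) {q v : ℝ}
    (hl : Lyr ε q v) (k : Fin 2) : T.P2.entC (T.Fb2 q) (T.Ak ε k q) ≤ T.er χ ζ := by
  have h0 := H.δpos
  have h1 := H.δlt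
  have hK := S.big
  obtain ⟨hχ, hχ1, hε, -⟩ := ltlm_eps S
  have hq0 : 0 ≤ q := hε.le.trans hl.1
  have hq3 : q ≤ 3 := hl.2.1.trans hl.2.2.1
  refine ltlm_fam T.P2 (T.G2 G χ) (T.Ak ε k q) (n := 6) (by norm_num)
    ![fun x => (T.F x.1).X, fun x => (T.F x.1).B, fun x => (T.F x.1).P, fun x => (T.F x.1).Y, fun x => (T.F x.1).N,
      fun x => (T.F x.1).D] h0 h1 hK S.τpos S.τχ hχ1 hq0 hq3
    (W := (T.δ ^ (-τ)) ^ 10) (by positivity) (ltlm_W H S (by norm_num)) ?_ ?_ hG (by linarith) _ ?_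
  · intro i x hx
    obtain ⟨b1, b2, b3, b4, b5, b6⟩ := ltlm_ph_bd H S hx
    fin_cases i
    · exact b1
    · exact b2
    · exact b3
    · exact b4
    · exact b5
    · exact b6
  · intro i x x' hx hx' hg hg' hA
    obtain ⟨b1, b2, b3, b4, b5, b6⟩ := ltlm_leg H S k hq0 hq3 hx hx' hg.1 hg'.1 hA
    fin_cases i
    · exact b1
    · exact b2
    · exact b3
    · exact b4
    · exact b5
    · exact b6
  · intro x x' h
    have h0' : tcell T.δ q (T.F x.1).X = tcell T.δ q (T.F x'.1).X := h 0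
    have h1' : tcell T.δ q (T.F x.1).B = tcell T.δ q (T.F x'.1).B := h 1
    have h2' : tcell T.δ q (T.F x.1).P = tcell T.δ q (T.F x'.1).P := h 2
    have h3' : tcell T.δ q (T.F x.1).Y = tcell T.δ q (T.F x'.1).Y := h 3
    have h4' : tcell T.δ q (T.F x.1).N = tcell T.δ q (T.F x'.1).N := h 4
    have h5' : tcell T.δ q (T.F x.1).D = tcell T.δ q (T.F x'.1).D := h 5
    show (tcell T.δ q (T.F x.1).X, tcell T.δ q (T.F x.1).B, tcell T.δ q (T.F x.1).P, tcell T.δ q (T.F x.1).Y,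
      tcell T.δ q (T.F x.1).N, tcell T.δ q (T.F x.1).D) = (tcell T.δ q (T.F x'.1).X, tcell T.δ q (T.F x'.1).B,
      tcell T.δ q (T.F x'.1).P, tcell T.δ q (T.F x'.1).Y, tcell T.δ q (T.F x'.1).N, tcell T.δ q (T.F x'.1).D)
    rw [h0', h1', h2', h3', h4', h5']

/-- (ANN) `(F_q, A_k)` reads `(x,y,L)_v` -/
theorem ltlm_R3 (H : T.Hyp d g τ χ ε Q M G) (S : T.Sm τ χ ε ζ) (hG : T.P2.pr (fun x => ¬ T.G2 G χ x) ≤ ζ) {q v : ℝ}
    (hl : Lyr ε q v) (k : Fin 2) :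
    T.P2.entC (pair (pair (T.c2 v (T.vx ε)) (T.c2 v (T.vy ε))) (T.c2 v (T.vL ε))) (pair (T.Fb2 q) (T.Ak ε k q)) ≤ T.er χ ζ := by
  have h0 := H.δpos
  have h1 := H.δlt
  have hK := S.big
  obtain ⟨hχ, hχ1, hε, -⟩ := ltlm_eps S
  have hv0 : 0 ≤ v := hε.le.trans (hl.1.trans hl.2.1)
  refine ltlm_fam T.P2 (T.G2 G χ) (pair (T.Fb2 q) (T.Ak ε k q)) (n := 3) (by norm_num)
    ![T.vx ε, T.vy ε, T.vL ε] h0 h1 hK S.τpos S.τχ hχ1 hv0 hl.2.2.1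
    (W := (T.δ ^ (-τ)) ^ 10) (by positivity) (ltlm_W H S (by norm_num)) ?_ ?_ hG (by linarith) _ ?_
  · intro i x hx
    obtain ⟨b1, b2, b3, -, -⟩ := ltlm_val_bd H S hx
    fin_cases i
    · exact b1
    · exact b2
    · exact b3
  · intro i x x' hx hx' hg hg' hA
    obtain ⟨b1, b2, b3, -⟩ := ltlm_ann H S k hl hx hx' hg.1 hg'.1 (congrArg Prod.snd hA) (congrArg Prod.fst hA)
    fin_cases i
    · exact b1
    · exact b2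
    · exact b3
  · intro x x' h
    have h0' : T.c2 v (T.vx ε) x = T.c2 v (T.vx ε) x' := h 0
    have h1' : T.c2 v (T.vy ε) x = T.c2 v (T.vy ε) x' := h 1
    have h2' : T.c2 v (T.vL ε) x = T.c2 v (T.vL ε) x' := h 2
    simp only [FLaw.pair, h0', h1', h2']

/-- (W, inverse) `(w_v, F_q, A_1)` reads `X_v` -/
theorem ltlm_R4 (H : T.Hyp d g τ χ ε Q M G) (S : T.Sm τ χ ε ζ) (hG : T.P2.pr (fun x => ¬ T.G2 G χ x) ≤ ζ) {q v : ℝ}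
    (hl : Lyr ε q v) :
    T.P2.entC (T.Xb2 v) (pair (T.c2 v (T.vw ε)) (pair (T.Fb2 q) (T.Ak ε 1 q))) ≤ T.er χ ζ := by
  have h0 := H.δpos
  have h1 := H.δlt
  have hK := S.big
  obtain ⟨hχ, hχ1, hε, -⟩ := ltlm_eps S
  have hv0 : 0 ≤ v := hε.le.trans (hl.1.trans hl.2.1)
  refine ltlm_fam T.P2 (T.G2 G χ) (pair (T.c2 v (T.vw ε)) (pair (T.Fb2 q) (T.Ak ε 1 q))) (n := 1) (by norm_num)
    ![fun x => (T.F x.1).X] h0 h1 hK S.τpos S.τχ hχ1 hv0 hl.2.2.1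
    (W := 16 * (T.δ ^ (-τ)) ^ 3 * T.δ ^ (-χ)) (by positivity) ?_ ?_ ?_ hG (by linarith) _ ?_
  · rw [pow_one]
    have hm : 1 ≤ T.δ ^ (-χ) := Real.one_le_rpow_of_pos_of_le_one_of_nonpos h0 h1.le (by linarith)
    have hK3 : 1 ≤ (T.δ ^ (-τ)) ^ 3 := one_le_pow₀ (by linarith)
    have hp : 1 ≤ (T.δ ^ (-τ)) ^ 3 * T.δ ^ (-χ) := by nlinarith
    calc 2 * (16 * (T.δ ^ (-τ)) ^ 3 * T.δ ^ (-χ)) + 2 ≤ 34 * ((T.δ ^ (-τ)) ^ 3 * T.δ ^ (-χ)) := by linarith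
      _ ≤ T.δ ^ (-τ) * ((T.δ ^ (-τ)) ^ 3 * T.δ ^ (-χ)) := mul_le_mul_of_nonneg_right (by linarith) (by positivity)
      _ = T.δ ^ (-(4 * τ + χ)) := by
          rw [ltlo_Kpow h0, ← Real.rpow_add h0, ← Real.rpow_add h0]
          congr 1
          push_cast
          ring
      _ ≤ T.δ ^ (-(3 * χ)) := ltlo_mono h0 h1 (by
          have := S.τχ
          have := S.τpos
          linarith)
  · intro i x hx
    have b1 := (ltlm_ph_bd H S hx).1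
    fin_cases i
    exact b1
  · intro i x x' hx hx' hg hg' hA
    have b1 := ltlm_winv H S hl hx hx' hg hg' (congrArg (fun z => z.2.2) hA) (congrArg (fun z => z.2.1) hA)
      (congrArg Prod.fst hA)
    fin_cases i
    exact b1
  · intro x x' h
    exact h 0

/-- (ANN), (W) `(F_q, A_0)` reads `(x,y,L,w)_v` -/
theorem ltlm_R6 (H : T.Hyp d g τ χ ε Q M G) (S : T.Sm τ χ ε ζ) (hG : T.P2.pr (fun x => ¬ T.G2 G χ x) ≤ ζ) {q v : ℝ}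
    (hl : Lyr ε q v) :
    T.P2.entC (pair (pair (pair (T.c2 v (T.vx ε)) (T.c2 v (T.vy ε))) (T.c2 v (T.vL ε))) (T.c2 v (T.vw ε)))
      (pair (T.Fb2 q) (T.Ak ε 0 q)) ≤ T.er χ ζ := by
  have h0 := H.δpos
  have h1 := H.δlt
  have hK := S.big
  obtain ⟨hχ, hχ1, hε, -⟩ := ltlm_eps S
  have hv0 : 0 ≤ v := hε.le.trans (hl.1.trans hl.2.1)
  refine ltlm_fam T.P2 (T.G2 G χ) (pair (T.Fb2 q) (T.Ak ε 0 q)) (n := 4) (by norm_num)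
    ![T.vx ε, T.vy ε, T.vL ε, T.vw ε] h0 h1 hK S.τpos S.τχ hχ1 hv0 hl.2.2.1
    (W := (T.δ ^ (-τ)) ^ 10) (by positivity) (ltlm_W H S (by norm_num)) ?_ ?_ hG (by linarith) _ ?_
  · intro i x hx
    obtain ⟨b1, b2, b3, b4, -⟩ := ltlm_val_bd H S hx
    fin_cases i
    · exact b1
    · exact b2
    · exact b3
    · exact b4
  · intro i x x' hx hx' hg hg' hA
    obtain ⟨b1, b2, b3, -⟩ := ltlm_ann H S 0 hl hx hx' hg.1 hg'.1 (congrArg Prod.snd hA) (congrArg Prod.fst hA)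
    have b4 := ltlm_w H S hl hx hx' hg.1 hg'.1 (congrArg Prod.snd hA) (congrArg Prod.fst hA)
    fin_cases i
    · exact b1
    · exact b2
    · exact b3
    · exact b4
  · intro x x' h
    have h0' : T.c2 v (T.vx ε) x = T.c2 v (T.vx ε) x' := h 0
    have h1' : T.c2 v (T.vy ε) x = T.c2 v (T.vy ε) x' := h 1
    have h2' : T.c2 v (T.vL ε) x = T.c2 v (T.vL ε) x' := h 2
    have h3' : T.c2 v (T.vw ε) x = T.c2 v (T.vw ε) x' := h 3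
    simp only [FLaw.pair, h0', h1', h2', h3']

/-- **L-mode**, LEAF B1 of `Layer.lean` -/
theorem ltl_mode (H : T.Hyp d g τ χ ε Q M G) (S : T.Sm τ χ ε ζ)
    (hG : T.P2.pr (fun x => ¬ T.G2 G χ x) ≤ ζ) {q v : ℝ} (hl : Lyr ε q v) :
    T.P2.entC (T.c2 v (T.vx ε)) (T.E ε q) + T.P2.entC (T.c2 v (T.vy ε)) (pair (T.c2 v (T.vx ε)) (T.E ε q))
      + T.P2.entC (T.c2 v (T.vL ε)) (pair (pair (T.c2 v (T.vx ε)) (T.c2 v (T.vy ε))) (T.E ε q))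
      + T.P2.entC (T.Xb2 v) (T.Ak ε 1 q) + T.P2.entC (T.Xb2 v) (T.Ak ε 0 q)
      ≤ T.P2.entC (T.Fb2 v) (T.E ε q) + 10 * T.er χ ζ := by
  have hE : ∀ k : Fin 2, ∀ x x' : Ω × Ω, T.Fb2 q x = T.Fb2 q x' → T.Ak ε k q x = T.Ak ε k q x' → T.E ε q x = T.E ε q x' := by
    intro k x x' hF hA
    unfold LtData.Ak LtData.CS at hA
    simp only [Prod.mk.injEq] at hA
    obtain ⟨⟨hC, -⟩, -, hO⟩ := hA
    unfold LtData.E
    rw [hC, hO, show T.Fb q x.1 = T.Fb q x'.1 from hF]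
  have h := ltlm_glue T.P2 (T.c2 v (T.vx ε)) (T.c2 v (T.vy ε)) (T.c2 v (T.vL ε)) (T.c2 v (T.vw ε)) (T.Xb2 v) (T.Fb2 q) (T.Fb2 v)
    (T.E ε q) (T.Ak ε 1 q) (T.Ak ε 0 q) (hE 1) (hE 0) (ltlm_R1 H S hG hl) (ltlm_R2 H S hG hl 1) (ltlm_R3 H S hG hl 1)
    (ltlm_R4 H S hG hl) (ltlm_R2 H S hG hl 0) (ltlm_R6 H S hG hl)
  have her : 0 ≤ T.er χ ζ := by
    obtain ⟨hχ, -, -, -⟩ := ltlm_eps S
    have := ltpk_ell_pos T H.δpos H.δlt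
    have := S.ζ0
    unfold LtData.er
    positivity
  linarith

end geo

end Claimed.Agent.R256
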