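import Claimed.Agent.R256.LT.LayerB1
import Claimed.Agent.R256.LT.Mot

/-!
# Row 256, unit LT: proof of `ltl_res` (leaf L-LT-LB2)      (helper68, for architect helper46)

`H(θ̃_v|Yr_q) ≤ H(L_v|x_v,y_v,E_q) + 3 er`:   `Yr_q` reads `C` exactly, `F_q` (MOT, parent), `(F_q,Yr_q)` reads `(x,y)_v` (MOT), `(L_v,F_q,Yr_q)` reads `θ̃_v` up to `δ^(-3χ)`.
Geometry: `Mot.lean` (helper61).
-/

set_option autoImplicit false

namespace Claimed.Agent.R256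

open scoped BigOperators
open Classical
open Claimed.Agent.R255
open Claimed.Agent.R255.FLaw

/-- the cost of the reading of a family, lists up to `δ^(-4χ)` -/
theorem ltlr_fam {Ω' : Type} [Fintype Ω'] {α β : Type} (P' : FLaw Ω') (Gd : Ω' → Prop) (A : Ω' → α) {n : ℕ} (hn : n ≤ 6)
    (f : Fin n → Ω' → ℝ) {δ τ χ ζ v W : ℝ}
    (h0 : 0 < δ) (h1 : δ < 1) (hbig : 1000 ≤ δ ^ (-τ)) (hτ0 : 0 < τ) (hτχ : 100 * τ ≤ χ) (hχ : χ ≤ 1) (hv0 : 0 ≤ v) (hv3 : v ≤ 3)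
    (hW0 : 0 ≤ W) (hW : (2 * W + 2) ^ n ≤ δ ^ (-(4 * χ)))
    (hbd : ∀ i ω, P'.p ω ≠ 0 → |f i ω| ≤ (δ ^ (-τ)) ^ 10)
    (hcl : ∀ i ω ω', P'.p ω ≠ 0 → P'.p ω' ≠ 0 → Gd ω → Gd ω' → A ω = A ω' → |f i ω - f i ω'| ≤ W * δ ^ v)
    (hG : P'.pr (fun ω => ¬ Gd ω) ≤ ζ)
    (B' : Ω' → β) (hB : ∀ ω ω', (∀ i, tcell δ v (f i ω) = tcell δ v (f i ω')) → B' ω = B' ω') :
    P'.entC B' A ≤ (5 * χ + 100 * ζ) * lg δ := by
  have hK0 : 0 < δ ^ (-τ) := by positivity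
  have hℓ := ltlo_lg_pos h0 h1
  obtain ⟨-, l2⟩ := ltl_sp_lev h0 h1 hv0
  have hlog : Real.log 2 ≤ χ * lg δ := by
    have a1 : Real.log 2 ≤ Real.log (δ ^ (-τ)) := Real.log_le_log (by norm_num) (by linarith)
    rw [ltlo_log h0] at a1
    have a2 : τ * lg δ ≤ χ * lg δ := mul_le_mul_of_nonneg_right (by linarith) hℓ.le
    linarith
  have hN1 : ∀ i, P'.NVal Gd (fun ω => tcell δ v (f i ω)) A (2 * W + 2) := fun i => by
    have hN := ltk_nval_close P' Gd A (f i) (tlev δ v) (R := W * δ ^ v) (by positivity) (hcl i)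
    refine ltk_nval_mono P' hN (fun _ h => h) (fun _ _ h => h) ⟨id, fun _ => rfl⟩ ?_
    have := mul_le_mul_of_nonneg_left l2 hW0
    calc W * δ ^ v * 2 ^ (tlev δ v) + 2 = W * (δ ^ v * 2 ^ (tlev δ v)) + 2 := by ring
      _ ≤ 2 * W + 2 := by linarith
  have hN := ltlm_nval_pi P' Gd A (fun i ω => tcell δ v (f i ω)) hN1
  obtain ⟨S, hS, hmem⟩ := ltlo_cap4 h0 h1 hbig (by linarith) hv0 hv3
  have hone : 1 ≤ (2 * W + 2) ^ n := one_le_pow₀ (by linarith)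
  have hcap : ((Fintype.piFinset fun _ : Fin n => S).card : ℝ) ≤ δ ^ (-(100 : ℝ)) := by
    rw [Fintype.card_piFinset]
    push_cast
    rw [Finset.prod_const, Finset.card_univ, Fintype.card_fin]
    have h4 : 1 ≤ δ ^ (-(4 : ℝ)) := Real.one_le_rpow_of_pos_of_le_one_of_nonpos h0 h1.le (by norm_num)
    calc ((S.card : ℝ)) ^ n ≤ (δ ^ (-(4 : ℝ))) ^ n := pow_le_pow_left₀ (by positivity) hS n
      _ ≤ (δ ^ (-(4 : ℝ))) ^ 6 := pow_le_pow_right₀ h4 hn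
      _ = δ ^ (-((6 : ℕ) * (4 : ℝ))) := ltlo_Kpow h0 4 6
      _ ≤ δ ^ (-(100 : ℝ)) := ltlo_mono h0 h1 (by norm_num)
  have h2 : P'.NVal (fun ω => ¬ ¬ Gd ω) (fun ω i => tcell δ v (f i ω)) A ((2 * W + 2) ^ n) :=
    ltk_nval_mono P' hN (fun _ hh => not_not.1 hh) (fun _ _ hh => hh) ⟨id, fun _ => rfl⟩ le_rfl
  have h3 := ent_ambiguity P' A (fun ω i => tcell δ v (f i ω)) (fun ω => ¬ Gd ω) hone h2
    ⟨_, hcap, fun ω hω => Fintype.mem_piFinset.2 fun i => hmem _ (hbd i ω hω)⟩ hG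
  rw [ltlo_log h0] at h3
  have h4 : Real.log ((2 * W + 2) ^ n) ≤ 4 * χ * lg δ := by
    rw [← ltlo_log h0]
    exact Real.log_le_log (by linarith) hW
  refine le_trans (ent_entC_mono P' (fun ω i => tcell δ v (f i ω)) B' A fun ω ω' _ _ h _ => hB ω ω' fun i => congrFun h i) ?_
  nlinarith

theorem ltlr_glue {Ω' : Type} [Fintype Ω'] (P : FLaw Ω') {t1 t2 t3 t4 t5 t6 : Type}
    (t : Ω' → t1) (L : Ω' → t2) (xy : Ω' → t3) (Fq : Ω' → t4) (E : Ω' → t5) (Y : Ω' → t6) {r : ℝ}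
    (hE : ∀ ω ω', P.p ω ≠ 0 → P.p ω' ≠ 0 → Fq ω = Fq ω' → Y ω = Y ω' → E ω = E ω')
    (S1 : P.entC Fq Y ≤ r) (S2 : P.entC xy (pair Fq Y) ≤ r) (S3 : P.entC t (pair L (pair Fq Y)) ≤ r) :
    P.entC t Y ≤ P.entC L (pair xy E) + 3 * r := by
  have a1 : P.entC L (pair xy (pair Fq Y)) ≤ P.entC L (pair xy E) :=
    ent_entC_anti P L _ _ fun ω ω' hω hω' h => by
      simp only [FLaw.pair, Prod.mk.injEq] at h ⊢
      exact ⟨h.1, hE ω ω' hω hω' h.2.1 h.2.2⟩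
  have a2 := ent_entC_chain P xy L (pair Fq Y)
  have a3 : P.entC L (pair Fq Y) ≤ P.entC (pair xy L) (pair Fq Y) :=
    ent_entC_mono P _ _ _ fun ω ω' _ _ h _ => congrArg Prod.snd h
  have a4 := ent_entC_chain P Fq L Y
  have a5 : P.entC t Y ≤ P.entC (pair (pair Fq L) t) Y :=
    ent_entC_mono P _ _ _ fun ω ω' _ _ h _ => congrArg Prod.snd h
  have a5' := ent_entC_chain P (pair Fq L) t Y
  have a6 : P.entC t (pair (pair Fq L) Y) ≤ P.entC t (pair L (pair Fq Y)) :=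
    ent_entC_anti P t _ _ fun ω ω' _ _ h => by
      simp only [FLaw.pair, Prod.mk.injEq] at h ⊢
      exact ⟨h.1.2, h.1.1, h.2⟩
  linarith

section res

variable {Ω : Type} [Fintype Ω] {T : LtData Ω} {d g τ χ ε ζ : ℝ} {Q : Finset ℝ} {M : ℝ → ℝ} {G : Ω → Prop}

/-- (MOT, parent) `Yr_q` reads `F_q` -/
theorem ltlr_S1 (H : T.Hyp d g τ χ ε Q M G) (S : T.Sm τ χ ε ζ) (hG : T.P2.pr (fun x => ¬ T.G2 G χ x) ≤ ζ) {q v : ℝ}
    (hl : Lyr ε q v) : T.P2.entC (T.Fb2 q) (T.Yr ε q) ≤ T.er χ ζ := by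
  have h0 := H.δpos
  have h1 := H.δlt
  have hK := S.big
  obtain ⟨hχ, hχ1, hε, -⟩ := ltlm_eps S
  have hq0 : 0 ≤ q := hε.le.trans hl.1
  have hq3 : q ≤ 3 := hl.2.1.trans hl.2.2.1
  refine ltlm_fam T.P2 (T.G2 G χ) (T.Yr ε q) (n := 6) (by norm_num)
    ![fun x => (T.F x.1).X, fun x => (T.F x.1).B, fun x => (T.F x.1).P, fun x => (T.F x.1).Y, fun x => (T.F x.1).N,
      fun x => (T.F x.1).D] h0 h1 hK S.τpos S.τχ hχ1 hq0 hq3
    (W := (T.δ ^ (-τ)) ^ 10) (by positivity) (ltlm_W H S (by norm_num)) ?_ ?_ hG (by linarith) _ ?_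
  · intro i x hx
    obtain ⟨b1, b2, b3, b4, b5, b6⟩ := ltlm_ph_bd H S hx
    fin_cases i
    · exact b1
    · exact b2
    · exact b3
    · exact b4
    · exact b5
    · exact b6
  · intro i x x' hx hx' hg hg' hA
    have e : T.δ ^ (q - 9 * τ) ≤ (T.δ ^ (-τ)) ^ 10 * T.δ ^ q := by
      rw [ltlo_Kpow h0, ← Real.rpow_add h0]
      refine ltlo_anti h0 h1 ?_
      have := S.τpos
      push_cast
      linarith
    obtain ⟨b1, b2, b3, b4, b5, b6⟩ := ltlm_near_mono (ltmo_near H S hl.1 hq3 hx hx' hg hg' hA) e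
    fin_cases i
    · exact b1
    · exact b2
    · exact b3
    · exact b4
    · exact b5
    · exact b6
  · intro x x' h
    have h0' : tcell T.δ q (T.F x.1).X = tcell T.δ q (T.F x'.1).X := h 0
    have h1' : tcell T.δ q (T.F x.1).B = tcell T.δ q (T.F x'.1).B := h 1
    have h2' : tcell T.δ q (T.F x.1).P = tcell T.δ q (T.F x'.1).P := h 2
    have h3' : tcell T.δ q (T.F x.1).Y = tcell T.δ q (T.F x'.1).Y := h 3
    have h4' : tcell T.δ q (T.F x.1).N = tcell T.δ q (T.F x'.1).N := h 4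
    have h5' : tcell T.δ q (T.F x.1).D = tcell T.δ q (T.F x'.1).D := h 5
    show (tcell T.δ q (T.F x.1).X, tcell T.δ q (T.F x.1).B, tcell T.δ q (T.F x.1).P, tcell T.δ q (T.F x.1).Y,
      tcell T.δ q (T.F x.1).N, tcell T.δ q (T.F x.1).D) = (tcell T.δ q (T.F x'.1).X, tcell T.δ q (T.F x'.1).B,
      tcell T.δ q (T.F x'.1).P, tcell T.δ q (T.F x'.1).Y, tcell T.δ q (T.F x'.1).N, tcell T.δ q (T.F x'.1).D)
    rw [h0', h1', h2', h3', h4', h5']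

/-- (MOT) `(F_q, Yr_q)` reads `(x,y)_v` -/
theorem ltlr_S2 (H : T.Hyp d g τ χ ε Q M G) (S : T.Sm τ χ ε ζ) (hG : T.P2.pr (fun x => ¬ T.G2 G χ x) ≤ ζ) {q v : ℝ}
    (hl : Lyr ε q v) :
    T.P2.entC (pair (T.c2 v (T.vx ε)) (T.c2 v (T.vy ε))) (pair (T.Fb2 q) (T.Yr ε q)) ≤ T.er χ ζ := by
  have h0 := H.δpos
  have h1 := H.δlt
  have hK := S.big
  obtain ⟨hχ, hχ1, hε, -⟩ := ltlm_eps S
  have hv0 : 0 ≤ v := hε.le.trans (hl.1.trans hl.2.1)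
  have hq3 : q ≤ 3 := hl.2.1.trans hl.2.2.1
  refine ltlm_fam T.P2 (T.G2 G χ) (pair (T.Fb2 q) (T.Yr ε q)) (n := 2) (by norm_num)
    ![T.vx ε, T.vy ε] h0 h1 hK S.τpos S.τχ hχ1 hv0 hl.2.2.1
    (W := (T.δ ^ (-τ)) ^ 10) (by positivity) (ltlm_W H S (by norm_num)) ?_ ?_ hG (by linarith) _ ?_
  · intro i x hx
    obtain ⟨b1, b2, -, -, -⟩ := ltlm_val_bd H S hx
    fin_cases i
    · exact b1
    · exact b2
  · intro i x x' hx hx' hg hg' hA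
    have hY : T.Yr ε q x = T.Yr ε q x' := congrArg Prod.snd hA
    have hF : T.Fb2 q x = T.Fb2 q x' := congrArg Prod.fst hA
    have hc := ltlm_frz_eq H hl.1 hF (ltmo_yr hY).2.2.2
    obtain ⟨b1, b2, -, -⟩ := ltmo_two H S hl.1 hq3 hx hx' hg hg' hY
    have e : T.δ ^ (q + ε - 14 * τ) ≤ (T.δ ^ (-τ)) ^ 10 * T.δ ^ v := by
      have e1 : T.δ ^ (q + ε - 14 * τ) ≤ T.δ ^ v := ltlo_anti h0 h1 (by
        have := hl.2.2.2
        have := S.τχ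
        have := S.χε
        have := S.τpos
        linarith)
      have e2 : 1 ≤ (T.δ ^ (-τ)) ^ 10 := one_le_pow₀ (by linarith)
      have e3 : 0 < T.δ ^ v := Real.rpow_pos_of_pos h0 v
      nlinarith
    fin_cases i
    · show |T.vx ε x - T.vx ε x'| ≤ _
      unfold LtData.vx
      rw [← hc, abs_sub_comm]
      exact b1.trans e
    · show |T.vy ε x - T.vy ε x'| ≤ _
      unfold LtData.vy
      rw [← hc, abs_sub_comm]
      exact b2.trans e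
  · intro x x' h
    have h0' : T.c2 v (T.vx ε) x = T.c2 v (T.vx ε) x' := h 0
    have h1' : T.c2 v (T.vy ε) x = T.c2 v (T.vy ε) x' := h 1
    simp only [FLaw.pair, h0', h1']

/-- (MOT, inverse) `(L_v, F_q, Yr_q)` reads `θ̃_v` -/
theorem ltlr_S3 (H : T.Hyp d g τ χ ε Q M G) (S : T.Sm τ χ ε ζ) (hG : T.P2.pr (fun x => ¬ T.G2 G χ x) ≤ ζ) {q v : ℝ}
    (hl : Lyr ε q v) :
    T.P2.entC (T.c2 v T.θR) (pair (T.c2 v (T.vL ε)) (pair (T.Fb2 q) (T.Yr ε q))) ≤ T.er χ ζ := by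
  have h0 := H.δpos
  have h1 := H.δlt
  have hK := S.big
  obtain ⟨hχ, hχ1, hε, hτ1⟩ := ltlm_eps S
  have hv0 : 0 ≤ v := hε.le.trans (hl.1.trans hl.2.1)
  have hq3 : q ≤ 3 := hl.2.1.trans hl.2.2.1
  refine ltlr_fam T.P2 (T.G2 G χ) (pair (T.c2 v (T.vL ε)) (pair (T.Fb2 q) (T.Yr ε q))) (n := 1) (by norm_num)
    ![T.θR] h0 h1 hK S.τpos S.τχ hχ1 hv0 hl.2.2.1
    (W := 3 * T.δ ^ (-(3 * χ))) (by positivity) ?_ ?_ ?_ hG _ ?_
  · rw [pow_one]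
    have hm : 1 ≤ T.δ ^ (-(3 * χ)) := Real.one_le_rpow_of_pos_of_le_one_of_nonpos h0 h1.le (by linarith)
    calc 2 * (3 * T.δ ^ (-(3 * χ))) + 2 ≤ 8 * T.δ ^ (-(3 * χ)) := by linarith
      _ ≤ T.δ ^ (-τ) * T.δ ^ (-(3 * χ)) := mul_le_mul_of_nonneg_right (by linarith) (by positivity)
      _ = T.δ ^ (-(τ + 3 * χ)) := by
          rw [← Real.rpow_add h0]
          congr 1
          ring
      _ ≤ T.δ ^ (-(4 * χ)) := ltlo_mono h0 h1 (by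
          have := S.τχ
          have := S.τpos
          linarith)
  · intro i x hx
    obtain ⟨-, s2, -⟩ := ltl_supp T x hx
    obtain ⟨-, -, -, bm⟩ := H.size x.2 s2
    have b1 : |T.θR x| ≤ (T.δ ^ (-τ)) ^ 10 := by
      have := ltlm_Kabs (c := 1) (m := 1) hK (by norm_num) (by norm_num)
      have b := (bm 0).1
      unfold LtData.θR
      linarith
    fin_cases i
    exact b1
  · intro i x x' hx hx' hg hg' hA
    have hY : T.Yr ε q x = T.Yr ε q x' := congrArg (fun z => z.2.2) hA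
    have hF : T.Fb2 q x = T.Fb2 q x' := congrArg (fun z => z.2.1) hA
    have hL : T.c2 v (T.vL ε) x = T.c2 v (T.vL ε) x' := congrArg Prod.fst hA
    have hc := ltlm_frz_eq H hl.1 hF (ltmo_yr hY).2.2.2
    obtain ⟨-, -, -, b4⟩ := ltmo_two H S hl.1 hq3 hx hx' hg hg' hY
    have a0 : |T.vL ε x - T.vL ε x'| ≤ T.δ ^ v := ltlo_cell_close h0 h1 hv0 hL
    unfold LtData.vL at a0
    rw [← hc, abs_sub_comm] at a0
    have e6 : T.δ ^ (6 - 14 * τ) ≤ T.δ ^ v := ltlo_anti h0 h1 (by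
      have := hl.2.2.1
      have := S.τχ
      have := S.χε
      have := S.ε1
      linarith)
    have a1 : T.δ ^ (3 * χ) * |T.θ 0 x'.2 - T.θ 0 x.2| ≤ 3 * T.δ ^ v := by linarith
    have e : T.δ ^ (-(3 * χ)) * T.δ ^ (3 * χ) = 1 := by
      rw [← Real.rpow_add h0]
      simp
    have b1 : |T.θR x - T.θR x'| ≤ 3 * T.δ ^ (-(3 * χ)) * T.δ ^ v := by
      unfold LtData.θR
      rw [abs_sub_comm]
      calc |T.θ 0 x'.2 - T.θ 0 x.2| = T.δ ^ (-(3 * χ)) * (T.δ ^ (3 * χ) * |T.θ 0 x'.2 - T.θ 0 x.2|) := by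
            rw [← mul_assoc, e, one_mul]
        _ ≤ T.δ ^ (-(3 * χ)) * (3 * T.δ ^ v) := mul_le_mul_of_nonneg_left a1 (by positivity)
        _ = _ := by ring
    fin_cases i
    exact b1
  · intro x x' h
    exact h 0

/-- **L-res**, LEAF B2 of `Layer.lean` -/
theorem ltl_res (H : T.Hyp d g τ χ ε Q M G) (S : T.Sm τ χ ε ζ)
    (hG : T.P2.pr (fun x => ¬ T.G2 G χ x) ≤ ζ) {q v : ℝ} (hl : Lyr ε q v) :
    T.P2.entC (T.c2 v T.θR) (T.Yr ε q)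
      ≤ T.P2.entC (T.c2 v (T.vL ε)) (pair (pair (T.c2 v (T.vx ε)) (T.c2 v (T.vy ε))) (T.E ε q)) + 5 * T.er χ ζ := by
  have hE : ∀ x x' : Ω × Ω, T.P2.p x ≠ 0 → T.P2.p x' ≠ 0 → T.Fb2 q x = T.Fb2 q x' → T.Yr ε q x = T.Yr ε q x' →
      T.E ε q x = T.E ε q x' := by
    intro x x' hx hx' hF hY
    obtain ⟨y1, -, -, hO⟩ := ltmo_yr hY
    obtain ⟨hC, -⟩ := H.side _ _ y1
    obtain ⟨-, -, c1⟩ := ltl_supp T x hx
    obtain ⟨-, -, c2⟩ := ltl_supp T x' hx'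
    have d1 : T.C x.1 = T.C x.2 := congrArg Prod.fst c1
    have d2 : T.C x'.1 = T.C x'.2 := congrArg Prod.fst c2
    unfold LtData.E
    rw [d1, d2, hC, hO, show T.Fb q x.1 = T.Fb q x'.1 from hF]
  have h := ltlr_glue T.P2 (T.c2 v T.θR) (T.c2 v (T.vL ε)) (pair (T.c2 v (T.vx ε)) (T.c2 v (T.vy ε))) (T.Fb2 q) (T.E ε q)
    (T.Yr ε q) hE (ltlr_S1 H S hG hl) (ltlr_S2 H S hG hl) (ltlr_S3 H S hG hl)
  have her : 0 ≤ T.er χ ζ := by
    obtain ⟨hχ, -, -, -⟩ := ltlm_eps S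
    have := ltpk_ell_pos T H.δpos H.δlt
    have := S.ζ0
    unfold LtData.er
    positivity
  linarith

end res

end Claimed.Agent.R256
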