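import Mathlib

/-!
# Row 256, unit LT, file 4: SCALE SELECTION      (architect helper46)

PAPER-FREE, Mathlib only, deterministic.  Replaces Lebesgue points / linear prefix rates (04 names:score-trace, names:score-future-prefix) and the "window lemma" for
slopes that are only ROOT-Frostman.   Depths are integers (units of the finest mesh).
* `φ b a` (`a ≤ b`) = normalised entropy of a nested family at depth `b` given the phase cell at depth `a`:  `0 ≤ φ b a ≤ Kc (b-a) + e`,  SUPERADDITIVE up to `e`: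
  `φ b a + φ c b ≤ φ c a + e`.
* `Mf k` = normalised angular profile: `g k - e ≤ Mf k ≤ k + e`.
* `ltsDef φ m a = φ (a+2m) a - φ (a+m) a - φ (a+2m) (a+m)` = DEFECT of the double layer `[a, a+2m]`.
CONCLUSION: a scale `m ∈ [m₀, m₁]` (`m₁` depends only on the constants) and an offset `j < m` with
  (window)  `Mf (m+k) - Mf m ≥ (g-ε') k` for `k ≤ m`;      (defect)  the defects of the double layers `[a_i, a_i+2m]`, `a_i = n₀+j+i m`, inside `[n₀,n₁]` sum to `≤ η (n₁-n₀)`.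

PROOF.  `f m = ∑_{a=n₀}^{n₁-m} φ (a+m) a`, `Ψ m = f m / m ∈ [0, (Kc+e)(n₁-n₀+1)]`.
 1. averaging over the offsets: `(1/m) ∑_{j<m} (sum of defects at offset j) ≤ 2 Ψ(2m) - 2 Ψ(m) + 2 (Kc m + e)`  (every `a ∈ [n₀, n₁-2m]` is `n₀+j+im` exactly once).
 2. almost monotone: `m' = k m + r`: `φ (a+m') a ≥ ∑_{i<k} φ (a+(i+1)m) (a+im) - k e`, so `Ψ m' ≥ (1 - m/m') Ψ m - (Kc m' + e) - (n₁-n₀+1) e / m`.
 3. window: on a range `[a, b]`, `b = 2 ⌈(2a+2)/ε'⌉`, let `m` minimise `h k = Mf k - (g-ε') k`; `ε' m - e ≤ h m ≤ h a ≤ a (1-g+ε') + e` gives `2m ≤ b`; then `h (m+k) ≥ h m`.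
 4. ranges `[a_i, b_i]`, `a_1 = m₀`, `a_{i+1} = Λ b_i` (`Λ ≈ 100 Kc/η`), `i ≤ I ≈ 100 Kc/η`; `m_i` from 3;
    `∑_i (Ψ(2m_i) - Ψ(m_i)) ≤ Ψ(2 m_I) + ∑_i (Ψ(2m_i) - Ψ(m_{i+1}))`: pigeonhole.     `m₁ = b_I`, `e` small, `m₁ ≤ e (n₁-n₀)`.
-/

set_option autoImplicit false

namespace Claimed.Agent.R256

open Finset

/-- defect of the double layer `[a, a+2m]` -/
def ltsDef (φ : ℕ → ℕ → ℝ) (m a : ℕ) : ℝ := φ (a + 2 * m) a - φ (a + m) a - φ (a + 2 * m) (a + m)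

/-- window sums -/
theorem lts_win (ψ : ℕ → ℝ) (B : ℝ) (s N r : ℕ) (h : ∀ a, a < s + N + r → ψ a ≤ B) :
    ∑ a ∈ range (s + N + r), ψ a ≤ ∑ a ∈ range N, ψ (s + a) + ((s : ℝ) + r) * B := by
  rw [sum_range_add, sum_range_add]
  have h1 : ∑ a ∈ range s, ψ a ≤ s * B := by
    calc ∑ a ∈ range s, ψ a ≤ ∑ _a ∈ range s, B := sum_le_sum fun a ha => h a (by have := mem_range.1 ha; omega)
      _ = s * B := by simp
  have h2 : ∑ a ∈ range r, ψ (s + N + a) ≤ r * B := by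
    calc ∑ a ∈ range r, ψ (s + N + a) ≤ ∑ _a ∈ range r, B := sum_le_sum fun a ha => h _ (by have := mem_range.1 ha; omega)
      _ = r * B := by simp
  linarith [add_mul (s : ℝ) r B]

/-- sum of the entropies of all layers of thickness `m` inside `[0, L]` -/
def ltsF (φ : ℕ → ℕ → ℝ) (L m : ℕ) : ℝ := ∑ a ∈ range (L + 1 - m), φ (a + m) a

theorem lts_psi {φ : ℕ → ℕ → ℝ} {L : ℕ} {Kc e : ℝ}
    (hb : ∀ a b, a ≤ b → b ≤ L → 0 ≤ φ b a ∧ φ b a ≤ Kc * ((b : ℝ) - a) + e) (m a : ℕ) (h : a + m ≤ L) :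
    0 ≤ φ (a + m) a ∧ φ (a + m) a ≤ Kc * m + e := by
  have h1 := hb a (a + m) (by omega) h
  refine ⟨h1.1, h1.2.trans (le_of_eq ?_)⟩
  push_cast
  ring

theorem ltsF_nonneg {φ : ℕ → ℕ → ℝ} {L : ℕ} {Kc e : ℝ}
    (hb : ∀ a b, a ≤ b → b ≤ L → 0 ≤ φ b a ∧ φ b a ≤ Kc * ((b : ℝ) - a) + e) (m : ℕ) : 0 ≤ ltsF φ L m :=
  sum_nonneg fun a ha => (lts_psi hb m a (by have := mem_range.1 ha; omega)).1

theorem ltsF_le {φ : ℕ → ℕ → ℝ} {L : ℕ} {Kc e : ℝ}
    (hb : ∀ a b, a ≤ b → b ≤ L → 0 ≤ φ b a ∧ φ b a ≤ Kc * ((b : ℝ) - a) + e) (m : ℕ) (hB : 0 ≤ Kc * m + e) :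
    ltsF φ L m ≤ ((L : ℝ) + 1) * (Kc * m + e) := by
  calc ltsF φ L m ≤ ∑ _a ∈ range (L + 1 - m), (Kc * m + e) :=
        sum_le_sum fun a ha => (lts_psi hb m a (by have := mem_range.1 ha; omega)).2
    _ = ((L + 1 - m : ℕ) : ℝ) * (Kc * m + e) := by rw [sum_const, card_range, nsmul_eq_mul]
    _ ≤ ((L : ℝ) + 1) * (Kc * m + e) := by
        refine mul_le_mul_of_nonneg_right ?_ hB
        have : L + 1 - m ≤ L + 1 := Nat.sub_le _ _
        exact_mod_cast this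

/-- the sum of all defects at scale `m` -/
theorem lts_defect_sum {φ : ℕ → ℕ → ℝ} {L : ℕ} {Kc e : ℝ}
    (hb : ∀ a b, a ≤ b → b ≤ L → 0 ≤ φ b a ∧ φ b a ≤ Kc * ((b : ℝ) - a) + e) (m N : ℕ) (hN : L + 1 = N + 2 * m) :
    ∑ a ∈ range N, ltsDef φ m a ≤ ltsF φ L (2 * m) - 2 * ltsF φ L m + 2 * (m * (Kc * m + e)) := by
  have e1 : ltsF φ L (2 * m) = ∑ a ∈ range N, φ (a + 2 * m) a := by
    unfold ltsF
    rw [show L + 1 - 2 * m = N by omega]
  have hψ : ∀ a, a < N + m → φ (a + m) a ≤ Kc * m + e := fun a ha => (lts_psi hb m a (by omega)).2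
  have e2 : ltsF φ L m ≤ ∑ a ∈ range N, φ (a + m) a + m * (Kc * m + e) := by
    have h := lts_win (fun a => φ (a + m) a) (Kc * m + e) 0 N m (fun a ha => hψ a (by omega))
    unfold ltsF
    rw [show L + 1 - m = 0 + N + m by omega]
    simpa using h
  have e3 : ltsF φ L m ≤ ∑ a ∈ range N, φ (a + 2 * m) (a + m) + m * (Kc * m + e) := by
    have h := lts_win (fun a => φ (a + m) a) (Kc * m + e) m N 0 (fun a ha => hψ a (by omega))
    unfold ltsF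
    rw [show L + 1 - m = m + N + 0 by omega]
    refine h.trans (le_of_eq ?_)
    congr 1
    · refine sum_congr rfl fun a _ => ?_
      show φ (m + a + m) (m + a) = _
      rw [show m + a + m = a + 2 * m by omega, show m + a = a + m by omega]
    · simp
  unfold ltsDef
  rw [sum_sub_distrib, sum_sub_distrib, e1]
  linarith

/-- iterated superadditivity -/
theorem lts_iter {φ : ℕ → ℕ → ℝ} {L : ℕ} {Kc e : ℝ}
    (hb : ∀ a b, a ≤ b → b ≤ L → 0 ≤ φ b a ∧ φ b a ≤ Kc * ((b : ℝ) - a) + e)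
    (hs : ∀ a b c, a ≤ b → b ≤ c → c ≤ L → φ b a + φ c b ≤ φ c a + e) (m a k : ℕ) (h : a + k * m ≤ L) :
    ∑ i ∈ range k, φ (i * m + a + m) (i * m + a) ≤ φ (a + k * m) a + k * e := by
  induction k with
  | zero =>
    have := (hb a a le_rfl (by omega)).1
    simpa using this
  | succ k ih =>
    have h1 : a + k * m + m ≤ L := by
      rw [Nat.succ_mul] at h
      omega
    have h2 := ih (by omega)
    have h3 := hs a (a + k * m) (a + k * m + m) (by omega) (by omega) h1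
    rw [sum_range_succ, show k * m + a + m = a + k * m + m by omega, show k * m + a = a + k * m by omega,
      show a + (k + 1) * m = a + k * m + m by rw [Nat.succ_mul]; omega]
    push_cast
    linarith

/-- almost monotonicity of `F m / m` -/
theorem lts_mono {φ : ℕ → ℕ → ℝ} {L : ℕ} {Kc e : ℝ}
    (hb : ∀ a b, a ≤ b → b ≤ L → 0 ≤ φ b a ∧ φ b a ≤ Kc * ((b : ℝ) - a) + e)
    (hs : ∀ a b c, a ≤ b → b ≤ c → c ≤ L → φ b a + φ c b ≤ φ c a + e) (m m' k N' : ℕ) (hk : k * m ≤ m') (hN' : L + 1 = N' + m') :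
    k * ltsF φ L m ≤ ltsF φ L m' + k * (((m' : ℝ) - m) * (Kc * m + e)) + N' * (((k : ℝ) + 1) * e) := by
  have e1 : ltsF φ L m' = ∑ a ∈ range N', φ (a + m') a := by
    unfold ltsF
    rw [show L + 1 - m' = N' by omega]
  have h1 : ∀ i ∈ range k, ltsF φ L m ≤ ∑ a ∈ range N', φ (i * m + a + m) (i * m + a) + ((m' : ℝ) - m) * (Kc * m + e) := by
    intro i hi
    have hi' := mem_range.1 hi
    have him : (i + 1) * m ≤ k * m := Nat.mul_le_mul_right _ hi'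
    rw [Nat.succ_mul] at him
    obtain ⟨r, hr⟩ : ∃ r, m' = i * m + m + r := ⟨m' - (i * m + m), by omega⟩
    have h := lts_win (fun a => φ (a + m) a) (Kc * m + e) (i * m) N' r (fun a ha => (lts_psi hb m a (by omega)).2)
    unfold ltsF
    rw [show L + 1 - m = i * m + N' + r by omega]
    refine h.trans (le_of_eq ?_)
    congr 2
    rw [hr]
    push_cast
    ring
  have h2 : ∀ a ∈ range N', ∑ i ∈ range k, φ (i * m + a + m) (i * m + a) ≤ φ (a + m') a + ((k : ℝ) + 1) * e := by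
    intro a ha
    have ha' := mem_range.1 ha
    have h3 := lts_iter hb hs m a k (by omega)
    have h4 := hs a (a + k * m) (a + m') (by omega) (by omega) (by omega)
    have h5 := (hb (a + k * m) (a + m') (by omega) (by omega)).1
    linarith
  calc (k : ℝ) * ltsF φ L m = ∑ _i ∈ range k, ltsF φ L m := by simp
    _ ≤ ∑ i ∈ range k, (∑ a ∈ range N', φ (i * m + a + m) (i * m + a) + ((m' : ℝ) - m) * (Kc * m + e)) := sum_le_sum h1
    _ = ∑ a ∈ range N', ∑ i ∈ range k, φ (i * m + a + m) (i * m + a) + k * (((m' : ℝ) - m) * (Kc * m + e)) := by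
        rw [sum_add_distrib, sum_comm]
        simp
    _ ≤ ∑ a ∈ range N', (φ (a + m') a + ((k : ℝ) + 1) * e) + k * (((m' : ℝ) - m) * (Kc * m + e)) := by
        gcongr with a ha
        exact h2 a ha
    _ = _ := by
        rw [sum_add_distrib, e1]
        simp
        ring

/-- the arithmetic behind the almost monotonicity -/
theorem lts_real (Kc e L Λ m m' k x y : ℝ) (hK : 1 ≤ Kc) (he0 : 0 < e) (he1 : e ≤ 1) (hL : 1 ≤ L) (hΛ : 1 ≤ Λ) (hm : 1 ≤ m)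
    (hmm : Λ * m ≤ m') (hm'L : m' ≤ e * L) (hk0 : 0 ≤ k) (hk1 : k * m ≤ m') (hk2 : m' ≤ (k + 1) * m)
    (hx0 : 0 ≤ x) (hx : x ≤ (L + 1) * (Kc * m + e))
    (h : k * x ≤ y + k * ((m' - m) * (Kc * m + e)) + (L + 1) * ((k + 1) * e)) :
    x / m ≤ y / m' + (2 * Kc * e + 4 * e + 4 * Kc / Λ) * L := by
  have hm0 : 0 < m := by linarith
  have hΛ0 : 0 < Λ := by linarith
  have hm'1 : 1 ≤ m' := by nlinarith
  have hm'0 : 0 < m' := by linarith
  have hkm' : k ≤ m' := le_trans (by nlinarith) hk1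
  have hB0 : 0 ≤ Kc * m + e := by positivity
  -- `k B ≤ 2 Kc m'`
  have hkB : k * (Kc * m + e) ≤ 2 * Kc * m' := by
    have h1 : k * (Kc * m) ≤ Kc * m' := by
      calc k * (Kc * m) = Kc * (k * m) := by ring
        _ ≤ Kc * m' := by gcongr
    have h2 : k * e ≤ Kc * m' := by
      calc k * e ≤ m' * 1 := by gcongr
        _ ≤ Kc * m' := by nlinarith
    linarith [mul_add k (Kc * m) e]
  have hT1 : k * ((m' - m) * (Kc * m + e)) ≤ (2 * Kc * e * L) * m' := by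
    calc k * ((m' - m) * (Kc * m + e)) = (m' - m) * (k * (Kc * m + e)) := by ring
      _ ≤ m' * (k * (Kc * m + e)) := by
          refine mul_le_mul_of_nonneg_right (by linarith) (by positivity)
      _ ≤ m' * (2 * Kc * m') := by gcongr
      _ ≤ m' * (2 * Kc * (e * L)) := by gcongr
      _ = _ := by ring
  have hT2 : (L + 1) * ((k + 1) * e) ≤ (4 * e * L) * m' := by
    calc (L + 1) * ((k + 1) * e) ≤ (2 * L) * ((2 * m') * e) := by
          gcongr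
          · linarith
          · linarith
      _ = _ := by ring
  have hT3 : x ≤ (4 * Kc / Λ * L) * m' := by
    have h1 : Kc * m + e ≤ 2 * Kc * m := by nlinarith
    have h2 : m ≤ m' / Λ := by
      rw [le_div_iff₀ hΛ0]
      linarith
    calc x ≤ (L + 1) * (Kc * m + e) := hx
      _ ≤ (2 * L) * (2 * Kc * m) := by
          gcongr
          linarith
      _ ≤ (2 * L) * (2 * Kc * (m' / Λ)) := by gcongr
      _ = _ := by ring
  have hmain : x * m' ≤ (y + (2 * Kc * e + 4 * e + 4 * Kc / Λ) * L * m') * m := by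
    calc x * m' ≤ x * ((k + 1) * m) := by gcongr
      _ = (k * x + x) * m := by ring
      _ ≤ (y + (2 * Kc * e * L) * m' + (4 * e * L) * m' + (4 * Kc / Λ * L) * m') * m := by
          gcongr
          linarith
      _ = _ := by ring
  rw [div_le_iff₀ hm0]
  have h3 : (y / m' + (2 * Kc * e + 4 * e + 4 * Kc / Λ) * L) * m = (y + (2 * Kc * e + 4 * e + 4 * Kc / Λ) * L * m') * m / m' := by
    field_simp
  rw [h3, le_div_iff₀ hm'0]
  exact hmain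

/-- the window lemma on one range -/
theorem lts_window (g ε' e : ℝ) (hg : 0 < g) (hε : 0 < ε') (he1 : e ≤ 1) (a : ℕ) (Mf : ℕ → ℝ)
    (hM : ∀ k, k ≤ 2 * (a + ⌈((a : ℝ) + 2) / ε'⌉₊) → g * k - e ≤ Mf k ∧ Mf k ≤ k + e) :
    ∃ m, a ≤ m ∧ 2 * m ≤ 2 * (a + ⌈((a : ℝ) + 2) / ε'⌉₊) ∧ ∀ k, k ≤ m → (g - ε') * k ≤ Mf (m + k) - Mf m := by
  obtain ⟨c, hc⟩ : ∃ c : ℕ, c = ⌈((a : ℝ) + 2) / ε'⌉₊ := ⟨_, rfl⟩
  rw [← hc] at hM ⊢
  have hc' : ((a : ℝ) + 2) / ε' ≤ c := by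
    rw [hc]
    exact Nat.le_ceil _
  obtain ⟨m, hm, hmin⟩ := exists_min_image (Icc a (2 * (a + c))) (fun k => Mf k - (g - ε') * k) ⟨a, mem_Icc.2 ⟨le_rfl, by omega⟩⟩
  rw [mem_Icc] at hm
  have h1 := hmin a (mem_Icc.2 ⟨le_rfl, by omega⟩)
  have h2 := (hM m hm.2).1
  have h3 := (hM a (by omega)).2
  have hmc : m ≤ a + c := by
    have h4 : ε' * m ≤ ε' * ((a : ℝ) + c) := by
      have h5 : (a : ℝ) + 2 ≤ c * ε' := by rwa [div_le_iff₀ hε] at hc'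
      have h6 : 0 ≤ g * (a : ℝ) := by positivity
      nlinarith
    have h7 : (m : ℝ) ≤ (a : ℝ) + c := le_of_mul_le_mul_left h4 hε
    exact_mod_cast h7
  refine ⟨m, hm.1, by omega, fun k hk => ?_⟩
  have h8 := hmin (m + k) (mem_Icc.2 ⟨by omega, by omega⟩)
  push_cast at h8
  linarith

/-- upper end of the range starting at `a` -/
noncomputable def ltsB (ε' : ℝ) (a : ℕ) : ℕ := 2 * (a + ⌈((a : ℝ) + 2) / ε'⌉₊)

/-- lower ends of the ranges -/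
noncomputable def ltsA (ε' : ℝ) (Λ m₀ : ℕ) : ℕ → ℕ
  | 0 => m₀
  | i + 1 => Λ * ltsB ε' (ltsA ε' Λ m₀ i)

theorem ltsB_mono (ε' : ℝ) (hε : 0 < ε') : Monotone (ltsB ε') := by
  intro a a' h
  unfold ltsB
  have h1 : ((a : ℝ) + 2) / ε' ≤ ((a' : ℝ) + 2) / ε' := by
    have : (a : ℝ) ≤ a' := by exact_mod_cast h
    gcongr
  have h2 := Nat.ceil_mono h1
  omega

theorem ltsB_ge (ε' : ℝ) (a : ℕ) : a ≤ ltsB ε' a := by
  unfold ltsB
  omega

theorem ltsA_mono (ε' : ℝ) (Λ m₀ : ℕ) (hΛ : 1 ≤ Λ) : Monotone (ltsA ε' Λ m₀) := by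
  refine monotone_nat_of_le_succ fun i => ?_
  show ltsA ε' Λ m₀ i ≤ Λ * ltsB ε' (ltsA ε' Λ m₀ i)
  calc ltsA ε' Λ m₀ i ≤ ltsB ε' (ltsA ε' Λ m₀ i) := ltsB_ge _ _
    _ = 1 * ltsB ε' (ltsA ε' Λ m₀ i) := (one_mul _).symm
    _ ≤ _ := Nat.mul_le_mul_right _ hΛ

/-- a scale all of whose offsets are bad increases `F m / m` -/
theorem lts_step {φ : ℕ → ℕ → ℝ} {L : ℕ} {Kc e : ℝ}
    (hb : ∀ a b, a ≤ b → b ≤ L → 0 ≤ φ b a ∧ φ b a ≤ Kc * ((b : ℝ) - a) + e) (η : ℝ) (m : ℕ) (hm : 0 < m) (h2m : 2 * m ≤ L)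
    (hbad : ∀ j < m, η * L < ∑ a ∈ (range (L + 1 - 2 * m)).filter (fun a => a % m = j), ltsDef φ m a) :
    ltsF φ L m / m + η * L / 2 - (Kc * m + e) ≤ ltsF φ L (2 * m) / ((2 * m : ℕ) : ℝ) := by
  have h1 : ∑ j ∈ range m, ∑ a ∈ (range (L + 1 - 2 * m)).filter (fun a => a % m = j), ltsDef φ m a
      = ∑ a ∈ range (L + 1 - 2 * m), ltsDef φ m a :=
    sum_fiberwise_of_maps_to (fun a _ => mem_range.2 (Nat.mod_lt _ hm)) _
  have h2 : (m : ℝ) * (η * L) ≤ ∑ j ∈ range m, ∑ a ∈ (range (L + 1 - 2 * m)).filter (fun a => a % m = j), ltsDef φ m a := by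
    calc (m : ℝ) * (η * L) = ∑ _j ∈ range m, η * L := by rw [sum_const, card_range, nsmul_eq_mul]
      _ ≤ _ := sum_le_sum fun j hj => (hbad j (mem_range.1 hj)).le
  have h3 := lts_defect_sum hb m (L + 1 - 2 * m) (by omega)
  have hm' : (0 : ℝ) < m := by exact_mod_cast hm
  rw [le_div_iff₀ (by positivity)]
  have h4 : (ltsF φ L m / m + η * L / 2 - (Kc * m + e)) * ((2 * m : ℕ) : ℝ)
      = 2 * ltsF φ L m + m * (η * L) - 2 * (m * (Kc * m + e)) := by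
    push_cast
    field_simp
  rw [h4]
  linarith

theorem lts_core (g ε' η Kc : ℝ) (hg : 0 < g) (hε : 0 < ε') (hη : 0 < η) (hK : 1 ≤ Kc) (m₀ : ℕ) (hm₀ : 0 < m₀) :
    ∃ m₁ : ℕ, m₀ ≤ m₁ ∧ ∃ e : ℝ, 0 < e ∧ ∀ (L : ℕ) (φ : ℕ → ℕ → ℝ) (Mf : ℕ → ℝ),
      (m₁ : ℝ) ≤ e * L →
      (∀ a b, a ≤ b → b ≤ L → 0 ≤ φ b a ∧ φ b a ≤ Kc * ((b : ℝ) - a) + e) →
      (∀ a b c, a ≤ b → b ≤ c → c ≤ L → φ b a + φ c b ≤ φ c a + e) →
      (∀ k, k ≤ 2 * m₁ → g * k - e ≤ Mf k ∧ Mf k ≤ k + e) →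
      ∃ m j : ℕ, m₀ ≤ m ∧ m ≤ m₁ ∧ 2 * m ≤ L ∧ j < m ∧
        (∀ k, k ≤ m → (g - ε') * k ≤ Mf (m + k) - Mf m) ∧
        ∑ a ∈ (range (L + 1 - 2 * m)).filter (fun a => a % m = j), ltsDef φ m a ≤ η * L := by
  have hK0 : 0 < Kc := by linarith
  obtain ⟨Λ, hΛ⟩ : ∃ Λ : ℕ, Λ = ⌈32 * Kc / η⌉₊ := ⟨_, rfl⟩
  obtain ⟨I, hI⟩ : ∃ I : ℕ, I = ⌈16 * Kc / η⌉₊ + 1 := ⟨_, rfl⟩
  have hΛ1 : 32 * Kc / η ≤ Λ := by
    rw [hΛ]
    exact Nat.le_ceil _
  have hΛ2 : 1 ≤ Λ := by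
    rw [hΛ]
    exact Nat.ceil_pos.2 (by positivity)
  have hI1 : 16 * Kc / η < I := by
    rw [hI]
    push_cast
    linarith [Nat.le_ceil (16 * Kc / η)]
  obtain ⟨A, hA⟩ : ∃ A : ℕ → ℕ, A = ltsA ε' Λ m₀ := ⟨_, rfl⟩
  have hA0 : A 0 = m₀ := by rw [hA]; rfl
  have hAs : ∀ i, A (i + 1) = Λ * ltsB ε' (A i) := fun i => by rw [hA]; rfl
  have hAm : Monotone A := by rw [hA]; exact ltsA_mono ε' Λ m₀ hΛ2
  obtain ⟨e, he⟩ : ∃ e : ℝ, e = min 1 (η / (64 * Kc)) := ⟨_, rfl⟩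
  have he0 : 0 < e := by rw [he]; positivity
  have he1 : e ≤ 1 := by rw [he]; exact min_le_left _ _
  have he2 : e ≤ η / (64 * Kc) := by rw [he]; exact min_le_right _ _
  have hm₀A : ∀ i, m₀ ≤ A i := fun i => hA0 ▸ hAm (Nat.zero_le i)
  refine ⟨ltsB ε' (A I), (hm₀A I).trans (ltsB_ge _ _), e, he0, fun L φ Mf hL hb hs hM => ?_⟩
  obtain ⟨m₁, hm₁⟩ : ∃ m₁ : ℕ, m₁ = ltsB ε' (A I) := ⟨_, rfl⟩
  rw [← hm₁] at hL hM ⊢
  have hBI : ∀ i, i ≤ I → ltsB ε' (A i) ≤ m₁ := fun i hi => hm₁ ▸ ltsB_mono ε' hε (hAm hi)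
  have hm₁1 : (1 : ℝ) ≤ m₁ := by
    have : 1 ≤ m₁ := le_trans hm₀ ((hm₀A I).trans (hm₁ ▸ ltsB_ge _ _))
    exact_mod_cast this
  have hL0 : (0 : ℝ) ≤ L := Nat.cast_nonneg _
  have heL : e * L ≤ L := by nlinarith
  have hL1 : (1 : ℝ) ≤ L := by linarith
  have hm₁L : m₁ ≤ L := by
    have : (m₁ : ℝ) ≤ L := hL.trans heL
    exact_mod_cast this
  have hw : ∀ i, i ≤ I → ∃ m, A i ≤ m ∧ 2 * m ≤ ltsB ε' (A i) ∧ ∀ k, k ≤ m → (g - ε') * k ≤ Mf (m + k) - Mf m := fun i hi =>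
    lts_window g ε' e hg hε he1 (A i) Mf (fun k hk => hM k (by
      have h1 := hBI i hi
      unfold ltsB at h1
      omega))
  choose! mi hmi1 hmi2 hmi3 using hw
  by_contra hcon
  have hbad : ∀ i, i ≤ I → ∀ j < mi i, η * L < ∑ a ∈ (range (L + 1 - 2 * mi i)).filter (fun a => a % mi i = j), ltsDef φ (mi i) a := by
    intro i hi j hj
    by_contra hle
    have h1 := hmi2 i hi
    have h2 := hBI i hi
    exact hcon ⟨mi i, j, (hm₀A i).trans (hmi1 i hi), by omega, by omega, hj, hmi3 i hi, not_lt.1 hle⟩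
  have hE : Kc * e + e + (2 * Kc * e + 4 * e + 4 * Kc / Λ) ≤ η / 4 := by
    have h1 : Kc * e ≤ η / 64 := by
      calc Kc * e ≤ Kc * (η / (64 * Kc)) := by gcongr
        _ = η / 64 := by field_simp
    have h2 : e ≤ Kc * e := by nlinarith
    have h3 : 4 * Kc / Λ ≤ η / 8 := by
      have hΛ0 : (0 : ℝ) < Λ := by exact_mod_cast hΛ2
      rw [div_le_iff₀ hΛ0]
      rw [div_le_iff₀ hη] at hΛ1
      linarith
    linarith
  have key : ∀ i, i ≤ I → i * (η * L / 4) ≤ ltsF φ L (mi i) / (mi i) := by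
    intro i
    induction i with
    | zero =>
      intro _
      simpa using div_nonneg (ltsF_nonneg hb (mi 0)) (Nat.cast_nonneg _)
    | succ i ih =>
      intro hi
      have h1 := ih (by omega)
      have hpos : 0 < mi i := lt_of_lt_of_le hm₀ ((hm₀A i).trans (hmi1 i (by omega)))
      have ha := hmi2 i (by omega)
      have hb' := hBI i (by omega)
      have h2 := lts_step hb η (mi i) hpos (by omega) (hbad i (by omega))
      have hc := hmi1 (i + 1) hi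
      have hd := hmi2 (i + 1) hi
      have hd' := hBI (i + 1) hi
      have hΛm : Λ * (2 * mi i) ≤ mi (i + 1) := by
        calc Λ * (2 * mi i) ≤ Λ * ltsB ε' (A i) := Nat.mul_le_mul_left _ ha
          _ = A (i + 1) := (hAs i).symm
          _ ≤ _ := hc
      obtain ⟨k, hk⟩ : ∃ k : ℕ, k = mi (i + 1) / (2 * mi i) := ⟨_, rfl⟩
      have hk1 : k * (2 * mi i) ≤ mi (i + 1) := by
        rw [hk]
        exact Nat.div_mul_le_self _ _
      have hk2 : mi (i + 1) ≤ (k + 1) * (2 * mi i) := by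
        rw [hk]
        have h5 := Nat.div_add_mod (mi (i + 1)) (2 * mi i)
        have h6 := Nat.mod_lt (mi (i + 1)) (show 0 < 2 * mi i by omega)
        rw [Nat.succ_mul, mul_comm]
        omega
      have h3 := lts_mono hb hs (2 * mi i) (mi (i + 1)) k (L + 1 - mi (i + 1)) hk1 (by omega)
      have hN' : ((L + 1 - mi (i + 1) : ℕ) : ℝ) ≤ (L : ℝ) + 1 := by
        have : L + 1 - mi (i + 1) ≤ L + 1 := Nat.sub_le _ _
        exact_mod_cast this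
      have h4 := lts_real Kc e L Λ ((2 * mi i : ℕ) : ℝ) (mi (i + 1)) k (ltsF φ L (2 * mi i)) (ltsF φ L (mi (i + 1))) hK he0 he1 hL1
        (by exact_mod_cast hΛ2) (by exact_mod_cast (show 1 ≤ 2 * mi i by omega)) (by exact_mod_cast hΛm)
        (le_trans (by exact_mod_cast (show mi (i + 1) ≤ m₁ by omega)) hL) (Nat.cast_nonneg _) (by exact_mod_cast hk1) (by exact_mod_cast hk2)
        (ltsF_nonneg hb _) (ltsF_le hb _ (by positivity))
        (h3.trans (by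
          have : 0 ≤ ((k : ℝ) + 1) * e := by positivity
          gcongr))
      have h5 : Kc * (mi i) + e ≤ (Kc * e + e) * L := by
        have h6 : (mi i : ℝ) ≤ e * L := le_trans (by exact_mod_cast (show mi i ≤ m₁ by omega)) hL
        have h7 : e ≤ e * L := by nlinarith
        calc Kc * (mi i) + e ≤ Kc * (e * L) + e * L := by gcongr
          _ = _ := by ring
      have h8 : (Kc * e + e + (2 * Kc * e + 4 * e + 4 * Kc / Λ)) * L ≤ η / 4 * L := by gcongr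
      push_cast at h1 h2 h4 ⊢
      linarith
  have h1 := key I le_rfl
  have hpos : 0 < mi I := lt_of_lt_of_le hm₀ ((hm₀A I).trans (hmi1 I le_rfl))
  have hposR : (1 : ℝ) ≤ mi I := by exact_mod_cast hpos
  have h2 : ltsF φ L (mi I) / (mi I) ≤ 4 * Kc * L := by
    rw [div_le_iff₀ (by linarith)]
    refine (ltsF_le hb _ (by positivity)).trans ?_
    have h3 : Kc * (mi I) + e ≤ 2 * Kc * (mi I) := by nlinarith
    calc ((L : ℝ) + 1) * (Kc * (mi I) + e) ≤ (2 * L) * (2 * Kc * (mi I)) := by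
          gcongr
          linarith
      _ = _ := by ring
  have h3 : 4 * Kc < I * (η / 4) := by
    rw [div_lt_iff₀ hη] at hI1
    linarith
  have h4 : 4 * Kc * L < I * (η / 4) * L := by
    have : (0 : ℝ) < L := by linarith
    gcongr
  linarith

/-- LEAF S. -/
theorem lts_scale (g ε' η Kc : ℝ) (hg : 0 < g) (hg1 : g ≤ 1) (hε : 0 < ε') (hη : 0 < η) (hK : 1 ≤ Kc) (m₀ : ℕ) (hm₀ : 0 < m₀) :
    ∃ m₁ : ℕ, m₀ ≤ m₁ ∧ ∃ e : ℝ, 0 < e ∧ ∀ (n₀ n₁ : ℕ) (φ : ℕ → ℕ → ℝ) (Mf : ℕ → ℝ), n₀ ≤ n₁ →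
      (m₁ : ℝ) ≤ e * ((n₁ : ℝ) - n₀) →
      (∀ a b, n₀ ≤ a → a ≤ b → b ≤ n₁ → 0 ≤ φ b a ∧ φ b a ≤ Kc * ((b : ℝ) - a) + e) →
      (∀ a b c, n₀ ≤ a → a ≤ b → b ≤ c → c ≤ n₁ → φ b a + φ c b ≤ φ c a + e) →
      (∀ k, k ≤ 2 * m₁ → g * k - e ≤ Mf k ∧ Mf k ≤ k + e) →
      ∃ m j : ℕ, m₀ ≤ m ∧ m ≤ m₁ ∧ j < m ∧
        (∀ k, k ≤ m → (g - ε') * k ≤ Mf (m + k) - Mf m) ∧
        ∑ i ∈ (range (n₁ + 1)).filter (fun i => n₀ + j + (i + 2) * m ≤ n₁), ltsDef φ m (n₀ + j + i * m) ≤ η * ((n₁ : ℝ) - n₀) := by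
  obtain ⟨m₁, hm₁, e, he, H⟩ := lts_core g ε' η Kc hg hε hη hK m₀ hm₀
  refine ⟨m₁, hm₁, e, he, fun n₀ n₁ φ Mf hn hL hb hs hM => ?_⟩
  obtain ⟨L, rfl⟩ : ∃ L, n₁ = n₀ + L := ⟨n₁ - n₀, by omega⟩
  have hLc : ((n₀ + L : ℕ) : ℝ) - n₀ = L := by
    push_cast
    ring
  rw [hLc] at hL ⊢
  obtain ⟨m, j, h1, h2, h3, h4, h5, h6⟩ := H L (fun b a => φ (n₀ + b) (n₀ + a)) Mf hL
    (fun a b hab hbL => by
      have h := hb (n₀ + a) (n₀ + b) (by omega) (by omega) (by omega)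
      refine ⟨h.1, h.2.trans (le_of_eq ?_)⟩
      push_cast
      ring)
    (fun a b c hab hbc hcL => hs (n₀ + a) (n₀ + b) (n₀ + c) (by omega) (by omega) (by omega) (by omega)) hM
  have hm0 : 0 < m := lt_of_lt_of_le hm₀ h1
  refine ⟨m, j, h1, h2, h4, h5, le_trans (le_of_eq ?_) h6⟩
  refine sum_nbij' (fun i => j + i * m) (fun a => a / m) ?_ ?_ ?_ ?_ ?_
  · intro i hi
    rw [mem_filter, mem_range] at hi
    rw [mem_filter, mem_range]
    have h7 : (i + 2) * m = i * m + 2 * m := by ring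
    refine ⟨by omega, ?_⟩
    rw [Nat.add_mul_mod_self_right, Nat.mod_eq_of_lt h4]
  · intro a ha
    rw [mem_filter, mem_range] at ha
    rw [mem_filter, mem_range]
    have h7 : (a / m + 2) * m = m * (a / m) + 2 * m := by ring
    have h8 := Nat.mod_add_div a m
    have h9 : a / m ≤ a := Nat.div_le_self _ _
    refine ⟨by omega, by omega⟩
  · intro i _
    show (j + i * m) / m = i
    rw [Nat.add_mul_div_right _ _ hm0, Nat.div_eq_of_lt h4, zero_add]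
  · intro a ha
    rw [mem_filter, mem_range] at ha
    show j + a / m * m = a
    have h8 := Nat.mod_add_div a m
    rw [mul_comm]
    omega
  · intro i _
    simp only [ltsDef, add_assoc]

end Claimed.Agent.R256
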