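import Claimed.Agent.R256.LT.Glue
import Claimed.Agent.R256.LT.Scale
import Claimed.Agent.R256.LT.Geo
import Claimed.Agent.R256.LT.LayerB1
import Claimed.Agent.R256.LT.LayerB2

/-!
# Row 256, unit LT, file 10: ASSEMBLY of Lemma act:line-test      (architect helper46)

EXIT:  `lt_main`  (finite form of 06 l.28-306; consumers: act:stationary-boundary, act:strict-boundary).

## `ltm_core` : the sum over the layers, for a FIXED scale `z = m/ns` and start `a₀`   (`q i = ltq ns a₀ m i`, `ℓ = log 1/δ`)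
 Let `i₁ = ⌊(ns - a₀)/m⌋` (`q i₁ ≤ 1 < q (i₁+1)`), `nL = ⌊(2ns - a₀)/m⌋` (`q nL ≤ 2 < q nL + z`), `nD = nL - 1` double layers `[q i, q (i+2)]`.
 1. `lts_chain` (start `a₀+(i₁+1)m`, `n = nL-i₁-1`), `ltl_root`, `ltl_out`:
      `H(O|C) ≥ H(θ_1|Zs) + H(F_1|C) - H(X_1|C) + ∑_{i₁<i<nL} φx(q(i+1), q i) - (2 + 6 nL) er`.
 2. `lts_phase`, `ltl_mode` (`i < i₁`):  `H(F_1|C) ≥ ∑_{i<i₁} [φx(q(i+1),q i) + Yt i + Lt i + H(X|A_1) + H(X|A_0) - 10 er]`.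
 3. `lts_ang` twice, `ltm_roots`:  `∑ H(X|A_1) + ∑ H(X|A_0) - H(X_1|C) ≥ H(X_1|C) - 22 ε ℓ ≥ (g - 2τ - 22ε) ℓ`      (`q 0 ≤ ε+2z`, `1 - q i₁ < z`, `8z ≤ ε`).
 4. `ltl_res`, `lts_time`:  `∑_{i<i₁} Lt i ≥ (d - 11 ε) ℓ - 5 i₁ er`.
 5. `ltm_cnt` with `X i = φx(q(i+2), q(i+1))`, `D i = Dx i`, `c₀ = χ ℓ` (`ltm_phi`), budgets `lts_bud1`, `lts_bud2`, `R = G₁ z ℓ`, `e = 3 er`, `I = {i < nD, i ≠ i₁-1}`:
      `(card I) z ≥ 2 - 3ε`;   losses `≤ 0.9 η₁ ℓ`  (`54ε/κ + 900ε/κ² + (2/κ + 1)(η₂ + 2 nD χ)`, `nD χ ≤ κ²/500`).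
 6. the same with `X i = Yt (i+1)`, `D i = Dxy i`, `e = 4 er` (`ltp_d2`), `R = G₂ z ℓ`, `I = {i < i₁ - 1}`, `(card I) z ≥ 1 - 2ε`.
 7. all `er`: at most `28 (2/z + 1)` of them, `er ≤ 0.055 κ² z ℓ`: `≤ 3.3 κ² ℓ ≤ 3.3 η₁ ℓ`.      Total error `< 10 η₁ ℓ`.

## `lt_main` : choice of the parameters
 `η₁ = min(η/20, 1, d)` (so `G₁, G₂ ≥ 0`), `ε' = min(η₁, g/2)`, `g' = g - ε'`;  `(κx,ρx)`, `(κy,ρy)` from `ltp_x d η₁`, `ltp_y d g' η₁`;  `κ = min κx κy η₁`;  `ε = η₁κ²/2000`;  `η₂ = η₁κ/8`;  `m₀ = ⌈10/κ⌉+1`;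
 `(m₁,e)` from `lts_scale g ε' (η₂/2) 3 m₀`;  `ns ≥ 8m₁/ε, m₁/e`;  `z₀ = m₀/ns`;  `χ = min(κ²z₀/1000, e/(2ns), ε/100)`;  `ζ = κ²z₀/2000`;  `τ = min(τ₀(ltl_sep d g χ ζ), χ/100)`;
 `Q = {k/ns : k ≤ 3ns} ∪ {χ}`;  `δ₀` : `ltl_sep`, `δ^(-τ) ≥ 1000`, `δ^(κz₀/100) ≤ κ/100`, `κ² z₀ ℓ ≥ 1000`, `δ^z₀ < ρx, ρy`.
 Then `n₀ = ⌈ε ns⌉`, `n₁ = 2ns`, `φ b a = (φx + φxy)(b/ns, a/ns) ns/ℓ`, `Mf k = ns M(k/ns)` (`ltm_phi`, `ltm_roots`, `mem`) in `lts_scale` give `m, j`;  `a₀ = n₀+j`;  `ltm_core` with `G₁ = min 1 (d+d) - η₁`, `G₂ = min 1 (d+g') - η₁`.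
-/

set_option autoImplicit false

namespace Claimed.Agent.R256

open scoped BigOperators
open Classical Finset
open Claimed.Agent.R255
open Claimed.Agent.R255.FLaw

variable {Ω : Type} [Fintype Ω] {T : LtData Ω}

/-- the representative of a cell is within `1` of the point -/
theorem ltm_aux_trep_abs (δ p v : ℝ) : |trep δ p v| ≤ |v| + 1 := by
  have hpow : (0 : ℝ) < 2 ^ (tlev δ p) := by positivity
  have hone : (1 : ℝ) ≤ 2 ^ (tlev δ p) := one_le_pow₀ (by norm_num)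
  have h1 := Int.floor_le (v * 2 ^ (tlev δ p))
  have h2 := Int.lt_floor_add_one (v * 2 ^ (tlev δ p))
  have e : trep δ p v = (⌊v * 2 ^ (tlev δ p)⌋ : ℝ) / 2 ^ (tlev δ p) := rfl
  have a1 : 0 ≤ (v + |v|) * 2 ^ (tlev δ p) := mul_nonneg (by linarith [neg_abs_le v]) hpow.le
  have a2 : 0 ≤ (|v| - v) * 2 ^ (tlev δ p) := mul_nonneg (by linarith [le_abs_self v]) hpow.le
  rw [e, abs_le]
  constructor
  · rw [le_div_iff₀ hpow]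
    have e2 : -(|v| + 1) * 2 ^ (tlev δ p) = v * 2 ^ (tlev δ p) - (v + |v|) * 2 ^ (tlev δ p) - 2 ^ (tlev δ p) := by ring
    rw [e2]
    linarith
  · rw [div_le_iff₀ hpow]
    have e2 : (|v| + 1) * 2 ^ (tlev δ p) = v * 2 ^ (tlev δ p) + (|v| - v) * 2 ^ (tlev δ p) + 2 ^ (tlev δ p) := by ring
    rw [e2]
    linarith

theorem ltm_aux_trep_eq {δ p v v' : ℝ} (h : tcell δ p v = tcell δ p v') : trep δ p v = trep δ p v' := by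
  show (tcell δ p v : ℝ) / 2 ^ (tlev δ p) = (tcell δ p v' : ℝ) / 2 ^ (tlev δ p)
  rw [h]

/-- two points of one cell -/
theorem ltm_aux_cell_close {δ p v v' : ℝ} (h : tcell δ p v = tcell δ p v') : |v - v'| ≤ (2 ^ (tlev δ p))⁻¹ := by
  have hpow : (0 : ℝ) < 2 ^ (tlev δ p) := by positivity
  have hc : ⌊v * (2 : ℝ) ^ (tlev δ p)⌋ = ⌊v' * (2 : ℝ) ^ (tlev δ p)⌋ := h
  have h2 := Int.abs_sub_lt_one_of_floor_eq_floor hc
  rw [← sub_mul, abs_mul, abs_of_pos hpow] at h2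
  rw [← one_div, le_div_iff₀ hpow]
  exact h2.le

/-- ratio of the sizes of the cells of two depths -/
theorem ltm_aux_ratio {δ a b : ℝ} (h0 : 0 < δ) (h1 : δ < 1) (hb : 0 ≤ b) :
    (2 ^ (tlev δ a) : ℝ)⁻¹ * 2 ^ (tlev δ b) ≤ 2 * δ ^ (-(b - a)) := by
  have a1 : (2 : ℝ) ^ (tlev δ b) ≤ 2 * δ ^ (-b) := lts_aux_pow_le h0 h1 hb
  have a2 : δ ^ (-a) ≤ (2 : ℝ) ^ (tlev δ a) := lts_aux_le_pow a h0
  have a3 : (2 ^ (tlev δ a) : ℝ)⁻¹ ≤ δ ^ a := by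
    have : (δ ^ (-a))⁻¹ = δ ^ a := by rw [Real.rpow_neg h0.le, inv_inv]
    rw [← this]
    exact inv_anti₀ (by positivity) a2
  have a4 : (2 ^ (tlev δ a) : ℝ)⁻¹ * 2 ^ (tlev δ b) ≤ δ ^ a * (2 * δ ^ (-b)) :=
    mul_le_mul a3 a1 (by positivity) (by positivity)
  have e1 : δ ^ a * (2 * δ ^ (-b)) = 2 * δ ^ (-(b - a)) := by
    have : δ ^ (-(b - a)) = δ ^ a * δ ^ (-b) := by
      rw [← Real.rpow_add h0]
      congr 1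
      ring
    rw [this]
    ring
  linarith

/-- capacity of a real label which the conditioning fixes up to `270 K³` cells of depth `a` -/
theorem ltm_aux_read {Ω' : Type} [Fintype Ω'] {β : Type} (P : FLaw Ω') {δ τ a b : ℝ} (h0 : 0 < δ) (h1 : δ < 1)
    (hbig : 1000 ≤ δ ^ (-τ)) (hb : 0 ≤ b) (hab : a ≤ b) (v : Ω' → ℝ) (Y : Ω' → β)
    (h : ∀ ω ω', P.p ω ≠ 0 → P.p ω' ≠ 0 → Y ω = Y ω' → |v ω - v ω'| ≤ 270 * (δ ^ (-τ)) ^ 3 * (2 ^ (tlev δ a))⁻¹) :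
    P.entC (fun ω => tcell δ b (v ω)) Y ≤ (b - a + 4 * τ) * lg δ := by
  have hx0 : 0 < δ ^ (-τ) := by positivity
  have hR : (0 : ℝ) ≤ 270 * (δ ^ (-τ)) ^ 3 * (2 ^ (tlev δ a))⁻¹ := by positivity
  have hN := ltk_nval_close P (fun _ => True) Y v (tlev δ b) hR (fun ω ω' p p' _ _ e => h ω ω' p p' e)
  have h2 : P.entC (fun ω => tcell δ b (v ω)) Y ≤
      Real.log (270 * (δ ^ (-τ)) ^ 3 * (2 ^ (tlev δ a))⁻¹ * 2 ^ (tlev δ b) + 2) := ent_entC_le_log_nval P _ _ hN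
  have h3 : 270 * (δ ^ (-τ)) ^ 3 * (2 ^ (tlev δ a))⁻¹ * 2 ^ (tlev δ b) + 2 ≤ δ ^ (-(b - a + 4 * τ)) := by
    have r1 := ltm_aux_ratio (a := a) h0 h1 hb
    have y1 : 1 ≤ δ ^ (-(b - a)) := Real.one_le_rpow_of_pos_of_le_one_of_nonpos h0 h1.le (by linarith)
    have e2 : δ ^ (-(b - a + 4 * τ)) = δ ^ (-τ) * ((δ ^ (-τ)) ^ 3 * δ ^ (-(b - a))) := by
      have : (δ ^ (-τ)) ^ 3 = δ ^ (-τ) * δ ^ (-τ) * δ ^ (-τ) := by ring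
      rw [this, ← Real.rpow_add h0, ← Real.rpow_add h0, ← Real.rpow_add h0, ← Real.rpow_add h0]
      congr 1
      ring
    have x3 : 1 ≤ (δ ^ (-τ)) ^ 3 := one_le_pow₀ (by linarith)
    have w1 : 1 ≤ (δ ^ (-τ)) ^ 3 * δ ^ (-(b - a)) := by nlinarith
    have w2 : 270 * (δ ^ (-τ)) ^ 3 * (2 ^ (tlev δ a))⁻¹ * 2 ^ (tlev δ b) ≤ 270 * (δ ^ (-τ)) ^ 3 * (2 * δ ^ (-(b - a))) := by
      rw [mul_assoc (270 * (δ ^ (-τ)) ^ 3)]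
      exact mul_le_mul_of_nonneg_left r1 (by positivity)
    have w3 : 1000 * ((δ ^ (-τ)) ^ 3 * δ ^ (-(b - a))) ≤ δ ^ (-τ) * ((δ ^ (-τ)) ^ 3 * δ ^ (-(b - a))) :=
      mul_le_mul_of_nonneg_right hbig (by positivity)
    rw [e2]
    linarith
  have h4 : Real.log (270 * (δ ^ (-τ)) ^ 3 * (2 ^ (tlev δ a))⁻¹ * 2 ^ (tlev δ b) + 2) ≤ Real.log (δ ^ (-(b - a + 4 * τ))) :=
    Real.log_le_log (by positivity) h3
  rw [lts_aux_log_rpow h0] at h4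
  linarith

/-- on a fibre of `E_a` the frozen coefficients are constant and the forms vary by at most `270 K³` cells of depth `a` -/
theorem ltm_aux_fib {d g τ χ ε ζ : ℝ} {Q : Finset ℝ} {M : ℝ → ℝ} {G : Ω → Prop} (H : T.Hyp d g τ χ ε Q M G) (S : T.Sm τ χ ε ζ)
    {a : ℝ} (ha : ε ≤ a) (x x' : Ω × Ω) (hx : T.P2.p x ≠ 0) (h : T.E ε a x = T.E ε a x') :
    |T.vx ε x - T.vx ε x'| ≤ 270 * (T.δ ^ (-τ)) ^ 3 * (2 ^ (tlev T.δ a))⁻¹ ∧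
      |T.vy ε x - T.vy ε x'| ≤ 270 * (T.δ ^ (-τ)) ^ 3 * (2 ^ (tlev T.δ a))⁻¹ := by
  have hδ0 := H.δpos
  have hδ1 := H.δlt
  have hbig := S.big
  have h' : (T.C x.1, T.Om ε x, T.Fb a x.1) = (T.C x'.1, T.Om ε x', T.Fb a x'.1) := h
  have hOm : (((tcell T.δ ε (T.β x.1), tcell T.δ ε (T.κ x.1)), (tcell T.δ ε (T.θ 0 x.1), tcell T.δ ε (T.r 0 x.1)),
      (tcell T.δ ε (T.θ 1 x.1), tcell T.δ ε (T.r 1 x.1))), tcell T.δ ε (T.gap x)) =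
      (((tcell T.δ ε (T.β x'.1), tcell T.δ ε (T.κ x'.1)), (tcell T.δ ε (T.θ 0 x'.1), tcell T.δ ε (T.r 0 x'.1)),
      (tcell T.δ ε (T.θ 1 x'.1), tcell T.δ ε (T.r 1 x'.1))), tcell T.δ ε (T.gap x')) := (Prod.mk.inj (Prod.mk.inj h').2).1
  have hF : (tcell T.δ a (T.F x.1).X, tcell T.δ a (T.F x.1).B, tcell T.δ a (T.F x.1).P, tcell T.δ a (T.F x.1).Y,
      tcell T.δ a (T.F x.1).N, tcell T.δ a (T.F x.1).D) =
      (tcell T.δ a (T.F x'.1).X, tcell T.δ a (T.F x'.1).B, tcell T.δ a (T.F x'.1).P, tcell T.δ a (T.F x'.1).Y,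
      tcell T.δ a (T.F x'.1).N, tcell T.δ a (T.F x'.1).D) := (Prod.mk.inj (Prod.mk.inj h').2).2
  simp only [Prod.mk.injEq] at hOm hF
  obtain ⟨⟨⟨o1, o2⟩, ⟨o3, _⟩, _, _⟩, o7⟩ := hOm
  obtain ⟨f1, f2, f3, f4, f5, f6⟩ := hF
  have hfrz : T.frz ε x = T.frz ε x' := by
    show (⟨trep T.δ ε (T.F x.1).X, trep T.δ ε (T.F x.1).P, trep T.δ ε (T.β x.1), trep T.δ ε (T.κ x.1),
      trep T.δ ε (T.θ 0 x.1), trep T.δ ε (T.gap x)⟩ : Frz) =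
      ⟨trep T.δ ε (T.F x'.1).X, trep T.δ ε (T.F x'.1).P, trep T.δ ε (T.β x'.1), trep T.δ ε (T.κ x'.1),
      trep T.δ ε (T.θ 0 x'.1), trep T.δ ε (T.gap x')⟩
    rw [ltm_aux_trep_eq (lts_aux_nested hδ0 hδ1 ha f1), ltm_aux_trep_eq (lts_aux_nested hδ0 hδ1 ha f3), ltm_aux_trep_eq o1,
      ltm_aux_trep_eq o2, ltm_aux_trep_eq o3, ltm_aux_trep_eq o7]
  have hnear : (T.F x'.1).Near (T.F x.1) (2 ^ (tlev T.δ a))⁻¹ :=
    ⟨ltm_aux_cell_close f1.symm, ltm_aux_cell_close f2.symm, ltm_aux_cell_close f3.symm, ltm_aux_cell_close f4.symm,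
      ltm_aux_cell_close f5.symm, ltm_aux_cell_close f6.symm⟩
  have hs := H.size x.1 (ltl_supp T x hx).1
  have hs2 := H.size x.2 (ltl_supp T x hx).2.1
  have hbd : (T.frz ε x).Bd (3 * T.δ ^ (-τ)) := by
    have b1 : |(T.F x.1).X| ≤ T.δ ^ (-τ) := hs.1.1
    have b2 : |(T.F x.1).P| ≤ T.δ ^ (-τ) := hs.1.2.2.1
    have b3 := hs.2.1
    have b4 := hs.2.2.1
    have b5 := (hs.2.2.2 0).1
    have b6 : |T.gap x| ≤ 2 * T.δ ^ (-τ) := by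
      have a2 : |(T.F x.2).X| ≤ T.δ ^ (-τ) := hs2.1.1
      have a3 : |(T.F x.1).X - (T.F x.2).X| ≤ |(T.F x.1).X| + |(T.F x.2).X| := abs_sub _ _
      show |(T.F x.1).X - (T.F x.2).X| ≤ 2 * T.δ ^ (-τ)
      linarith
    exact ⟨(ltm_aux_trep_abs _ _ _).trans (by linarith), (ltm_aux_trep_abs _ _ _).trans (by linarith),
      (ltm_aux_trep_abs _ _ _).trans (by linarith), (ltm_aux_trep_abs _ _ _).trans (by linarith),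
      (ltm_aux_trep_abs _ _ _).trans (by linarith), (ltm_aux_trep_abs _ _ _).trans (by linarith)⟩
  obtain ⟨_, _, _, _, _, _, l7, l8, _⟩ := ltg_lip (by linarith : (1 : ℝ) ≤ 3 * T.δ ^ (-τ)) hbd hnear
  have e : 10 * (3 * T.δ ^ (-τ)) ^ 3 * (2 ^ (tlev T.δ a))⁻¹ = 270 * (T.δ ^ (-τ)) ^ 3 * (2 ^ (tlev T.δ a))⁻¹ := by ring
  rw [e] at l7 l8
  constructor
  · show |(T.frz ε x).fx (T.F x.1) - (T.frz ε x').fx (T.F x'.1)| ≤ _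
    rw [← hfrz]
    exact l7
  · show |(T.frz ε x).fy (T.F x.1) - (T.frz ε x').fy (T.F x'.1)| ≤ _
    rw [← hfrz]
    exact l8

/-- superadditivity up to the ambiguity of the intermediate label -/
theorem ltm_aux_super {Ω' : Type} [Fintype Ω'] {α β : Type} (P : FLaw Ω') (Ub Uc : Ω' → α) (Ea Eb : Ω' → β)
    (hU : ∀ ω ω', Uc ω = Uc ω' → Ub ω = Ub ω') (hE : ∀ ω ω', Eb ω = Eb ω' → Ea ω = Ea ω') :
    P.entC Ub Ea + P.entC Uc Eb ≤ P.entC Uc Ea + P.entC Ub Eb := by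
  have e1 : P.entC Uc Ea = P.entC Ub Ea + P.entC Uc (pair Ub Ea) := by
    rw [← ent_entC_chain]
    exact ent_entC_congr _ _ _ _ _ (fun _ _ _ _ => Iff.rfl)
      (fun ω ω' _ _ _ => ⟨fun h => Prod.ext (hU ω ω' h) h, fun h => (Prod.mk.inj h).2⟩)
  have e2 : P.entC Uc (pair Ub Eb) ≤ P.entC Uc (pair Ub Ea) :=
    ent_entC_anti _ _ _ _ fun ω ω' _ _ h => Prod.ext (Prod.mk.inj h).1 (hE ω ω' (Prod.mk.inj h).2)
  have e3 := ent_miC_eq P Uc Ub Eb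
  have e4 := ent_miC_le_right P Uc Ub Eb
  linarith

/-- LEAF M1.  Capacities and superadditivity of the two families.  `E_a` fixes all frozen coefficients (`a ≥ ε`) and `F` within the cell of depth `a`; (LIP) `ltg_lip`; no exceptional event. -/
theorem ltm_phi {d g τ χ ε ζ : ℝ} {Q : Finset ℝ} {M : ℝ → ℝ} {G : Ω → Prop} (H : T.Hyp d g τ χ ε Q M G) (S : T.Sm τ χ ε ζ)
    {a b c : ℝ} (ha : ε ≤ a) (hab : a ≤ b) (hbc : b ≤ c) (hc : c ≤ 3) :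
    0 ≤ T.φx ε b a ∧ T.φx ε b a ≤ ((b - a) + χ) * T.ℓ ∧ 0 ≤ T.φxy ε b a ∧ T.φxy ε b a ≤ (2 * (b - a) + χ) * T.ℓ ∧
      T.φx ε b a + T.φx ε c b ≤ T.φx ε c a + χ * T.ℓ ∧ T.φxy ε b a + T.φxy ε c b ≤ T.φxy ε c a + χ * T.ℓ := by
  have hδ0 := H.δpos
  have hδ1 := H.δlt
  have hτ := S.τpos
  have hχ := S.τχ
  have hε0 : 0 ≤ ε := by
    have := S.χε
    linarith
  have hℓ : 0 < T.ℓ := lts_aux_lg_pos hδ0 hδ1
  have capx : ∀ a b : ℝ, ε ≤ a → a ≤ b → T.φx ε b a ≤ (b - a + 4 * τ) * T.ℓ := fun a b ha hab =>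
    ltm_aux_read T.P2 hδ0 hδ1 S.big (by linarith) hab (T.vx ε) (T.E ε a)
      (fun x x' hx _ h => (ltm_aux_fib H S ha x x' hx h).1)
  have capy : ∀ a b : ℝ, ε ≤ a → a ≤ b → T.P2.entC (T.c2 b (T.vy ε)) (T.E ε a) ≤ (b - a + 4 * τ) * T.ℓ := fun a b ha hab =>
    ltm_aux_read T.P2 hδ0 hδ1 S.big (by linarith) hab (T.vy ε) (T.E ε a)
      (fun x x' hx _ h => (ltm_aux_fib H S ha x x' hx h).2)
  have capxy : ∀ a b : ℝ, ε ≤ a → a ≤ b → T.φxy ε b a ≤ (2 * (b - a) + 8 * τ) * T.ℓ := by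
    intro a b ha hab
    have h1 : T.φxy ε b a ≤ T.φx ε b a + T.P2.entC (T.c2 b (T.vy ε)) (T.E ε a) := ent_entC_pair_le_add _ _ _ _
    have h2 := capx a b ha hab
    have h3 := capy a b ha hab
    have e : (2 * (b - a) + 8 * τ) * T.ℓ = (b - a + 4 * τ) * T.ℓ + (b - a + 4 * τ) * T.ℓ := by ring
    linarith
  have t4 : 4 * τ * T.ℓ ≤ χ * T.ℓ := mul_le_mul_of_nonneg_right (by linarith) hℓ.le
  have t8 : 8 * τ * T.ℓ ≤ χ * T.ℓ := mul_le_mul_of_nonneg_right (by linarith) hℓ.le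
  have hE : ∀ ω ω' : Ω × Ω, T.E ε b ω = T.E ε b ω' → T.E ε a ω = T.E ε a ω' := by
    intro ω ω' h
    have h' : (T.C ω.1, T.Om ε ω, T.Fb b ω.1) = (T.C ω'.1, T.Om ε ω', T.Fb b ω'.1) := h
    show (T.C ω.1, T.Om ε ω, T.Fb a ω.1) = (T.C ω'.1, T.Om ε ω', T.Fb a ω'.1)
    exact Prod.ext (Prod.mk.inj h').1 (Prod.ext (Prod.mk.inj (Prod.mk.inj h').2).1
      (lts_aux_nested_ph hδ0 hδ1 hab (Prod.mk.inj (Prod.mk.inj h').2).2))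
  refine ⟨ent_entC_nonneg _ _ _, ?_, ent_entC_nonneg _ _ _, ?_, ?_, ?_⟩
  · have := capx a b ha hab
    linarith
  · have := capxy a b ha hab
    linarith
  · have s1 : T.φx ε b a + T.φx ε c b ≤ T.φx ε c a + T.φx ε b b :=
      ltm_aux_super T.P2 (T.c2 b (T.vx ε)) (T.c2 c (T.vx ε)) (T.E ε a) (T.E ε b)
        (fun ω ω' h => lts_aux_nested hδ0 hδ1 hbc h) hE
    have := capx b b (ha.trans hab) le_rfl
    linarith
  · have s1 : T.φxy ε b a + T.φxy ε c b ≤ T.φxy ε c a + T.φxy ε b b :=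
      ltm_aux_super T.P2 (pair (T.c2 b (T.vx ε)) (T.c2 b (T.vy ε))) (pair (T.c2 c (T.vx ε)) (T.c2 c (T.vy ε))) (T.E ε a) (T.E ε b)
        (fun ω ω' h => Prod.ext (lts_aux_nested hδ0 hδ1 hbc (Prod.mk.inj h).1) (lts_aux_nested hδ0 hδ1 hbc (Prod.mk.inj h).2)) hE
    have := capxy b b (ha.trans hab) le_rfl
    linarith

/-- a lower tail bound for the surprise bounds the entropy from below, with the loss `2 τ` -/
theorem ltm_aux_ent_ge {Ω' : Type} [Fintype Ω'] {α β : Type} (P : FLaw Ω') (X : Ω' → α) (Y : Ω' → β) {u τ L : ℝ}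
    (hτ : 0 ≤ τ) (hu : u ≤ 1) (hL : 0 ≤ L) (h : P.pr (fun ω => P.surC X Y ω < (u - τ) * L) ≤ τ) :
    (u - 2 * τ) * L ≤ P.entC X Y := by
  by_cases hc : 0 ≤ u - τ
  · have h1 := ltk_ent_ge P X Y (mul_nonneg hc hL) h
    have h2 : (u - 2 * τ) * L ≤ (u - τ) * L * (1 - τ) := by
      have e : (u - τ) * L * (1 - τ) - (u - 2 * τ) * L = (τ * (1 - u) + τ * τ) * L := by ring
      have : 0 ≤ (τ * (1 - u) + τ * τ) * L :=
        mul_nonneg (add_nonneg (mul_nonneg hτ (by linarith)) (mul_nonneg hτ hτ)) hL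
      linarith
    linarith
  · have h1 := ent_entC_nonneg P X Y
    have h2 : (u - 2 * τ) * L ≤ 0 := mul_nonpos_of_nonpos_of_nonneg (by linarith [not_le.1 hc]) hL
    linarith

/-- LEAF M2.  Root scores (`ltk_ent_ge`, `time` at `(0,1)`, `prof`, `mem`) and the capacity of the profile (`ent_surC_tail`). -/
theorem ltm_roots {d g τ χ ε ζ : ℝ} {Q : Finset ℝ} {M : ℝ → ℝ} {G : Ω → Prop} (H : T.Hyp d g τ χ ε Q M G) (S : T.Sm τ χ ε ζ)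
    (hd : 0 < d) (hd1 : d ≤ 1) (hg : 0 < g) (hg1 : g ≤ 1) (h0 : (0 : ℝ) ∈ Q) (h1 : (1 : ℝ) ∈ Q) :
    (d - 2 * τ) * T.ℓ ≤ T.P.entC (T.cb 1 (T.θ 0)) T.Zs ∧ (g - 2 * τ) * T.ℓ ≤ T.P.entC (T.Xb 1) T.C ∧
      ∀ z ∈ Q, 0 ≤ z → z ≤ 3 → M z ≤ z + χ := by
  have hδ0 := H.δpos
  have hδ1 := H.δlt
  have hτ := S.τpos
  have hℓ : 0 < T.ℓ := lts_aux_lg_pos hδ0 hδ1
  have hτs : 80000 * τ ≤ 1 := by
    have := S.τχ
    have := S.χε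
    have := S.ε1
    linarith
  have hprof : ∀ z ∈ Q, T.P.pr (fun ω => T.P.surC (T.Xb z) T.C ω < (M z - τ) * T.ℓ) ≤ τ := by
    intro z hz
    refine le_trans (ent_pr_mono T.P fun ω _ hω => ?_) (H.prof z hz)
    have e : T.P.surC (T.Xb z) T.C ω - M z * T.ℓ < -(τ * T.ℓ) := by
      have : (M z - τ) * T.ℓ = M z * T.ℓ - τ * T.ℓ := by ring
      linarith
    exact lt_of_lt_of_le (by linarith) (neg_le_abs _)
  refine ⟨?_, ?_, ?_⟩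
  · have t1 := H.time 0 h0 1 h1 (by norm_num)
    rw [sub_zero, mul_one] at t1
    have t2 := ltm_aux_ent_ge T.P _ _ hτ.le hd1 hℓ.le t1
    exact t2.trans (ent_entC_pair_le T.P _ _ _)
  · refine ltm_aux_ent_ge T.P _ _ hτ.le hg1 hℓ.le ?_
    refine le_trans (ent_pr_mono T.P fun ω _ hω => ?_) (hprof 1 h1)
    have m1 := H.mem 1 h1
    rw [mul_one] at m1
    exact lt_of_lt_of_le hω (mul_le_mul_of_nonneg_right (by linarith) hℓ.le)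
  · intro z hz hz0 hz3
    by_contra hcon
    have hM : z + χ < M z := not_le.1 hcon
    have hχ := S.τχ
    have hc : 0 ≤ (M z - τ) * T.ℓ := mul_nonneg (by linarith) hℓ.le
    have e1 := ltk_ent_ge T.P _ _ hc (hprof z hz)
    have e2 : T.P.entC (T.Xb z) T.C ≤ (z + 3 * τ) * T.ℓ :=
      (ent_entC_le _ _ _).trans (lts_aux_ent_cell T.P hδ0 hδ1 S.big hz0 (fun ω => (T.F ω).X) (fun ω hω => by
        have a1 : |(T.F ω).X| ≤ T.δ ^ (-τ) := (H.size ω hω).1.1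
        have a2 : 0 < T.δ ^ (-τ) := by positivity
        linarith))
    have e3 : (z + 99 * τ) * T.ℓ * (1 - τ) ≤ (M z - τ) * T.ℓ * (1 - τ) :=
      mul_le_mul_of_nonneg_right (mul_le_mul_of_nonneg_right (by linarith) hℓ.le) (by linarith)
    have e4 : (z + 3 * τ) * T.ℓ < (z + 99 * τ) * T.ℓ * (1 - τ) := by
      have e5 : (z + 99 * τ) * T.ℓ * (1 - τ) - (z + 3 * τ) * T.ℓ = (τ * (96 - z - 99 * τ)) * T.ℓ := by ring
      have : 0 < (τ * (96 - z - 99 * τ)) * T.ℓ := mul_pos (mul_pos hτ (by linarith)) hℓ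
      linarith
    linarith

/-- Counting of the good layers (pure reals). -/
theorem ltm_cnt (n : ℕ) (X D b₁ b₂ : ℕ → ℝ) (I : Finset ℕ) (hI : I ⊆ range n) {R e c₀ t₁ t₂ t₃ : ℝ}
    (hX : ∀ i < n, 0 ≤ X i) (hD : ∀ i < n, -c₀ ≤ D i) (h1 : ∀ i < n, 0 ≤ b₁ i) (h2 : ∀ i < n, 0 ≤ b₂ i)
    (hc₀ : 0 ≤ c₀) (ht₁ : 0 < t₁) (ht₂ : 0 < t₂) (ht₃ : 0 < t₃) (hR : 0 ≤ R) (he : 0 ≤ e)
    (hgood : ∀ i < n, b₁ i ≤ t₁ → b₂ i ≤ t₂ → D i ≤ t₃ → R ≤ X i + D i + e) :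
    (I.card : ℝ) * R - R * ((∑ i ∈ range n, b₁ i) / t₁ + (∑ i ∈ range n, b₂ i) / t₂ + (∑ i ∈ range n, (D i + c₀)) / t₃)
        - ∑ i ∈ range n, (D i + c₀) - (I.card : ℝ) * e ≤ ∑ i ∈ I, X i := by
  have hpt : ∀ i ∈ I, R - R * (b₁ i / t₁ + b₂ i / t₂ + (D i + c₀) / t₃) - (D i + c₀) - e ≤ X i := by
    intro i hi
    have hin : i < n := mem_range.1 (hI hi)
    have a1 : 0 ≤ b₁ i / t₁ := div_nonneg (h1 i hin) ht₁.le
    have a2 : 0 ≤ b₂ i / t₂ := div_nonneg (h2 i hin) ht₂.le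
    have a0 : 0 ≤ D i + c₀ := by linarith [hD i hin]
    have a3 : 0 ≤ (D i + c₀) / t₃ := div_nonneg a0 ht₃.le
    by_cases hg : b₁ i ≤ t₁ ∧ b₂ i ≤ t₂ ∧ D i ≤ t₃
    · have := hgood i hin hg.1 hg.2.1 hg.2.2
      have : 0 ≤ R * (b₁ i / t₁ + b₂ i / t₂ + (D i + c₀) / t₃) := by positivity
      linarith
    · have hw : 1 ≤ b₁ i / t₁ + b₂ i / t₂ + (D i + c₀) / t₃ := by
        by_cases g1 : b₁ i ≤ t₁
        · by_cases g2 : b₂ i ≤ t₂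
          · have g3 : t₃ < D i := by
              by_contra hc
              exact hg ⟨g1, g2, not_lt.1 hc⟩
            have : 1 ≤ (D i + c₀) / t₃ := by
              rw [le_div_iff₀ ht₃]
              linarith
            linarith
          · have : 1 ≤ b₂ i / t₂ := by
              rw [le_div_iff₀ ht₂]
              linarith [not_le.1 g2]
            linarith
        · have : 1 ≤ b₁ i / t₁ := by
            rw [le_div_iff₀ ht₁]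
            linarith [not_le.1 g1]
          linarith
      have : R * 1 ≤ R * (b₁ i / t₁ + b₂ i / t₂ + (D i + c₀) / t₃) := by gcongr
      linarith [hX i hin]
  have hs := sum_le_sum hpt
  have m1 : ∑ i ∈ I, b₁ i ≤ ∑ i ∈ range n, b₁ i := sum_le_sum_of_subset_of_nonneg hI fun i hi _ => h1 i (mem_range.1 hi)
  have m2 : ∑ i ∈ I, b₂ i ≤ ∑ i ∈ range n, b₂ i := sum_le_sum_of_subset_of_nonneg hI fun i hi _ => h2 i (mem_range.1 hi)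
  have m3 : ∑ i ∈ I, (D i + c₀) ≤ ∑ i ∈ range n, (D i + c₀) :=
    sum_le_sum_of_subset_of_nonneg hI fun i hi _ => by linarith [hD i (mem_range.1 hi)]
  have e1 : ∑ i ∈ I, (R - R * (b₁ i / t₁ + b₂ i / t₂ + (D i + c₀) / t₃) - (D i + c₀) - e)
      = (I.card : ℝ) * R - R * ((∑ i ∈ I, b₁ i) / t₁ + (∑ i ∈ I, b₂ i) / t₂ + (∑ i ∈ I, (D i + c₀)) / t₃)
        - ∑ i ∈ I, (D i + c₀) - (I.card : ℝ) * e := by
    rw [sum_sub_distrib, sum_sub_distrib, sum_sub_distrib, ← mul_sum, sum_add_distrib, sum_add_distrib, sum_div, sum_div, sum_div,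
      sum_const, sum_const, nsmul_eq_mul, nsmul_eq_mul]
  rw [e1] at hs
  refine le_trans ?_ hs
  have k1 : (∑ i ∈ I, b₁ i) / t₁ ≤ (∑ i ∈ range n, b₁ i) / t₁ := by gcongr
  have k2 : (∑ i ∈ I, b₂ i) / t₂ ≤ (∑ i ∈ range n, b₂ i) / t₂ := by gcongr
  have k3 : (∑ i ∈ I, (D i + c₀)) / t₃ ≤ (∑ i ∈ range n, (D i + c₀)) / t₃ := by gcongr
  have k4 : R * ((∑ i ∈ I, b₁ i) / t₁ + (∑ i ∈ I, b₂ i) / t₂ + (∑ i ∈ I, (D i + c₀)) / t₃)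
      ≤ R * ((∑ i ∈ range n, b₁ i) / t₁ + (∑ i ∈ range n, b₂ i) / t₂ + (∑ i ∈ range n, (D i + c₀)) / t₃) := by gcongr
  linarith

theorem ltm_q_add (ns a m i k : ℕ) : ltq ns a m (i + k) = ltq ns a m i + k * ((m : ℝ) / ns) := by
  unfold ltq
  push_cast
  ring

theorem ltm_q_shift (ns a m k i : ℕ) : ltq ns (a + k * m) m i = ltq ns a m (k + i) := by
  unfold ltq
  have : a + k * m + i * m = a + (k + i) * m := by ring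
  rw [this]

theorem ltm_q_le {ns a m i c : ℕ} (hns : 0 < ns) (h : a + i * m ≤ c * ns) : ltq ns a m i ≤ c := by
  unfold ltq
  have hns' : (0 : ℝ) < ns := by exact_mod_cast hns
  rw [div_le_iff₀ hns']
  exact_mod_cast h

theorem ltm_q_ge {ns a m i c : ℕ} (hns : 0 < ns) (h : c * ns ≤ a + i * m) : (c : ℝ) ≤ ltq ns a m i := by
  unfold ltq
  have hns' : (0 : ℝ) < ns := by exact_mod_cast hns
  rw [le_div_iff₀ hns']
  exact_mod_cast h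

theorem ltm_q_mem {Q : Finset ℝ} {ns : ℕ} (hQ : ∀ k : ℕ, k ≤ 3 * ns → (k : ℝ) / ns ∈ Q) {a m i : ℕ} (h : a + i * m ≤ 3 * ns) :
    ltq ns a m i ∈ Q := by
  unfold ltq
  exact hQ _ h

theorem ltm_lyr {ε : ℝ} {ns a m : ℕ} (hs0 : ε ≤ ltq ns a m 0) (hz8 : 8 * ((m : ℝ) / ns) ≤ ε) (i : ℕ) (h3 : ltq ns a m (i + 1) ≤ 3) :
    Lyr ε (ltq ns a m i) (ltq ns a m (i + 1)) := by
  refine ⟨hs0.trans (lts_aux_q_mono ns a m (Nat.zero_le _)), lts_aux_q_mono ns a m (Nat.le_succ _), h3, ?_⟩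
  rw [ltm_q_add]
  push_cast
  have : 0 ≤ (m : ℝ) / ns := by positivity
  linarith

theorem ltm_er_nonneg {τ χ ε ζ : ℝ} (S : T.Sm τ χ ε ζ) (hℓ : 0 < T.ℓ) : 0 ≤ T.er χ ζ := by
  unfold LtData.er
  have := S.τpos
  have := S.τχ
  have := S.ζ0
  have : 0 ≤ 5 * χ + 100 * ζ := by linarith
  positivity

/-- steps 1-4 of the plan: the entropic lower bound -/
theorem ltm_ent {d g τ χ ε ζ : ℝ} {Q : Finset ℝ} {M : ℝ → ℝ} {G : Ω → Prop} {ns m a₀ k r : ℕ}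
    (H : T.Hyp d g τ χ ε Q M G) (S : T.Sm τ χ ε ζ) (hG : T.P2.pr (fun x => ¬ T.G2 G χ x) ≤ ζ)
    (hd : 0 < d) (hd1 : d ≤ 1) (hg : 0 < g) (hg1 : g ≤ 1) (hns : 0 < ns)
    (hQ : ∀ k : ℕ, k ≤ 3 * ns → (k : ℝ) / ns ∈ Q) (hz8 : 8 * ((m : ℝ) / ns) ≤ ε)
    (hs0 : ε ≤ ltq ns a₀ m 0) (hs1 : ltq ns a₀ m 0 ≤ ε + 2 * ((m : ℝ) / ns))
    (h₁ : a₀ + (k + 1) * m ≤ ns) (h₂ : ns < a₀ + (k + 2) * m) (h₃ : a₀ + (k + 2 + r) * m ≤ 2 * ns) :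
    (2 * d + g - 34 * ε) * T.ℓ
      + (∑ i ∈ range (k + 1), T.φx ε (ltq ns a₀ m (i + 1)) (ltq ns a₀ m i)
        + ∑ i ∈ range r, T.φx ε (ltq ns a₀ m (k + 2 + i + 1)) (ltq ns a₀ m (k + 2 + i)))
      + ∑ i ∈ range (k + 1), T.P2.entC (T.c2 (ltq ns a₀ m (i + 1)) (T.vy ε))
          (pair (T.c2 (ltq ns a₀ m (i + 1)) (T.vx ε)) (T.E ε (ltq ns a₀ m i)))
      - (2 + 15 * ((k : ℝ) + 1) + 6 * r) * T.er χ ζ ≤ T.P.entC T.O T.C := by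
  have hδ0 := H.δpos
  have hδ1 := H.δlt
  have hℓ := ltp_ell_pos T hδ0 hδ1
  have hns' : (0 : ℝ) < ns := by exact_mod_cast hns
  have hQ0 : (0 : ℝ) ∈ Q := by
    have := hQ 0 (Nat.zero_le _)
    simpa using this
  have hQ1 : (1 : ℝ) ∈ Q := by
    have := hQ ns (by omega)
    rwa [div_self hns'.ne'] at this
  obtain ⟨R1, R2, _⟩ := ltm_roots H S hd hd1 hg hg1 hQ0 hQ1
  obtain ⟨B1, B2⟩ := ltl_root H S hG
  -- monotonicity of the indices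
  have hidx : ∀ i : ℕ, i ≤ k + 2 + r → a₀ + i * m ≤ 2 * ns := by
    intro i hi
    have : i * m ≤ (k + 2 + r) * m := Nat.mul_le_mul_right _ hi
    omega
  have hq2 : ∀ i : ℕ, i ≤ k + 2 + r → ltq ns a₀ m i ≤ 2 := by
    intro i hi
    exact_mod_cast ltm_q_le (c := 2) hns (hidx i hi)
  have hqk : ltq ns a₀ m (k + 1) ≤ 1 := by
    exact_mod_cast ltm_q_le (c := 1) hns (by omega)
  have hqk2 : 1 ≤ ltq ns a₀ m (k + 2) := by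
    exact_mod_cast ltm_q_ge (c := 1) hns (by omega)
  -- step 1
  have c := lts_chain T hδ0 hδ1 ns (a₀ + (k + 2) * m) m r hns (by rw [ltm_q_shift]; exact hqk2)
    (by rw [ltm_q_shift]; exact hq2 _ le_rfl)
  simp only [ltm_q_shift, ← add_assoc] at c
  have o : ∀ i ∈ range r, T.φx ε (ltq ns a₀ m (k + 2 + i + 1)) (ltq ns a₀ m (k + 2 + i))
      ≤ (T.P.entC (T.Fb (ltq ns a₀ m (k + 2 + i + 1))) (pair (T.Fb (ltq ns a₀ m (k + 2 + i))) T.C)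
          - T.P.entC (T.Fb (ltq ns a₀ m (k + 2 + i + 1))) (pair (T.Fb (ltq ns a₀ m (k + 2 + i))) T.CO)) + 6 * T.er χ ζ := by
    intro i hi
    have hi' := mem_range.1 hi
    have hv2 := hq2 (k + 2 + i + 1) (by omega)
    exact ltl_out H S hG (ltm_lyr hs0 hz8 _ (by linarith)) (ltm_q_mem hQ (by have := hidx (k + 2 + i) (by omega); omega))
      (ltm_q_mem hQ (by have := hidx (k + 2 + i + 1) (by omega); omega))
      (hqk2.trans (lts_aux_q_mono ns a₀ m (by omega))) hv2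
  have o' := sum_le_sum o
  simp only [sum_add_distrib, sum_const, card_range, nsmul_eq_mul] at o'
  -- step 2
  have p := lts_phase T hδ0 hδ1 ε ns a₀ m (k + 1) hns hqk
  have hly : ∀ i ∈ range (k + 1), Lyr ε (ltq ns a₀ m i) (ltq ns a₀ m (i + 1)) := by
    intro i hi
    have hi' := mem_range.1 hi
    have := hq2 (i + 1) (by omega)
    exact ltm_lyr hs0 hz8 _ (by linarith)
  have md := sum_le_sum fun i hi => ltl_mode H S hG (hly i hi)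
  simp only [sum_add_distrib, sum_const, card_range, nsmul_eq_mul] at md
  -- step 3
  have a1 := lts_ang H S 1 ns a₀ m (k + 1) hns hqk
  have a0 := lts_ang H S 0 ns a₀ m (k + 1) hns hqk
  -- step 4
  have rs := sum_le_sum fun i hi => ltl_res H S hG (hly i hi)
  simp only [sum_add_distrib, sum_const, card_range, nsmul_eq_mul] at rs
  have tm := lts_time H S hd hd1 ns a₀ m (k + 1) hns (ltm_q_mem hQ (by have := hidx 0 (by omega); omega))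
    (ltm_q_mem hQ (by have := hidx (k + 1) (by omega); omega)) (by linarith)
  -- numerics
  have hz : ltq ns a₀ m (k + 2) = ltq ns a₀ m (k + 1) + (m : ℝ) / ns := by
    rw [show k + 2 = (k + 1) + 1 from rfl, ltm_q_add]
    push_cast
    ring
  have hτ := S.τpos
  have hτχ := S.τχ
  have hχε := S.χε
  have n1 : (ltq ns a₀ m 0 + 1 - ltq ns a₀ m (k + 1) + 9 * ε) * T.ℓ ≤ 11 * ε * T.ℓ := by
    gcongr
    linarith
  have n2 : (d - 11 * ε) * T.ℓ ≤ (d * (ltq ns a₀ m (k + 1) - ltq ns a₀ m 0) - 9 * ε) * T.ℓ := by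
    refine mul_le_mul_of_nonneg_right ?_ hℓ.le
    have h5 : 1 - 2 * ε ≤ ltq ns a₀ m (k + 1) - ltq ns a₀ m 0 := by linarith
    have h6 : d * (1 - 2 * ε) ≤ d * (ltq ns a₀ m (k + 1) - ltq ns a₀ m 0) := by gcongr
    have hε0 : 0 ≤ ε := by linarith
    have h7 : d * ε ≤ 1 * ε := by gcongr
    linarith
  have n3 : 4 * τ * T.ℓ ≤ ε * T.ℓ := by
    gcongr
    linarith
  push_cast at md rs
  unfold LtData.φx at o' ⊢
  nlinarith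

/-- the losses of the counting (pure reals) -/
theorem ltm_loss {κ η₁ η₂ ε χ z ℓ Gc B1 B2 SD nD : ℝ} (hκ : 0 < κ) (hκη : κ ≤ η₁) (hη₁ : η₁ ≤ 1) (hz : 0 < z) (hℓ : 0 < ℓ)
    (hG0 : 0 ≤ Gc) (hG1 : Gc ≤ 1) (hε : 2000 * ε ≤ η₁ * κ ^ 2) (hη₂ : 8 * η₂ ≤ η₁ * κ) (hχ : 1000 * χ ≤ κ ^ 2 * z)
    (hnD0 : 0 ≤ nD) (hnD : nD * z ≤ 2) (hB10 : 0 ≤ B1) (hB1 : B1 ≤ 27 * ε * ℓ) (hB20 : 0 ≤ B2) (hB2 : B2 ≤ 9 * ε * ℓ)
    (hSD0 : 0 ≤ SD) (hSD : SD ≤ (η₂ + 2 * nD * χ) * ℓ) :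
    Gc * (z * ℓ) * (B1 / (κ / 2 * (z * ℓ)) + B2 / (κ ^ 2 / 100 * (z * ℓ)) + SD / (κ / 2 * (z * ℓ))) + SD ≤ 0.9 * η₁ * ℓ := by
  have hκ1 : κ ≤ 1 := hκη.trans hη₁
  have hη0 : 0 < η₁ := hκ.trans_le hκη
  have e1 : Gc * (z * ℓ) * (B1 / (κ / 2 * (z * ℓ)) + B2 / (κ ^ 2 / 100 * (z * ℓ)) + SD / (κ / 2 * (z * ℓ)))
      = Gc * (2 * B1 / κ + 100 * B2 / κ ^ 2 + 2 * SD / κ) := by
    field_simp
  have hεℓ : 2000 * (ε * ℓ) ≤ η₁ * κ ^ 2 * ℓ := by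
    have := mul_le_mul_of_nonneg_right hε hℓ.le
    linarith
  have hk2 : κ ^ 2 ≤ κ := by nlinarith
  have a1 : 2 * B1 / κ ≤ 0.027 * η₁ * ℓ := by
    rw [div_le_iff₀ hκ]
    have h1 : η₁ * κ ^ 2 * ℓ = (η₁ * ℓ * κ) * κ := by ring
    have h2 : (η₁ * ℓ * κ) * κ ≤ (η₁ * ℓ * κ) * 1 := by gcongr
    linarith
  have a2 : 100 * B2 / κ ^ 2 ≤ 0.45 * η₁ * ℓ := by
    rw [div_le_iff₀ (by positivity)]
    linarith
  have hnχ : nD * χ ≤ κ ^ 2 / 500 := by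
    have h1 : nD * (1000 * χ) ≤ nD * (κ ^ 2 * z) := by gcongr
    have h2 : κ ^ 2 * (nD * z) ≤ κ ^ 2 * 2 := by gcongr
    linarith
  have hSD' : SD ≤ (η₁ * κ / 8 + κ ^ 2 / 250) * ℓ := by
    refine hSD.trans (mul_le_mul_of_nonneg_right ?_ hℓ.le)
    linarith
  have a3 : 2 * SD / κ ≤ 0.258 * η₁ * ℓ := by
    rw [div_le_iff₀ hκ]
    have h1 : (η₁ * κ / 8 + κ ^ 2 / 250) * ℓ = (η₁ / 8 + κ / 250) * ℓ * κ := by ring
    have h2 : (η₁ / 8 + κ / 250) * ℓ * κ ≤ (η₁ / 8 + η₁ / 250) * ℓ * κ := by gcongr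
    linarith
  have a4 : SD ≤ 0.129 * η₁ * ℓ := by
    refine hSD'.trans ?_
    have h1 : η₁ * κ ≤ η₁ * 1 := by gcongr
    have h2 : (η₁ * κ / 8 + κ ^ 2 / 250) ≤ 0.129 * η₁ := by linarith
    gcongr
  have a5 : 0 ≤ 2 * B1 / κ + 100 * B2 / κ ^ 2 + 2 * SD / κ := by positivity
  have a6 : Gc * (2 * B1 / κ + 100 * B2 / κ ^ 2 + 2 * SD / κ) ≤ 1 * (2 * B1 / κ + 100 * B2 / κ ^ 2 + 2 * SD / κ) := by gcongr
  rw [e1]
  linarith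

/-- counting + losses (pure reals) -/
theorem ltm_count {κ η₁ η₂ ε χ z ℓ Gc e : ℝ} (n : ℕ) (X D D' b₁ b₂ : ℕ → ℝ) (I : Finset ℕ) (hI : I ⊆ range n)
    (hκ : 0 < κ) (hκη : κ ≤ η₁) (hη₁ : η₁ ≤ 1) (hz : 0 < z) (hℓ : 0 < ℓ)
    (hG0 : 0 ≤ Gc) (hG1 : Gc ≤ 1) (hε : 2000 * ε ≤ η₁ * κ ^ 2) (hη₂ : 8 * η₂ ≤ η₁ * κ) (hχ0 : 0 ≤ χ) (hχ : 1000 * χ ≤ κ ^ 2 * z)
    (hn : (n : ℝ) * z ≤ 2) (he : 0 ≤ e)
    (hX : ∀ i < n, 0 ≤ X i) (hD : ∀ i < n, -(χ * ℓ) ≤ D i) (hD' : ∀ i < n, -(χ * ℓ) ≤ D' i)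
    (h1 : ∀ i < n, 0 ≤ b₁ i) (h2 : ∀ i < n, 0 ≤ b₂ i)
    (hs1 : ∑ i ∈ range n, b₁ i ≤ 27 * ε * ℓ) (hs2 : ∑ i ∈ range n, b₂ i ≤ 9 * ε * ℓ) (hsD : ∑ i ∈ range n, (D i + D' i) ≤ η₂ * ℓ)
    (hgood : ∀ i < n, b₁ i ≤ κ / 2 * (z * ℓ) → b₂ i ≤ κ ^ 2 / 100 * (z * ℓ) → D i ≤ κ / 2 * (z * ℓ) → Gc * (z * ℓ) ≤ X i + D i + e) :
    (I.card : ℝ) * (Gc * (z * ℓ)) - 0.9 * η₁ * ℓ - (I.card : ℝ) * e ≤ ∑ i ∈ I, X i := by
  have c := ltm_cnt n X D b₁ b₂ I hI (R := Gc * (z * ℓ)) (e := e) (c₀ := χ * ℓ) (t₁ := κ / 2 * (z * ℓ)) (t₂ := κ ^ 2 / 100 * (z * ℓ))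
    (t₃ := κ / 2 * (z * ℓ)) hX hD h1 h2 (by positivity) (by positivity) (by positivity) (by positivity) (by positivity) he hgood
  have s0 : 0 ≤ ∑ i ∈ range n, (D i + χ * ℓ) := sum_nonneg fun i hi => by linarith [hD i (mem_range.1 hi)]
  have s1 : ∑ i ∈ range n, (D i + χ * ℓ) ≤ (η₂ + 2 * n * χ) * ℓ := by
    have h : ∑ i ∈ range n, (D i + χ * ℓ) ≤ ∑ i ∈ range n, ((D i + D' i) + 2 * (χ * ℓ)) :=
      sum_le_sum fun i hi => by linarith [hD' i (mem_range.1 hi)]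
    have h' : ∑ i ∈ range n, ((D i + D' i) + 2 * (χ * ℓ)) = ∑ i ∈ range n, (D i + D' i) + n * (2 * (χ * ℓ)) := by
      rw [sum_add_distrib, sum_const, card_range, nsmul_eq_mul]
    rw [h'] at h
    linarith
  have l := ltm_loss (Gc := Gc) (nD := n) hκ hκη hη₁ hz hℓ hG0 hG1 hε hη₂ hχ (Nat.cast_nonneg _) hn
    (sum_nonneg fun i hi => h1 i (mem_range.1 hi)) hs1 (sum_nonneg fun i hi => h2 i (mem_range.1 hi)) hs2 s0 s1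
  linarith

/-- final numerics of `ltm_core` (pure reals) -/
theorem ltm_num {d g ε κ η₁ G₁ G₂ z ℓ er k r SX SY HO : ℝ} (hℓ : 0 < ℓ) (hκ : 0 < κ) (hκ1 : κ ≤ 1) (hκη : κ ≤ η₁)
    (hε0 : 0 ≤ ε) (hε : 2000 * ε ≤ η₁ * κ ^ 2) (hz : 0 < z) (hz8 : 8 * z ≤ ε) (hε8 : ε ≤ 1 / 8)
    (hG₁ : 0 ≤ G₁) (hG₁' : G₁ ≤ 1) (hG₂ : 0 ≤ G₂) (hG₂' : G₂ ≤ 1) (hk0 : 0 ≤ k) (hr0 : 0 ≤ r)
    (hkz : 1 - 2 * ε ≤ k * z) (hkrz : 2 - 2 * ε ≤ (k + r) * z) (hnz : (k + 1 + r) * z ≤ 2) (her : er ≤ 0.055 * κ ^ 2 * z * ℓ)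
    (cx : (k + r) * (G₁ * (z * ℓ)) - 0.9 * η₁ * ℓ - (k + r) * (3 * er) ≤ SX)
    (cy : k * (G₂ * (z * ℓ)) - 0.9 * η₁ * ℓ - k * (4 * er) ≤ SY)
    (en : (2 * d + g - 34 * ε) * ℓ + SX + SY - (2 + 15 * (k + 1) + 6 * r) * er ≤ HO) :
    (2 * d + g + 2 * G₁ + G₂ - 10 * η₁) * ℓ ≤ HO := by
  have hη0 : 0 < η₁ := hκ.trans_le hκη
  have hk2 : κ ^ 2 ≤ η₁ := by nlinarith
  have f1 : (2 * G₁ - 2 * ε) * ℓ ≤ (k + r) * (G₁ * (z * ℓ)) := by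
    have h5 : (k + r) * (G₁ * (z * ℓ)) = G₁ * ((k + r) * z) * ℓ := by ring
    rw [h5]
    refine mul_le_mul_of_nonneg_right ?_ hℓ.le
    have h6 : G₁ * (2 - 2 * ε) ≤ G₁ * ((k + r) * z) := by gcongr
    have h7 : G₁ * ε ≤ 1 * ε := by gcongr
    linarith
  have f2 : (G₂ - 2 * ε) * ℓ ≤ k * (G₂ * (z * ℓ)) := by
    have h5 : k * (G₂ * (z * ℓ)) = G₂ * (k * z) * ℓ := by ring
    rw [h5]
    refine mul_le_mul_of_nonneg_right ?_ hℓ.le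
    have h6 : G₂ * (1 - 2 * ε) ≤ G₂ * (k * z) := by gcongr
    have h7 : G₂ * ε ≤ 1 * ε := by gcongr
    linarith
  have f3 : (17 + 22 * k + 9 * r) * er ≤ 2.475 * η₁ * ℓ := by
    have h6 : (17 + 22 * k + 9 * r) * z ≤ 45 := by
      have : 0 ≤ r * z := by positivity
      linarith
    calc (17 + 22 * k + 9 * r) * er ≤ (17 + 22 * k + 9 * r) * (0.055 * κ ^ 2 * z * ℓ) := by gcongr
      _ = ((17 + 22 * k + 9 * r) * z) * (0.055 * κ ^ 2 * ℓ) := by ring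
      _ ≤ 45 * (0.055 * κ ^ 2 * ℓ) := by gcongr
      _ = 2.475 * κ ^ 2 * ℓ := by ring
      _ ≤ 2.475 * η₁ * ℓ := by gcongr
  have f4 : 38 * ε * ℓ ≤ 0.019 * η₁ * ℓ := by
    refine mul_le_mul_of_nonneg_right ?_ hℓ.le
    have : η₁ * κ ^ 2 ≤ η₁ * 1 := by
      gcongr
      nlinarith
    linarith
  have f5 : 0 < η₁ * ℓ := by positivity
  linarith

/-- the indices `i₁ = k+1` (last layer below depth 1) and `nL = k+2+r` (last layer below depth 2) -/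
theorem ltm_idx {ns m a₀ : ℕ} (hm : 0 < m) (h1 : a₀ + m ≤ ns) :
    ∃ k r : ℕ, a₀ + (k + 1) * m ≤ ns ∧ ns < a₀ + (k + 2) * m ∧ a₀ + (k + 2 + r) * m ≤ 2 * ns ∧ 2 * ns < a₀ + (k + 3 + r) * m := by
  have A1 : (ns - a₀) / m * m ≤ ns - a₀ := Nat.div_mul_le_self _ _
  have A2 : ns - a₀ < m * ((ns - a₀) / m + 1) := Nat.lt_mul_div_succ _ hm
  have A3 : 0 < (ns - a₀) / m := Nat.div_pos (by omega) hm
  have B1 : (2 * ns - a₀) / m * m ≤ 2 * ns - a₀ := Nat.div_mul_le_self _ _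
  have B2 : 2 * ns - a₀ < m * ((2 * ns - a₀) / m + 1) := Nat.lt_mul_div_succ _ hm
  have B3 : (ns - a₀) / m + 1 ≤ (2 * ns - a₀) / m := by
    rw [Nat.le_div_iff_mul_le hm, add_mul]
    omega
  obtain ⟨k, hk⟩ : ∃ k, (ns - a₀) / m = k + 1 := ⟨(ns - a₀) / m - 1, by omega⟩
  obtain ⟨r, hr⟩ : ∃ r, (2 * ns - a₀) / m = k + 2 + r := ⟨(2 * ns - a₀) / m - (k + 2), by omega⟩
  rw [hk] at A1 A2
  rw [hr] at B1 B2
  refine ⟨k, r, by omega, ?_, by omega, ?_⟩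
  · have : m * (k + 1 + 1) = (k + 2) * m := by ring
    omega
  · have : m * (k + 2 + r + 1) = (k + 3 + r) * m := by ring
    omega

/-- Plan: header, steps 1-7. -/
theorem ltm_core {d g τ χ ε ζ κ η₁ η₂ G₁ G₂ : ℝ} {Q : Finset ℝ} {M : ℝ → ℝ} {G : Ω → Prop} {ns m a₀ : ℕ}
    (H : T.Hyp d g τ χ ε Q M G) (S : T.Sm τ χ ε ζ) (hG : T.P2.pr (fun x => ¬ T.G2 G χ x) ≤ ζ)
    (Z : T.Sz κ ((m : ℝ) / ns) ε χ ζ ns) (hd : 0 < d) (hd1 : d ≤ 1) (hg : 0 < g) (hg1 : g ≤ 1)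
    (hQ : ∀ k : ℕ, k ≤ 3 * ns → (k : ℝ) / ns ∈ Q) (hs0 : ε ≤ ltq ns a₀ m 0) (hs1 : ltq ns a₀ m 0 ≤ ε + 2 * ((m : ℝ) / ns))
    (hG₁ : 0 ≤ G₁) (hG₁' : G₁ ≤ 1) (hG₂ : 0 ≤ G₂) (hG₂' : G₂ ≤ 1) (hκη : κ ≤ η₁) (hη₁ : η₁ ≤ 1) (hε : 2000 * ε ≤ η₁ * κ ^ 2)
    (hη₂0 : 0 ≤ η₂) (hη₂ : 8 * η₂ ≤ η₁ * κ)
    (HX : ∀ i : ℕ, a₀ + (i + 2) * m ≤ 2 * ns →
      T.P2.miC (T.Fb2 (ltq ns a₀ m (i + 3))) (T.Om ε) (fun x => (T.C x.1, T.Fb2 (ltq ns a₀ m i) x, T.Om0 ε x))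
        ≤ κ / 2 * ((m : ℝ) / ns * T.ℓ) →
      T.bud2 ε (ltq ns a₀ m i) (ltq ns a₀ m (i + 1)) ≤ κ ^ 2 / 100 * ((m : ℝ) / ns * T.ℓ) →
      T.φx ε (ltq ns a₀ m (i + 2)) (ltq ns a₀ m i) - T.φx ε (ltq ns a₀ m (i + 1)) (ltq ns a₀ m i)
        - T.φx ε (ltq ns a₀ m (i + 2)) (ltq ns a₀ m (i + 1)) ≤ κ / 2 * ((m : ℝ) / ns * T.ℓ) →
      G₁ * ((m : ℝ) / ns * T.ℓ) ≤ T.φx ε (ltq ns a₀ m (i + 2)) (ltq ns a₀ m i) - T.φx ε (ltq ns a₀ m (i + 1)) (ltq ns a₀ m i)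
        + 3 * T.er χ ζ)
    (HY : ∀ i : ℕ, a₀ + (i + 2) * m ≤ 2 * ns →
      T.P2.miC (T.Fb2 (ltq ns a₀ m (i + 3))) (T.Om ε) (fun x => (T.C x.1, T.Fb2 (ltq ns a₀ m i) x, T.OmT ε x))
        ≤ κ / 2 * ((m : ℝ) / ns * T.ℓ) →
      T.bud2 ε (ltq ns a₀ m i) (ltq ns a₀ m (i + 1)) ≤ κ ^ 2 / 100 * ((m : ℝ) / ns * T.ℓ) →
      T.φxy ε (ltq ns a₀ m (i + 2)) (ltq ns a₀ m i) - T.φxy ε (ltq ns a₀ m (i + 1)) (ltq ns a₀ m i)
        - T.φxy ε (ltq ns a₀ m (i + 2)) (ltq ns a₀ m (i + 1)) ≤ κ / 2 * ((m : ℝ) / ns * T.ℓ) →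
      G₂ * ((m : ℝ) / ns * T.ℓ) ≤ T.P2.entC (T.c2 (ltq ns a₀ m (i + 2)) (T.vy ε))
        (pair (pair (T.c2 (ltq ns a₀ m (i + 1)) (T.vy ε)) (T.c2 (ltq ns a₀ m (i + 2)) (T.vx ε))) (T.E ε (ltq ns a₀ m i)))
        + 3 * T.er χ ζ)
    (hD : ∑ i ∈ (range (2 * ns + 1)).filter (fun i => a₀ + (i + 2) * m ≤ 2 * ns),
      ((T.φx ε (ltq ns a₀ m (i + 2)) (ltq ns a₀ m i) - T.φx ε (ltq ns a₀ m (i + 1)) (ltq ns a₀ m i)
          - T.φx ε (ltq ns a₀ m (i + 2)) (ltq ns a₀ m (i + 1)))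
        + (T.φxy ε (ltq ns a₀ m (i + 2)) (ltq ns a₀ m i) - T.φxy ε (ltq ns a₀ m (i + 1)) (ltq ns a₀ m i)
          - T.φxy ε (ltq ns a₀ m (i + 2)) (ltq ns a₀ m (i + 1)))) ≤ η₂ * T.ℓ) :
    (2 * d + g + 2 * G₁ + G₂ - 10 * η₁) * T.ℓ ≤ T.P.entC T.O T.C := by
  have hδ0 := H.δpos
  have hδ1 := H.δlt
  have hℓ := ltp_ell_pos T hδ0 hδ1
  have hκ := Z.κpos
  have hz := Z.zpos
  have hz8 := Z.z8
  have her0 := ltm_er_nonneg S hℓ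
  have hε8 := S.ε1
  have hχ0 : 0 ≤ χ := by
    have := S.τpos
    have := S.τχ
    linarith
  have hε0 : 0 ≤ ε := by
    have := S.χε
    linarith
  have hns : 0 < ns := by
    rcases Nat.eq_zero_or_pos ns with h | h
    · rw [h] at hz
      simp at hz
    · exact h
  have hm : 0 < m := by
    rcases Nat.eq_zero_or_pos m with h | h
    · rw [h] at hz
      simp at hz
    · exact h
  have hns' : (0 : ℝ) < ns := by exact_mod_cast hns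
  have hq0 : ltq ns a₀ m 0 = (a₀ : ℝ) / ns := by
    unfold ltq
    simp
  have N1 : a₀ + m ≤ ns := by
    have h1 : (a₀ : ℝ) / ns + (m : ℝ) / ns ≤ 1 := by
      rw [hq0] at hs1
      linarith
    rw [← add_div, div_le_one hns'] at h1
    exact_mod_cast h1
  obtain ⟨k, r, h₁, h₂, h₃, h₄⟩ := ltm_idx hm N1
  -- depths
  have hqi : ∀ i : ℕ, ltq ns a₀ m i = ltq ns a₀ m 0 + i * ((m : ℝ) / ns) := by
    intro i
    have := ltm_q_add ns a₀ m 0 i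
    rwa [zero_add] at this
  have e1 : ∀ i : ℕ, ltq ns a₀ m (i + 1) = ltq ns a₀ m i + (m : ℝ) / ns := by
    intro i
    rw [ltm_q_add]
    push_cast
    ring
  have e2 : ∀ i : ℕ, ltq ns a₀ m (i + 2) = ltq ns a₀ m i + 2 * ((m : ℝ) / ns) := by
    intro i
    rw [ltm_q_add]
    push_cast
    ring
  have hqε : ∀ i : ℕ, ε ≤ ltq ns a₀ m i := fun i => hs0.trans (lts_aux_q_mono ns a₀ m (Nat.zero_le _))
  have hidx : ∀ i : ℕ, i < k + 1 + r → a₀ + (i + 2) * m ≤ 2 * ns := by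
    intro i hi
    have : (i + 2) * m ≤ (k + 2 + r) * m := Nat.mul_le_mul_right _ (by omega)
    omega
  have hq2 : ∀ i : ℕ, i < k + 1 + r → ltq ns a₀ m (i + 2) ≤ 2 := by
    intro i hi
    exact_mod_cast ltm_q_le (c := 2) hns (hidx i hi)
  have r2 : (1 : ℝ) ≤ ltq ns a₀ m (k + 2) := by exact_mod_cast ltm_q_ge (c := 1) hns (by omega)
  have r3 : ltq ns a₀ m (k + 2 + r) ≤ 2 := by exact_mod_cast ltm_q_le (c := 2) hns h₃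
  have r4 : (2 : ℝ) ≤ ltq ns a₀ m (k + 3 + r) := by exact_mod_cast ltm_q_ge (c := 2) hns (by omega)
  rw [hqi] at r2 r3 r4
  push_cast at r2 r3 r4
  have hkz : 1 - 2 * ε ≤ (k : ℝ) * ((m : ℝ) / ns) := by linarith
  have hkrz : 2 - 2 * ε ≤ ((k : ℝ) + r) * ((m : ℝ) / ns) := by linarith
  have hnz : ((k + 1 + r : ℕ) : ℝ) * ((m : ℝ) / ns) ≤ 2 := by
    push_cast
    linarith
  -- the defects
  have hfil : (range (2 * ns + 1)).filter (fun i => a₀ + (i + 2) * m ≤ 2 * ns) = range (k + 1 + r) := by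
    ext i
    rw [mem_filter, mem_range, mem_range]
    constructor
    · rintro ⟨_, h⟩
      by_contra hc
      have : (k + 3 + r) * m ≤ (i + 2) * m := Nat.mul_le_mul_right _ (by omega)
      omega
    · intro h
      have h5 := hidx i h
      have h6 : i + 2 ≤ (i + 2) * m := Nat.le_mul_of_pos_right _ hm
      exact ⟨by omega, h5⟩
  rw [hfil] at hD
  have hphi : ∀ i : ℕ, i < k + 1 + r →
      -(χ * T.ℓ) ≤ T.φx ε (ltq ns a₀ m (i + 2)) (ltq ns a₀ m i) - T.φx ε (ltq ns a₀ m (i + 1)) (ltq ns a₀ m i)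
          - T.φx ε (ltq ns a₀ m (i + 2)) (ltq ns a₀ m (i + 1)) ∧
      -(χ * T.ℓ) ≤ T.φxy ε (ltq ns a₀ m (i + 2)) (ltq ns a₀ m i) - T.φxy ε (ltq ns a₀ m (i + 1)) (ltq ns a₀ m i)
          - T.φxy ε (ltq ns a₀ m (i + 2)) (ltq ns a₀ m (i + 1)) := by
    intro i hi
    obtain ⟨_, _, _, _, p5, p6⟩ := ltm_phi H S (hqε i) (lts_aux_q_mono ns a₀ m (Nat.le_succ i))
      (lts_aux_q_mono ns a₀ m (Nat.le_succ (i + 1))) (by have := hq2 i hi; linarith)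
    constructor <;> linarith
  obtain ⟨bd1, bd1'⟩ := lts_bud1 H S ns a₀ m (k + 1 + r) hns
  have bd2 := lts_bud2 H S ns a₀ m (k + 1 + r) hns
  -- the count for `x`
  have cx := ltm_count (κ := κ) (η₁ := η₁) (η₂ := η₂) (ε := ε) (χ := χ) (z := (m : ℝ) / ns) (ℓ := T.ℓ) (Gc := G₁) (e := 3 * T.er χ ζ)
    (k + 1 + r) (fun i => T.φx ε (ltq ns a₀ m (i + 2)) (ltq ns a₀ m (i + 1)))
    (fun i => T.φx ε (ltq ns a₀ m (i + 2)) (ltq ns a₀ m i) - T.φx ε (ltq ns a₀ m (i + 1)) (ltq ns a₀ m i)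
          - T.φx ε (ltq ns a₀ m (i + 2)) (ltq ns a₀ m (i + 1)))
    (fun i => T.φxy ε (ltq ns a₀ m (i + 2)) (ltq ns a₀ m i) - T.φxy ε (ltq ns a₀ m (i + 1)) (ltq ns a₀ m i)
          - T.φxy ε (ltq ns a₀ m (i + 2)) (ltq ns a₀ m (i + 1)))
    (fun i => T.P2.miC (T.Fb2 (ltq ns a₀ m (i + 3))) (T.Om ε) (fun x => (T.C x.1, T.Fb2 (ltq ns a₀ m i) x, T.Om0 ε x)))
    (fun i => T.bud2 ε (ltq ns a₀ m i) (ltq ns a₀ m (i + 1)))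
    ((range (k + 1 + r)).erase k) (erase_subset _ _) hκ hκη hη₁ hz hℓ hG₁ hG₁' hε hη₂ hχ0 Z.χz hnz (by positivity)
    (fun i _ => ent_entC_nonneg _ _ _) (fun i hi => (hphi i hi).1) (fun i hi => (hphi i hi).2)
    (fun i _ => ent_miC_nonneg _ _ _ _) (fun i _ => ent_miC_nonneg _ _ _ _) bd1 bd2 hD
    (fun i hi b1 b2 b3 => by
      have := HX i (hidx i hi) b1 b2 b3
      linarith)
  -- the count for `y`
  have hsD' : ∑ i ∈ range (k + 1 + r),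
      ((T.φxy ε (ltq ns a₀ m (i + 2)) (ltq ns a₀ m i) - T.φxy ε (ltq ns a₀ m (i + 1)) (ltq ns a₀ m i)
          - T.φxy ε (ltq ns a₀ m (i + 2)) (ltq ns a₀ m (i + 1)))
        + (T.φx ε (ltq ns a₀ m (i + 2)) (ltq ns a₀ m i) - T.φx ε (ltq ns a₀ m (i + 1)) (ltq ns a₀ m i)
          - T.φx ε (ltq ns a₀ m (i + 2)) (ltq ns a₀ m (i + 1)))) ≤ η₂ * T.ℓ := by
    refine le_trans (le_of_eq (sum_congr rfl fun i _ => ?_)) hD
    ring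
  have cy := ltm_count (κ := κ) (η₁ := η₁) (η₂ := η₂) (ε := ε) (χ := χ) (z := (m : ℝ) / ns) (ℓ := T.ℓ) (Gc := G₂) (e := 4 * T.er χ ζ)
    (k + 1 + r) (fun i => T.P2.entC (T.c2 (ltq ns a₀ m (i + 2)) (T.vy ε))
      (pair (T.c2 (ltq ns a₀ m (i + 2)) (T.vx ε)) (T.E ε (ltq ns a₀ m (i + 1)))))
    (fun i => T.φxy ε (ltq ns a₀ m (i + 2)) (ltq ns a₀ m i) - T.φxy ε (ltq ns a₀ m (i + 1)) (ltq ns a₀ m i)
          - T.φxy ε (ltq ns a₀ m (i + 2)) (ltq ns a₀ m (i + 1)))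
    (fun i => T.φx ε (ltq ns a₀ m (i + 2)) (ltq ns a₀ m i) - T.φx ε (ltq ns a₀ m (i + 1)) (ltq ns a₀ m i)
          - T.φx ε (ltq ns a₀ m (i + 2)) (ltq ns a₀ m (i + 1)))
    (fun i => T.P2.miC (T.Fb2 (ltq ns a₀ m (i + 3))) (T.Om ε) (fun x => (T.C x.1, T.Fb2 (ltq ns a₀ m i) x, T.OmT ε x)))
    (fun i => T.bud2 ε (ltq ns a₀ m i) (ltq ns a₀ m (i + 1)))
    (range k) (range_subset_range.2 (by omega)) hκ hκη hη₁ hz hℓ hG₂ hG₂' hε hη₂ hχ0 Z.χz hnz (by positivity)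
    (fun i _ => ent_entC_nonneg _ _ _) (fun i hi => (hphi i hi).2) (fun i hi => (hphi i hi).1)
    (fun i _ => ent_miC_nonneg _ _ _ _) (fun i _ => ent_miC_nonneg _ _ _ _) bd1' bd2 hsD'
    (fun i hi b1 b2 b3 => by
      have h5 := HY i (hidx i hi) b1 b2 b3
      have d2 := ltp_d2 H S hG hz.le (hqε i) (by rw [← e2 i]; have := hq2 i hi; linarith)
      rw [← e2 i, ← e1 i] at d2
      linarith)
  -- the entropic lower bound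
  have en := ltm_ent H S hG hd hd1 hg hg1 hns hQ hz8 hs0 hs1 h₁ h₂ h₃
  -- comparison of the sums
  have sx : ∑ i ∈ (range (k + 1 + r)).erase k, T.φx ε (ltq ns a₀ m (i + 2)) (ltq ns a₀ m (i + 1))
      ≤ ∑ i ∈ range (k + 1), T.φx ε (ltq ns a₀ m (i + 1)) (ltq ns a₀ m i)
        + ∑ i ∈ range r, T.φx ε (ltq ns a₀ m (k + 2 + i + 1)) (ltq ns a₀ m (k + 2 + i)) := by
    rw [sum_erase_eq_sub (mem_range.2 (by omega)), sum_range_add, sum_range_succ,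
      sum_range_succ' (fun i => T.φx ε (ltq ns a₀ m (i + 1)) (ltq ns a₀ m i))]
    have h5 : ∑ i ∈ range r, T.φx ε (ltq ns a₀ m (k + 1 + i + 2)) (ltq ns a₀ m (k + 1 + i + 1))
        = ∑ i ∈ range r, T.φx ε (ltq ns a₀ m (k + 2 + i + 1)) (ltq ns a₀ m (k + 2 + i)) :=
      sum_congr rfl fun i _ => by rw [show k + 1 + i + 2 = k + 2 + i + 1 by omega, show k + 1 + i + 1 = k + 2 + i by omega]
    rw [h5]
    have h6 : 0 ≤ T.φx ε (ltq ns a₀ m (0 + 1)) (ltq ns a₀ m 0) := ent_entC_nonneg _ _ _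
    linarith
  have sy : ∑ i ∈ range k, T.P2.entC (T.c2 (ltq ns a₀ m (i + 2)) (T.vy ε))
        (pair (T.c2 (ltq ns a₀ m (i + 2)) (T.vx ε)) (T.E ε (ltq ns a₀ m (i + 1))))
      ≤ ∑ i ∈ range (k + 1), T.P2.entC (T.c2 (ltq ns a₀ m (i + 1)) (T.vy ε))
          (pair (T.c2 (ltq ns a₀ m (i + 1)) (T.vx ε)) (T.E ε (ltq ns a₀ m i))) := by
    rw [sum_range_succ' (fun i => T.P2.entC (T.c2 (ltq ns a₀ m (i + 1)) (T.vy ε))
          (pair (T.c2 (ltq ns a₀ m (i + 1)) (T.vx ε)) (T.E ε (ltq ns a₀ m i))))]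
    have h6 : 0 ≤ T.P2.entC (T.c2 (ltq ns a₀ m (0 + 1)) (T.vy ε))
          (pair (T.c2 (ltq ns a₀ m (0 + 1)) (T.vx ε)) (T.E ε (ltq ns a₀ m 0))) := ent_entC_nonneg _ _ _
    linarith
  rw [card_erase_of_mem (mem_range.2 (by omega)), card_range] at cx
  rw [card_range] at cy
  have hcard : ((k + 1 + r - 1 : ℕ) : ℝ) = (k : ℝ) + r := by
    have : k + 1 + r - 1 = k + r := by omega
    rw [this]
    push_cast
    ring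
  rw [hcard] at cx
  have her : T.er χ ζ ≤ 0.055 * κ ^ 2 * ((m : ℝ) / ns) * T.ℓ := by
    unfold LtData.er
    refine mul_le_mul_of_nonneg_right ?_ hℓ.le
    have := Z.χz
    have := Z.ζz
    linarith
  push_cast at hnz
  exact ltm_num hℓ hκ Z.κ1 hκη hε0 hε hz hz8 hε8 hG₁ hG₁' hG₂ hG₂' (Nat.cast_nonneg k) (Nat.cast_nonneg r) hkz hkrz hnz her
    (cx.trans sx) (cy.trans sy) en

/-- smallness of the scale: all conditions on `δ` used by `lt_main` -/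
theorem ltm_delta (τ κ z₀ ρ₁ : ℝ) (hτ : 0 < τ) (hκ : 0 < κ) (hz : 0 < z₀) (hρ : 0 < ρ₁) :
    ∃ δ₀ : ℝ, 0 < δ₀ ∧ ∀ δ : ℝ, 0 < δ → δ < δ₀ →
      1000 ≤ δ ^ (-τ) ∧ δ ^ (κ * z₀ / 100) ≤ κ / 100 ∧ 1000 ≤ κ ^ 2 * (z₀ * lg δ) ∧ δ ^ z₀ < ρ₁ := by
  obtain ⟨r1, hr1, s1⟩ := rt_small_scale τ (1 / 1000) hτ (by norm_num)
  obtain ⟨r2, hr2, s2⟩ := rt_small_scale (κ * z₀ / 100) (κ / 100) (by positivity) (by positivity)
  obtain ⟨r3, hr3, s3⟩ := rt_small_scale z₀ ρ₁ hz hρ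
  refine ⟨min (min r1 r2) (min r3 (Real.exp (-(1000 / (κ ^ 2 * z₀))))), by positivity, fun δ h0 h1 => ?_⟩
  have l1 : δ < r1 := lt_of_lt_of_le h1 ((min_le_left _ _).trans (min_le_left _ _))
  have l2 : δ < r2 := lt_of_lt_of_le h1 ((min_le_left _ _).trans (min_le_right _ _))
  have l3 : δ < r3 := lt_of_lt_of_le h1 ((min_le_right _ _).trans (min_le_left _ _))
  have l4 : δ < Real.exp (-(1000 / (κ ^ 2 * z₀))) := lt_of_lt_of_le h1 ((min_le_right _ _).trans (min_le_right _ _))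
  refine ⟨?_, (s2 δ h0 l2).le, ?_, s3 δ h0 l3⟩
  · have h := s1 δ h0 l1
    rw [Real.rpow_neg h0.le]
    have hp : 0 < δ ^ τ := Real.rpow_pos_of_pos h0 _
    rw [le_inv_comm₀ (by norm_num) hp]
    linarith
  · have h : Real.log δ < -(1000 / (κ ^ 2 * z₀)) := by
      have := Real.log_lt_log h0 l4
      rwa [Real.log_exp] at this
    have hlg : lg δ = - Real.log δ := by
      unfold lg
      rw [one_div, Real.log_inv]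
    have hpos : 0 < κ ^ 2 * z₀ := by positivity
    have h2 : 1000 / (κ ^ 2 * z₀) < lg δ := by rw [hlg]; linarith
    rw [div_lt_iff₀ hpos] at h2
    nlinarith

/-- the conditions `Sz` are monotone in the length of the layer -/
theorem ltm_sz {Ω : Type} [Fintype Ω] {T : LtData Ω} {κ z₀ z ε χ ζ : ℝ} {ns : ℕ} (h0 : 0 < T.δ) (h1 : T.δ < 1)
    (hκ : 0 < κ) (hκ1 : κ ≤ 1) (hz₀ : 0 < z₀) (hz : z₀ ≤ z) (h8 : 8 * z ≤ ε) (hgr : 10 ≤ κ * z₀ * ns)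
    (hχ : 1000 * χ ≤ κ ^ 2 * z₀) (hζ : 2000 * ζ ≤ κ ^ 2 * z₀) (hdl : T.δ ^ (κ * z₀ / 100) ≤ κ / 100)
    (hb : 1000 ≤ κ ^ 2 * (z₀ * T.ℓ)) : T.Sz κ z ε χ ζ ns := by
  have hℓ := ltp_ell_pos T h0 h1
  have hk2 : κ ^ 2 * z₀ ≤ κ ^ 2 * z := by gcongr
  refine ⟨hκ, hκ1, hz₀.trans_le hz, h8, hgr.trans (by gcongr), hχ.trans hk2, hζ.trans hk2, le_trans ?_ hdl, hb.trans (by gcongr)⟩
  exact Real.rpow_le_rpow_of_exponent_ge h0 h1.le (by gcongr)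


/-- the choice of the scale `m` and of the start `a₀`: `lts_scale` for `φ = (φx + φxy) ns/ℓ`, `Mf k = ns M(k/ns)` -/
theorem ltm_pick (g ε' η₂ : ℝ) (hg : 0 < g) (hg1 : g ≤ 1) (hε' : 0 < ε') (hη₂ : 0 < η₂) (m₀ : ℕ) (hm₀ : 0 < m₀) :
    ∃ m₁ : ℕ, m₀ ≤ m₁ ∧ ∃ e : ℝ, 0 < e ∧
      ∀ (Ω : Type) [Fintype Ω] (T : LtData Ω) (d τ χ ε ζ : ℝ) (Q : Finset ℝ) (M : ℝ → ℝ) (G : Ω → Prop) (ns : ℕ),
        T.Hyp d g τ χ ε Q M G → T.Sm τ χ ε ζ → 0 < d → d ≤ 1 → 0 < χ → (∀ k : ℕ, k ≤ 3 * ns → (k : ℝ) / ns ∈ Q) →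
        8 * (m₁ : ℝ) ≤ ε * ns → (m₁ : ℝ) ≤ e * ns → 2 * χ * ns ≤ e →
        ∃ m a₀ : ℕ, m₀ ≤ m ∧ m ≤ m₁ ∧ ε ≤ ltq ns a₀ m 0 ∧ ltq ns a₀ m 0 ≤ ε + 2 * ((m : ℝ) / ns) ∧
          (∀ k : ℕ, k ≤ m → (g - ε') * ((k : ℝ) / ns) ≤ M (((m + k : ℕ) : ℝ) / ns) - M ((m : ℝ) / ns)) ∧
          ∑ i ∈ (range (2 * ns + 1)).filter (fun i => a₀ + (i + 2) * m ≤ 2 * ns),
            ((T.φx ε (ltq ns a₀ m (i + 2)) (ltq ns a₀ m i) - T.φx ε (ltq ns a₀ m (i + 1)) (ltq ns a₀ m i)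
                - T.φx ε (ltq ns a₀ m (i + 2)) (ltq ns a₀ m (i + 1)))
              + (T.φxy ε (ltq ns a₀ m (i + 2)) (ltq ns a₀ m i) - T.φxy ε (ltq ns a₀ m (i + 1)) (ltq ns a₀ m i)
                - T.φxy ε (ltq ns a₀ m (i + 2)) (ltq ns a₀ m (i + 1)))) ≤ η₂ * T.ℓ := by
  obtain ⟨m₁, hm₁, e, he, HS⟩ := lts_scale g ε' (η₂ / 2) 3 hg hg1 hε' (by positivity) (by norm_num) m₀ hm₀
  refine ⟨m₁, hm₁, e, he, fun Ω _ T d τ χ ε ζ Q M G ns H S hd hd1 hχ hQ hns1 hns2 hχb => ?_⟩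
  have hℓ := ltp_ell_pos T H.δpos H.δlt
  have hε8 := S.ε1
  have hε : 0 < ε := by
    have := S.χε
    linarith
  have hm₀R : (1 : ℝ) ≤ m₀ := by exact_mod_cast hm₀
  have hm₁R : (m₀ : ℝ) ≤ m₁ := by exact_mod_cast hm₁
  have hns0 : (0 : ℝ) < ns := by
    by_contra hc
    have : ε * ns ≤ 0 := mul_nonpos_of_nonneg_of_nonpos hε.le (not_lt.1 hc)
    linarith
  have hεns : ε * ns ≤ 1 / 8 * ns := by gcongr
  have hnsR : (64 : ℝ) ≤ ns := by linarith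
  have hQ0 : (0 : ℝ) ∈ Q := by
    have := hQ 0 (Nat.zero_le _)
    simpa using this
  have hQ1 : (1 : ℝ) ∈ Q := by
    have := hQ ns (by omega)
    rwa [div_self hns0.ne'] at this
  obtain ⟨_, _, R3⟩ := ltm_roots H S hd hd1 hg hg1 hQ0 hQ1
  obtain ⟨n₀, hn₀a, hn₀b⟩ : ∃ n₀ : ℕ, ε * ns ≤ n₀ ∧ (n₀ : ℝ) < ε * ns + 1 :=
    ⟨⌈ε * ns⌉₊, Nat.le_ceil _, Nat.ceil_lt_add_one (by positivity)⟩
  have hn₀c : (n₀ : ℝ) ≤ ns := by linarith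
  have hn₀n : n₀ ≤ 2 * ns := by
    have : n₀ ≤ ns := by exact_mod_cast hn₀c
    omega
  have hdiv : ∀ a : ℕ, n₀ ≤ a → ε ≤ (a : ℝ) / ns := by
    intro a ha
    rw [le_div_iff₀ hns0]
    have : (n₀ : ℝ) ≤ a := by exact_mod_cast ha
    linarith
  have hdiv3 : ∀ a : ℕ, a ≤ 2 * ns → (a : ℝ) / ns ≤ 3 := by
    intro a ha
    rw [div_le_iff₀ hns0]
    have : (a : ℝ) ≤ 2 * ns := by exact_mod_cast ha
    linarith
  have hmono : ∀ a b : ℕ, a ≤ b → (a : ℝ) / ns ≤ (b : ℝ) / ns := by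
    intro a b hab
    have : (a : ℝ) ≤ b := by exact_mod_cast hab
    gcongr
  have hq : 0 < (ns : ℝ) / T.ℓ := by positivity
  have A1 : (m₁ : ℝ) ≤ e * (((2 * ns : ℕ) : ℝ) - n₀) := by
    push_cast
    have : e * ns ≤ e * (2 * ns - n₀) := by
      gcongr
      linarith
    linarith
  have A2 : ∀ a b : ℕ, n₀ ≤ a → a ≤ b → b ≤ 2 * ns →
      0 ≤ (T.φx ε ((b : ℝ) / ns) ((a : ℝ) / ns) + T.φxy ε ((b : ℝ) / ns) ((a : ℝ) / ns)) * (ns / T.ℓ) ∧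
      (T.φx ε ((b : ℝ) / ns) ((a : ℝ) / ns) + T.φxy ε ((b : ℝ) / ns) ((a : ℝ) / ns)) * (ns / T.ℓ) ≤ 3 * ((b : ℝ) - a) + e := by
    intro a b ha hab hb
    obtain ⟨p1, p2, p3, p4, _, _⟩ := ltm_phi H S (hdiv a ha) (hmono a b hab) le_rfl (hdiv3 b hb)
    refine ⟨by positivity, ?_⟩
    have h5 : T.φx ε ((b : ℝ) / ns) ((a : ℝ) / ns) + T.φxy ε ((b : ℝ) / ns) ((a : ℝ) / ns)
        ≤ (3 * ((b : ℝ) / ns - (a : ℝ) / ns) + 2 * χ) * T.ℓ := by linarith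
    calc _ ≤ (3 * ((b : ℝ) / ns - (a : ℝ) / ns) + 2 * χ) * T.ℓ * (ns / T.ℓ) := by gcongr
      _ = 3 * ((b : ℝ) - a) + 2 * χ * ns := by field_simp
      _ ≤ _ := by linarith
  have A3 : ∀ a b c : ℕ, n₀ ≤ a → a ≤ b → b ≤ c → c ≤ 2 * ns →
      (T.φx ε ((b : ℝ) / ns) ((a : ℝ) / ns) + T.φxy ε ((b : ℝ) / ns) ((a : ℝ) / ns)) * (ns / T.ℓ)
        + (T.φx ε ((c : ℝ) / ns) ((b : ℝ) / ns) + T.φxy ε ((c : ℝ) / ns) ((b : ℝ) / ns)) * (ns / T.ℓ)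
        ≤ (T.φx ε ((c : ℝ) / ns) ((a : ℝ) / ns) + T.φxy ε ((c : ℝ) / ns) ((a : ℝ) / ns)) * (ns / T.ℓ) + e := by
    intro a b c ha hab hbc hc
    obtain ⟨_, _, _, _, p5, p6⟩ := ltm_phi H S (hdiv a ha) (hmono a b hab) (hmono b c hbc) (hdiv3 c hc)
    have h5 : (T.φx ε ((b : ℝ) / ns) ((a : ℝ) / ns) + T.φxy ε ((b : ℝ) / ns) ((a : ℝ) / ns))
        + (T.φx ε ((c : ℝ) / ns) ((b : ℝ) / ns) + T.φxy ε ((c : ℝ) / ns) ((b : ℝ) / ns))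
        ≤ (T.φx ε ((c : ℝ) / ns) ((a : ℝ) / ns) + T.φxy ε ((c : ℝ) / ns) ((a : ℝ) / ns)) + 2 * χ * T.ℓ := by linarith
    have h6 := mul_le_mul_of_nonneg_right h5 hq.le
    have h7 : 2 * χ * T.ℓ * (ns / T.ℓ) = 2 * χ * ns := by field_simp
    linarith
  have A4 : ∀ k : ℕ, k ≤ 2 * m₁ → g * k - e ≤ ns * M ((k : ℝ) / ns) ∧ ns * M ((k : ℝ) / ns) ≤ k + e := by
    intro k hk
    have hk1 : (k : ℝ) ≤ 2 * m₁ := by exact_mod_cast hk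
    have hk2 : k ≤ 3 * ns := by
      have : (k : ℝ) ≤ 3 * ns := by linarith
      exact_mod_cast this
    have hk3 : (k : ℝ) / ns ≤ 3 := by
      rw [div_le_iff₀ hns0]
      exact_mod_cast hk2
    have q1 := H.mem _ (hQ k hk2)
    have q2 := R3 _ (hQ k hk2) (by positivity) hk3
    have q3 : (ns : ℝ) * (g * ((k : ℝ) / ns)) = g * k := by field_simp
    have q4 : (ns : ℝ) * ((k : ℝ) / ns + χ) = k + χ * ns := by field_simp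
    have q5 := mul_le_mul_of_nonneg_left q1 hns0.le
    have q6 := mul_le_mul_of_nonneg_left q2 hns0.le
    rw [q3] at q5
    rw [q4] at q6
    have q7 : 0 < χ * ns := by positivity
    constructor <;> linarith
  obtain ⟨m, j, hm0, hm1, hj, hw, hdef⟩ := HS n₀ (2 * ns)
    (fun b a => (T.φx ε ((b : ℝ) / ns) ((a : ℝ) / ns) + T.φxy ε ((b : ℝ) / ns) ((a : ℝ) / ns)) * (ns / T.ℓ))
    (fun k => ns * M ((k : ℝ) / ns)) hn₀n A1 A2 A3 A4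
  have hmR : (1 : ℝ) ≤ m := by
    have : (m₀ : ℝ) ≤ m := by exact_mod_cast hm0
    linarith
  have hjR : (j : ℝ) ≤ m := by exact_mod_cast hj.le
  refine ⟨m, n₀ + j, hm0, hm1, ?_, ?_, ?_, ?_⟩
  · unfold ltq
    exact hdiv _ (by omega)
  · unfold ltq
    rw [div_le_iff₀ hns0]
    push_cast
    have : (ε + 2 * ((m : ℝ) / ns)) * ns = ε * ns + 2 * m := by field_simp
    rw [this]
    linarith
  · intro k hk
    have h := hw k hk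
    have h2 : (g - ε') * ((k : ℝ) / ns) = ((g - ε') * k) / ns := by ring
    rw [h2, div_le_iff₀ hns0]
    linarith
  · have hterm : ∀ i : ℕ, ltsDef (fun b a => (T.φx ε ((b : ℝ) / ns) ((a : ℝ) / ns) + T.φxy ε ((b : ℝ) / ns) ((a : ℝ) / ns)) * (ns / T.ℓ))
        m (n₀ + j + i * m)
        = ((T.φx ε (ltq ns (n₀ + j) m (i + 2)) (ltq ns (n₀ + j) m i) - T.φx ε (ltq ns (n₀ + j) m (i + 1)) (ltq ns (n₀ + j) m i)
                - T.φx ε (ltq ns (n₀ + j) m (i + 2)) (ltq ns (n₀ + j) m (i + 1)))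
              + (T.φxy ε (ltq ns (n₀ + j) m (i + 2)) (ltq ns (n₀ + j) m i) - T.φxy ε (ltq ns (n₀ + j) m (i + 1)) (ltq ns (n₀ + j) m i)
                - T.φxy ε (ltq ns (n₀ + j) m (i + 2)) (ltq ns (n₀ + j) m (i + 1)))) * (ns / T.ℓ) := by
      intro i
      unfold ltsDef ltq
      have e1 : n₀ + j + i * m + 2 * m = n₀ + j + (i + 2) * m := by ring
      have e2 : n₀ + j + i * m + m = n₀ + j + (i + 1) * m := by ring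
      rw [e1, e2]
      ring
    rw [sum_congr rfl (fun i _ => hterm i), ← sum_mul] at hdef
    have h1 : η₂ / 2 * (((2 * ns : ℕ) : ℝ) - n₀) ≤ η₂ * ns := by
      push_cast
      have : (0 : ℝ) ≤ η₂ * n₀ := by positivity
      linarith
    have h2 := mul_le_mul_of_nonneg_right (hdef.trans h1) (show 0 ≤ T.ℓ / ns by positivity)
    have h3 : η₂ * ns * (T.ℓ / ns) = η₂ * T.ℓ := by field_simp
    rw [mul_assoc, h3] at h2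
    have h4 : (ns : ℝ) / T.ℓ * (T.ℓ / ns) = 1 := by field_simp
    rwa [h4, mul_one] at h2


/-- **Lemma act:line-test, finite form.**   Plan: header. -/
theorem lt_main (d g η : ℝ) (hd : 0 < d) (hd1 : d ≤ 1) (hg : 0 < g) (hg1 : g ≤ 1) (hη : 0 < η) :
    ∃ ε : ℝ, 0 < ε ∧ ε ≤ 1 ∧ ∃ χ : ℝ, 0 < χ ∧ χ ≤ 1 ∧ ∃ Q : Finset ℝ, (∀ q ∈ Q, 0 ≤ q ∧ q ≤ 3) ∧ ∃ τ : ℝ, 0 < τ ∧ τ ≤ 1 ∧ ∃ δ₀ : ℝ, 0 < δ₀ ∧
      ∀ (Ω : Type) [Fintype Ω] (T : LtData Ω) (M : ℝ → ℝ) (G : Ω → Prop), T.δ < δ₀ → T.Hyp d g τ χ ε Q M G →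
        (2 * d + g + 2 * min 1 (2 * d) + min 1 (d + g) - η) * T.ℓ ≤ T.P.entC T.O T.C := by
  -- the parameters
  obtain ⟨η₁, hη₁, hη₁a, hη₁b, hη₁c⟩ : ∃ η₁ : ℝ, 0 < η₁ ∧ η₁ ≤ η / 20 ∧ η₁ ≤ 1 ∧ η₁ ≤ d :=
    ⟨min (η / 20) (min 1 d), by positivity, min_le_left _ _, (min_le_right _ _).trans (min_le_left _ _),
      (min_le_right _ _).trans (min_le_right _ _)⟩
  obtain ⟨ε', hε', hε'a, hε'b⟩ : ∃ ε' : ℝ, 0 < ε' ∧ ε' ≤ η₁ ∧ ε' ≤ g / 2 :=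
    ⟨min η₁ (g / 2), by positivity, min_le_left _ _, min_le_right _ _⟩
  have hg' : 0 < g - ε' := by linarith
  have hg'1 : g - ε' ≤ 1 := by linarith
  obtain ⟨κx, hκx, ρx, hρx, HXp⟩ := ltp_x d η₁ hd hd1 hη₁
  obtain ⟨κy, hκy, ρy, hρy, HYp⟩ := ltp_y d (g - ε') η₁ hd hd1 hg' hg'1 hη₁
  obtain ⟨κ, hκ, hκa, hκb, hκc⟩ : ∃ κ : ℝ, 0 < κ ∧ κ ≤ κx ∧ κ ≤ κy ∧ κ ≤ η₁ :=
    ⟨min (min κx κy) η₁, by positivity, (min_le_left _ _).trans (min_le_left _ _), (min_le_left _ _).trans (min_le_right _ _),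
      min_le_right _ _⟩
  have hκ1 : κ ≤ 1 := hκc.trans hη₁b
  obtain ⟨ε, hεdef⟩ : ∃ ε : ℝ, ε = η₁ * κ ^ 2 / 2000 := ⟨_, rfl⟩
  have hε : 0 < ε := by rw [hεdef]; positivity
  have hε8 : ε ≤ 1 / 2000 := by
    rw [hεdef]
    have : η₁ * κ ^ 2 ≤ 1 * 1 ^ 2 := by gcongr
    linarith
  obtain ⟨η₂, hη₂def⟩ : ∃ η₂ : ℝ, η₂ = η₁ * κ / 8 := ⟨_, rfl⟩
  have hη₂ : 0 < η₂ := by rw [hη₂def]; positivity
  obtain ⟨m₀, hm₀, hm₀κ⟩ : ∃ m₀ : ℕ, 0 < m₀ ∧ 10 ≤ κ * m₀ := by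
    refine ⟨⌈10 / κ⌉₊ + 1, Nat.succ_pos _, ?_⟩
    have h := Nat.le_ceil (10 / κ)
    rw [div_le_iff₀ hκ] at h
    push_cast
    nlinarith
  obtain ⟨m₁, hm₁, e, he, HS⟩ := ltm_pick g ε' η₂ hg hg1 hε' hη₂ m₀ hm₀
  obtain ⟨ns, hns1, hns2⟩ : ∃ ns : ℕ, 8 * (m₁ : ℝ) ≤ ε * ns ∧ (m₁ : ℝ) ≤ e * ns := by
    refine ⟨⌈8 * (m₁ : ℝ) / ε⌉₊ + ⌈(m₁ : ℝ) / e⌉₊, ?_, ?_⟩
    · have h := Nat.le_ceil (8 * (m₁ : ℝ) / ε)
      rw [div_le_iff₀ hε] at h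
      push_cast
      have : (0 : ℝ) ≤ ⌈(m₁ : ℝ) / e⌉₊ := Nat.cast_nonneg _
      nlinarith
    · have h := Nat.le_ceil ((m₁ : ℝ) / e)
      rw [div_le_iff₀ he] at h
      push_cast
      have : (0 : ℝ) ≤ ⌈8 * (m₁ : ℝ) / ε⌉₊ := Nat.cast_nonneg _
      nlinarith
  have hm₀R : (1 : ℝ) ≤ m₀ := by exact_mod_cast hm₀
  have hm₁R : (m₀ : ℝ) ≤ m₁ := by exact_mod_cast hm₁
  have hns0 : (0 : ℝ) < ns := by
    by_contra hc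
    have : ε * ns ≤ 0 := mul_nonpos_of_nonneg_of_nonpos hε.le (not_lt.1 hc)
    linarith
  obtain ⟨z₀, hz₀def⟩ : ∃ z₀ : ℝ, z₀ = (m₀ : ℝ) / ns := ⟨_, rfl⟩
  have hz₀ : 0 < z₀ := by rw [hz₀def]; positivity
  obtain ⟨χ, hχ, hχa, hχb, hχc⟩ : ∃ χ : ℝ, 0 < χ ∧ 1000 * χ ≤ κ ^ 2 * z₀ ∧ 2 * χ * ns ≤ e ∧ 100 * χ ≤ ε := by
    refine ⟨min (κ ^ 2 * z₀ / 1000) (min (e / (2 * ns)) (ε / 100)), by positivity, ?_, ?_, ?_⟩
    · have := min_le_left (κ ^ 2 * z₀ / 1000) (min (e / (2 * ns)) (ε / 100))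
      linarith
    · have h := (min_le_right (κ ^ 2 * z₀ / 1000) (min (e / (2 * ns)) (ε / 100))).trans (min_le_left _ _)
      rw [le_div_iff₀ (by positivity)] at h
      linarith
    · have h := (min_le_right (κ ^ 2 * z₀ / 1000) (min (e / (2 * ns)) (ε / 100))).trans (min_le_right _ _)
      linarith
  obtain ⟨ζ, hζdef⟩ : ∃ ζ : ℝ, ζ = κ ^ 2 * z₀ / 2000 := ⟨_, rfl⟩
  have hζ : 0 < ζ := by rw [hζdef]; positivity
  obtain ⟨τ₀, hτ₀, HSep⟩ := ltl_sep d g χ ζ hd hg hχ (by linarith) hζ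
  obtain ⟨τ, hτ, hτa, hτb⟩ : ∃ τ : ℝ, 0 < τ ∧ τ ≤ τ₀ ∧ 100 * τ ≤ χ := by
    refine ⟨min τ₀ (χ / 100), by positivity, min_le_left _ _, ?_⟩
    have := min_le_right τ₀ (χ / 100)
    linarith
  obtain ⟨δs, hδs, HSep'⟩ := HSep τ hτ hτa
  obtain ⟨δd, hδd, HD⟩ := ltm_delta τ κ z₀ (min ρx ρy) hτ hκ hz₀ (by positivity)
  have hQ3 : ∀ q ∈ (range (3 * ns + 1)).image (fun k : ℕ => (k : ℝ) / ns) ∪ {χ}, 0 ≤ q ∧ q ≤ 3 := by
    intro q hq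
    rcases mem_union.1 hq with hq | hq
    · obtain ⟨k, hk, rfl⟩ := mem_image.1 hq
      refine ⟨by positivity, ?_⟩
      rw [div_le_iff₀ hns0]
      have : k ≤ 3 * ns := by have := mem_range.1 hk; omega
      exact_mod_cast this
    · rw [mem_singleton.1 hq]
      exact ⟨hχ.le, by linarith⟩
  refine ⟨ε, hε, by linarith, χ, hχ, by linarith, (range (3 * ns + 1)).image (fun k : ℕ => (k : ℝ) / ns) ∪ {χ}, hQ3, τ, hτ, by linarith,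
    min δs δd, by positivity, fun Ω _ T M G hδ H => ?_⟩
  obtain ⟨Q, hQdef⟩ : ∃ Q : Finset ℝ, Q = (range (3 * ns + 1)).image (fun k : ℕ => (k : ℝ) / ns) ∪ {χ} := ⟨_, rfl⟩
  rw [← hQdef] at H
  have hδ0 := H.δpos
  have hδ1 := H.δlt
  have hℓ := ltp_ell_pos T hδ0 hδ1
  obtain ⟨D1, D2, D3, D4⟩ := HD T.δ hδ0 (lt_of_lt_of_le hδ (min_le_right _ _))
  have S : T.Sm τ χ ε ζ := ⟨hτ, D1, hτb, hχc, by linarith, hζ.le⟩
  have hQ : ∀ k : ℕ, k ≤ 3 * ns → (k : ℝ) / ns ∈ Q := by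
    intro k hk
    rw [hQdef]
    exact mem_union_left _ (mem_image.2 ⟨k, mem_range.2 (by omega), rfl⟩)
  have hQ0 : (0 : ℝ) ∈ Q := by
    have := hQ 0 (Nat.zero_le _)
    simpa using this
  have hQχ : χ ∈ Q := by
    rw [hQdef]
    exact mem_union_right _ (mem_singleton_self _)
  have hG := HSep' Ω T ε Q M G H hQ0 hQχ (lt_of_lt_of_le hδ (min_le_left _ _))
  obtain ⟨m, a₀, hm0, hm1, hs0, hs1, hw, hD⟩ := HS Ω T d τ χ ε ζ Q M G ns H S hd hd1 hχ hQ hns1 hns2 hχb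
  have hmR0 : (m₀ : ℝ) ≤ m := by exact_mod_cast hm0
  have hmR1 : (m : ℝ) ≤ m₁ := by exact_mod_cast hm1
  have hzz : z₀ ≤ (m : ℝ) / ns := by rw [hz₀def]; gcongr
  have hz8 : 8 * ((m : ℝ) / ns) ≤ ε := by
    have : 8 * ((m : ℝ) / ns) = (8 * m) / ns := by ring
    rw [this, div_le_iff₀ hns0]
    linarith
  have Z : T.Sz κ ((m : ℝ) / ns) ε χ ζ ns := by
    refine ltm_sz hδ0 hδ1 hκ hκ1 hz₀ hzz hz8 ?_ hχa (by rw [hζdef]; linarith) D2 D3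
    have : κ * z₀ * ns = κ * m₀ := by rw [hz₀def]; field_simp
    rw [this]
    exact hm₀κ
  have hρ : T.δ ^ ((m : ℝ) / ns) < min ρx ρy :=
    lt_of_le_of_lt (Real.rpow_le_rpow_of_exponent_ge hδ0 hδ1.le hzz) D4
  have hqε : ∀ i : ℕ, ε ≤ ltq ns a₀ m i := by
    intro i
    refine hs0.trans ?_
    unfold ltq
    gcongr
    exact Nat.zero_le _
  have hq3 : ∀ i : ℕ, a₀ + (i + 2) * m ≤ 2 * ns → ltq ns a₀ m i + 3 * ((m : ℝ) / ns) ≤ 3 := by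
    intro i hi
    have h1 : ((a₀ + (i + 2) * m : ℕ) : ℝ) ≤ ((2 * ns : ℕ) : ℝ) := by exact_mod_cast hi
    push_cast at h1
    have h2 : ltq ns a₀ m i + 3 * ((m : ℝ) / ns) = ((a₀ : ℝ) + (i + 2) * m) / ns + (m : ℝ) / ns := by
      unfold ltq
      push_cast
      ring
    have h3 : ((a₀ : ℝ) + (i + 2) * m) / ns ≤ 2 := by
      rw [div_le_iff₀ hns0]
      exact h1
    rw [h2]
    linarith
  have e1 : ∀ i : ℕ, ltq ns a₀ m (i + 1) = ltq ns a₀ m i + (m : ℝ) / ns := by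
    intro i
    rw [ltm_q_add]
    push_cast
    ring
  have e2 : ∀ i : ℕ, ltq ns a₀ m (i + 2) = ltq ns a₀ m i + 2 * ((m : ℝ) / ns) := by
    intro i
    rw [ltm_q_add]
    push_cast
    ring
  have e3 : ∀ i : ℕ, ltq ns a₀ m (i + 3) = ltq ns a₀ m i + 3 * ((m : ℝ) / ns) := by
    intro i
    rw [ltm_q_add]
    push_cast
    ring
  have hmin1 : η₁ ≤ min 1 (d + d) := le_min hη₁b (by linarith)
  have hmin2 : η₁ ≤ min 1 (d + (g - ε')) := le_min hη₁b (by linarith)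
  have key := ltm_core (η₁ := η₁) (η₂ := η₂) (G₁ := min 1 (d + d) - η₁) (G₂ := min 1 (d + (g - ε')) - η₁) H S hG Z hd hd1 hg hg1 hQ hs0 hs1
    (by linarith) (by have := min_le_left 1 (d + d); linarith) (by linarith) (by have := min_le_left 1 (d + (g - ε')); linarith)
    hκc hη₁b (by rw [hεdef]; linarith) hη₂.le (by rw [hη₂def]; linarith)
    (by
      intro i hi
      rw [e3 i, e2 i, e1 i]
      exact HXp κ hκa Ω T g τ χ ε ζ Q M G ns (a₀ + i * m) m _ _ H S hG Z (hqε i) (hq3 i hi) hQ rfl rfl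
        (lt_of_lt_of_le hρ (min_le_left _ _)))
    (by
      intro i hi
      rw [e3 i, e2 i, e1 i]
      exact HYp κ hκb Ω T g τ χ ε ζ Q M G ns (a₀ + i * m) m _ _ H S hG Z (hqε i) (hq3 i hi) hQ rfl rfl
        (lt_of_lt_of_le hρ (min_le_right _ _)) hw)
    hD
  refine le_trans (mul_le_mul_of_nonneg_right ?_ hℓ.le) key
  have f1 : min 1 (d + g) ≤ min 1 (d + (g - ε')) + ε' := by
    rcases le_total 1 (d + (g - ε')) with h | h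
    · rw [min_eq_left h]
      have := min_le_left 1 (d + g)
      linarith
    · rw [min_eq_right h]
      have := min_le_right 1 (d + g)
      linarith
  have f2 : 2 * d = d + d := by ring
  rw [f2]
  linarith

end Claimed.Agent.R256
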