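import Claimed.Agent.R256.LT.Layer

/-!
# Row 256, unit LT, file 7: TELESCOPING and BUDGETS along a sequence of layers      (architect helper46)

Layers: `ltq ns a m i = (a + i m)/ns`, `i = 0,1,2,...` (depths on the mesh `1/ns`).  Cells `tcell δ p` are exactly nested in `p` (`R255.rt_nested`, `rt_floor_div`), so the chain rule telescopes exactly (`ltk_tele`, `ltk_tele_mi`).
Capacities: a real bounded by `2 δ^(-τ)` has `≤ δ^(-p-3τ)` cells at depth `p`;  `H(Ω) ≤ 8 ε ℓ`  (7 cells at depth `ε`, `100 τ ≤ ε`).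
* `lts_ang`   (first budget family)   `∑ H(X_{q_{i+1}} | C,S_k,X_{q_i},Ω) ≥ H(X_1|C) - (q_0 + 1 - q_n + 9ε) ℓ`.
* `lts_time`  (second family)         `∑ H(θ̃_{q_{i+1}} | Yr_{q_i}) ≥ (d (q_n - q_0) - 9ε) ℓ`.
* `lts_bud2`  `∑ I(θ̃_{q_{i+1}} ; X_{F,6},Ω | Z_R, θ̃_{q_i}) ≤ 9 ε ℓ`        (`ltl_copy_info`, `stat`).
* `lts_bud1`  (third family)          `∑ I(F_{q_{i+3}} ; Ω | C, F_{q_i}, Ω') ≤ 27 ε ℓ` for `Ω' = Om0` and `Ω' = OmT`.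
* `lts_phase` `∑ H(F_{q_{i+1}} | E_{q_i}) ≤ H(F_1|C)`;      `lts_chain`  the output chain rule.
-/

set_option autoImplicit false

namespace Claimed.Agent.R256

open scoped BigOperators
open Classical Finset
open Claimed.Agent.R255
open Claimed.Agent.R255.FLaw

/-- the depths of the layers -/
noncomputable def ltq (ns a m i : ℕ) : ℝ := ((a + i * m : ℕ) : ℝ) / (ns : ℝ)

theorem lts_eqns_cite : True := by
  have := @ltq.eq_1
  trivial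

/-- congruence of conditional informations (a.e. kernel form) -/
theorem lts_aux_miC_congr {Ω : Type} [Fintype Ω] {α α' β β' γ γ' : Type} (P : FLaw Ω) (X : Ω → α) (X' : Ω → α')
    (Y : Ω → β) (Y' : Ω → β') (Z : Ω → γ) (Z' : Ω → γ')
    (hZ : ∀ ω ω', P.p ω ≠ 0 → P.p ω' ≠ 0 → (Z ω = Z ω' ↔ Z' ω = Z' ω'))
    (hX : ∀ ω ω', P.p ω ≠ 0 → P.p ω' ≠ 0 → Z ω = Z ω' → (X ω = X ω' ↔ X' ω = X' ω'))
    (hY : ∀ ω ω', P.p ω ≠ 0 → P.p ω' ≠ 0 → Z ω = Z ω' → (Y ω = Y ω' ↔ Y' ω = Y' ω')) :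
    P.miC X Y Z = P.miC X' Y' Z' := by
  rw [ent_miC_eq, ent_miC_eq, ent_entC_congr P X X' Z Z' hZ hX]
  congr 1
  refine ent_entC_congr P X X' _ _ (fun ω ω' h1 h2 => ?_) (fun ω ω' h1 h2 h => hX ω ω' h1 h2 (Prod.mk.inj h).2)
  constructor
  · intro h
    exact Prod.ext ((hY ω ω' h1 h2 (Prod.mk.inj h).2).1 (Prod.mk.inj h).1) ((hZ ω ω' h1 h2).1 (Prod.mk.inj h).2)
  · intro h
    have h3 := (hZ ω ω' h1 h2).2 (Prod.mk.inj h).2
    exact Prod.ext ((hY ω ω' h1 h2 h3).2 (Prod.mk.inj h).1) h3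

/-- the dyadic levels increase with the depth -/
theorem lts_aux_tlev_mono {δ p p' : ℝ} (h0 : 0 < δ) (h1 : δ < 1) (h : p ≤ p') : tlev δ p ≤ tlev δ p' := by
  have hL : 0 < Real.logb 2 (1 / δ) := Real.logb_pos (by norm_num) (by rw [one_div]; exact (one_lt_inv₀ h0).2 h1)
  exact Nat.ceil_mono (mul_le_mul_of_nonneg_right h hL.le)

/-- the cells are exactly nested -/
theorem lts_aux_nested {δ p p' : ℝ} (h0 : 0 < δ) (h1 : δ < 1) (h : p ≤ p') {v v' : ℝ}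
    (hc : tcell δ p' v = tcell δ p' v') : tcell δ p v = tcell δ p v' := by
  obtain ⟨m, hm⟩ := Nat.exists_eq_add_of_le (lts_aux_tlev_mono h0 h1 h)
  have hc' : ⌊v * (2 : ℝ) ^ (tlev δ p')⌋ = ⌊v' * (2 : ℝ) ^ (tlev δ p')⌋ := hc
  rw [hm] at hc'
  show ⌊v * (2 : ℝ) ^ (tlev δ p)⌋ = ⌊v' * (2 : ℝ) ^ (tlev δ p)⌋
  rw [rt_floor_div v _ m, rt_floor_div v' _ m, hc']

/-- the phase cells are exactly nested -/
theorem lts_aux_nested_ph {δ p p' : ℝ} (h0 : 0 < δ) (h1 : δ < 1) (h : p ≤ p') {F F' : Ph}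
    (hc : F.cell δ p' = F'.cell δ p') : F.cell δ p = F'.cell δ p := by
  have hc' : (tcell δ p' F.X, tcell δ p' F.B, tcell δ p' F.P, tcell δ p' F.Y, tcell δ p' F.N, tcell δ p' F.D) =
      (tcell δ p' F'.X, tcell δ p' F'.B, tcell δ p' F'.P, tcell δ p' F'.Y, tcell δ p' F'.N, tcell δ p' F'.D) := hc
  simp only [Prod.mk.injEq] at hc'
  obtain ⟨a1, a2, a3, a4, a5, a6⟩ := hc'
  show (tcell δ p F.X, tcell δ p F.B, tcell δ p F.P, tcell δ p F.Y, tcell δ p F.N, tcell δ p F.D) =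
      (tcell δ p F'.X, tcell δ p F'.B, tcell δ p F'.P, tcell δ p F'.Y, tcell δ p F'.N, tcell δ p F'.D)
  rw [lts_aux_nested h0 h1 h a1, lts_aux_nested h0 h1 h a2, lts_aux_nested h0 h1 h a3, lts_aux_nested h0 h1 h a4,
    lts_aux_nested h0 h1 h a5, lts_aux_nested h0 h1 h a6]

theorem lts_aux_q_mono (ns a m : ℕ) {i j : ℕ} (h : i ≤ j) : ltq ns a m i ≤ ltq ns a m j := by
  unfold ltq
  exact div_le_div_of_nonneg_right (by exact_mod_cast Nat.add_le_add_left (Nat.mul_le_mul_right m h) a) (Nat.cast_nonneg ns)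

theorem lts_aux_q_nonneg (ns a m i : ℕ) : 0 ≤ ltq ns a m i := by
  unfold ltq
  positivity

/-- LEAF T1.  Exact telescoping of the chain rule along a nested sequence of labels. -/
theorem ltk_tele {Ω : Type} [Fintype Ω] {α β : Type} (P : FLaw Ω) (U : ℕ → Ω → α) (Y : Ω → β)
    (hn : ∀ i ω ω', U (i + 1) ω = U (i + 1) ω' → U i ω = U i ω') (n : ℕ) :
    P.entC (U n) Y = P.entC (U 0) Y + ∑ i ∈ range n, P.entC (U (i + 1)) (pair (U i) Y) := by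
  induction n with
  | zero => rw [Finset.sum_range_zero, add_zero]
  | succ n ih =>
    rw [Finset.sum_range_succ, ← add_assoc, ← ih, ← ent_entC_chain]
    refine ent_entC_congr P _ _ _ _ (fun _ _ _ _ => Iff.rfl) (fun ω ω' _ _ _ => ?_)
    exact ⟨fun h => Prod.ext (hn n ω ω' h) h, fun h => (Prod.mk.inj h).2⟩

/-- LEAF T1.  The same for conditional informations. -/
theorem ltk_tele_mi {Ω : Type} [Fintype Ω] {α β γ : Type} (P : FLaw Ω) (U : ℕ → Ω → α) (V : Ω → γ) (Y : Ω → β)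
    (hn : ∀ i ω ω', U (i + 1) ω = U (i + 1) ω' → U i ω = U i ω') (n : ℕ) :
    P.miC (U n) V Y = P.miC (U 0) V Y + ∑ i ∈ range n, P.miC (U (i + 1)) V (pair (U i) Y) := by
  have h1 := ltk_tele P U Y hn n
  have h2 := ltk_tele P U (pair V Y) hn n
  have h3 : ∀ i, P.miC (U (i + 1)) V (pair (U i) Y) =
      P.entC (U (i + 1)) (pair (U i) Y) - P.entC (U (i + 1)) (pair (U i) (pair V Y)) := by
    intro i
    rw [ent_miC_eq]
    congr 1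
    refine ent_entC_congr P _ _ _ _ (fun ω ω' _ _ => ?_) (fun _ _ _ _ _ => Iff.rfl)
    constructor
    · intro h
      exact Prod.ext (Prod.mk.inj (Prod.mk.inj h).2).1 (Prod.ext (Prod.mk.inj h).1 (Prod.mk.inj (Prod.mk.inj h).2).2)
    · intro h
      exact Prod.ext (Prod.mk.inj (Prod.mk.inj h).2).1 (Prod.ext (Prod.mk.inj h).1 (Prod.mk.inj (Prod.mk.inj h).2).2)
  rw [ent_miC_eq, ent_miC_eq, h1, h2, Finset.sum_congr rfl (fun i _ => h3 i), Finset.sum_sub_distrib]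
  ring

variable {Ω : Type} [Fintype Ω] {T : LtData Ω}

/-- `2^(tlev δ p) ≤ 2 δ^(-p)` -/
theorem lts_aux_pow_le {δ p : ℝ} (h0 : 0 < δ) (h1 : δ < 1) (hp : 0 ≤ p) : (2 : ℝ) ^ (tlev δ p) ≤ 2 * δ ^ (-p) := by
  have hL : 0 < Real.logb 2 (1 / δ) := Real.logb_pos (by norm_num) (by rw [one_div]; exact (one_lt_inv₀ h0).2 h1)
  have h3 : ((tlev δ p : ℕ) : ℝ) < p * Real.logb 2 (1 / δ) + 1 := Nat.ceil_lt_add_one (mul_nonneg hp hL.le)
  rw [rt_rpow_two δ (-p) h0, ← Real.rpow_natCast]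
  have e : (2 : ℝ) * (2 : ℝ) ^ (-(-p * Real.logb 2 (1 / δ))) = (2 : ℝ) ^ (p * Real.logb 2 (1 / δ) + 1) := by
    rw [Real.rpow_add (by norm_num), Real.rpow_one, mul_comm, neg_mul, neg_neg]
  rw [e]
  exact Real.rpow_le_rpow_of_exponent_le (by norm_num) h3.le

/-- `δ^(-p) ≤ 2^(tlev δ p)` -/
theorem lts_aux_le_pow {δ : ℝ} (p : ℝ) (h0 : 0 < δ) : δ ^ (-p) ≤ (2 : ℝ) ^ (tlev δ p) := by
  have h3 : p * Real.logb 2 (1 / δ) ≤ ((tlev δ p : ℕ) : ℝ) := Nat.le_ceil _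
  rw [rt_rpow_two δ (-p) h0, ← Real.rpow_natCast]
  exact Real.rpow_le_rpow_of_exponent_le (by norm_num) (by linarith)

theorem lts_aux_log_rpow {δ : ℝ} (h0 : 0 < δ) (e : ℝ) : Real.log (δ ^ (-e)) = e * lg δ := by
  rw [rt_rpow_lg δ (-e) h0, Real.log_exp]
  ring

theorem lts_aux_lg_pos {δ : ℝ} (h0 : 0 < δ) (h1 : δ < 1) : 0 < lg δ :=
  Real.log_pos (by rw [one_div]; exact (one_lt_inv₀ h0).2 h1)

/-- a real bounded by `2 δ^(-τ)` has at most `δ^(-p-3τ)` cells at depth `p` -/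
theorem lts_aux_cap {δ τ p : ℝ} (h0 : 0 < δ) (h1 : δ < 1) (hbig : 1000 ≤ δ ^ (-τ)) (hp : 0 ≤ p) :
    ∃ S : Finset ℤ, (S.card : ℝ) ≤ δ ^ (-(p + 3 * τ)) ∧ ∀ v : ℝ, |v| ≤ 2 * δ ^ (-τ) → tcell δ p v ∈ S := by
  have hpow : (0 : ℝ) < 2 ^ (tlev δ p) := by positivity
  have hx0 : 0 < δ ^ (-τ) := by positivity
  obtain ⟨B, hB⟩ : ∃ B : ℝ, B = 2 * δ ^ (-τ) * 2 ^ (tlev δ p) := ⟨_, rfl⟩
  have hB0 : 0 ≤ B := by rw [hB]; positivity
  refine ⟨Finset.Icc ⌊-B⌋ ⌊B⌋, ?_, ?_⟩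
  · rw [Int.card_Icc]
    have hle : ⌊-B⌋ ≤ ⌊B⌋ := Int.floor_le_floor (by linarith)
    have h00 : 0 ≤ ⌊B⌋ + 1 - ⌊-B⌋ := by omega
    have e : (((⌊B⌋ + 1 - ⌊-B⌋).toNat : ℕ) : ℝ) = ((⌊B⌋ + 1 - ⌊-B⌋ : ℤ) : ℝ) := by
      exact_mod_cast congrArg (fun z : ℤ => (z : ℝ)) (Int.toNat_of_nonneg h00)
    rw [e]
    push_cast
    have h2 := Int.floor_le B
    have h3 := Int.lt_floor_add_one (-B)
    have h4 : (2 : ℝ) ^ (tlev δ p) ≤ 2 * δ ^ (-p) := lts_aux_pow_le h0 h1 hp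
    have h5 : 1 ≤ δ ^ (-p) := Real.one_le_rpow_of_pos_of_le_one_of_nonpos h0 h1.le (by linarith)
    have e2 : δ ^ (-(p + 3 * τ)) = δ ^ (-p) * (δ ^ (-τ) * δ ^ (-τ) * δ ^ (-τ)) := by
      rw [← Real.rpow_add h0, ← Real.rpow_add h0, ← Real.rpow_add h0]
      congr 1
      ring
    rw [e2]
    have h6 : B ≤ 4 * (δ ^ (-τ) * δ ^ (-p)) := by
      rw [hB]
      calc 2 * δ ^ (-τ) * 2 ^ (tlev δ p) ≤ 2 * δ ^ (-τ) * (2 * δ ^ (-p)) := mul_le_mul_of_nonneg_left h4 (by positivity)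
        _ = 4 * (δ ^ (-τ) * δ ^ (-p)) := by ring
    have hx2 : 10 ≤ δ ^ (-τ) * δ ^ (-τ) := by nlinarith
    have hxy : 1 ≤ δ ^ (-τ) * δ ^ (-p) := by nlinarith
    have h7 : (δ ^ (-τ) * δ ^ (-p)) * 10 ≤ (δ ^ (-τ) * δ ^ (-p)) * (δ ^ (-τ) * δ ^ (-τ)) :=
      mul_le_mul_of_nonneg_left hx2 (by positivity)
    have e3 : δ ^ (-p) * (δ ^ (-τ) * δ ^ (-τ) * δ ^ (-τ)) = (δ ^ (-τ) * δ ^ (-p)) * (δ ^ (-τ) * δ ^ (-τ)) := by ring
    rw [e3]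
    linarith
  · intro v hv
    obtain ⟨a, b⟩ := abs_le.1 hv
    rw [Finset.mem_Icc]
    constructor
    · refine Int.floor_le_floor ?_
      rw [hB, ← neg_mul]
      exact mul_le_mul_of_nonneg_right a hpow.le
    · refine Int.floor_le_floor ?_
      rw [hB]
      exact mul_le_mul_of_nonneg_right b hpow.le

/-- capacity of one cell label -/
theorem lts_aux_ent_cell {Ω' : Type} [Fintype Ω'] (P : FLaw Ω') {δ τ p : ℝ} (h0 : 0 < δ) (h1 : δ < 1)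
    (hbig : 1000 ≤ δ ^ (-τ)) (hp : 0 ≤ p) (v : Ω' → ℝ) (hv : ∀ ω, P.p ω ≠ 0 → |v ω| ≤ 2 * δ ^ (-τ)) :
    P.ent (fun ω => tcell δ p (v ω)) ≤ (p + 3 * τ) * lg δ := by
  obtain ⟨S, hS, hmem⟩ := lts_aux_cap h0 h1 hbig hp
  have h2 := ent_le_log_card P (fun ω => tcell δ p (v ω)) S (fun ω hω => hmem _ (hv ω hω))
  obtain ⟨ω₀, hω₀⟩ := ent_exists_supp P
  have hc : 0 < (S.card : ℝ) := by exact_mod_cast Finset.card_pos.2 ⟨_, hmem _ (hv ω₀ hω₀)⟩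
  have h3 : Real.log S.card ≤ Real.log (δ ^ (-(p + 3 * τ))) := Real.log_le_log hc hS
  rw [lts_aux_log_rpow h0] at h3
  linarith

/-- a cell of depth `p` contains at most `δ^(-(p'-p+τ))` cells of depth `p'` -/
theorem lts_aux_refine {Ω' : Type} [Fintype Ω'] {β : Type} (P : FLaw Ω') {δ τ p p' : ℝ} (h0 : 0 < δ) (h1 : δ < 1)
    (hbig : 1000 ≤ δ ^ (-τ)) (hp : 0 ≤ p') (hpp : p ≤ p') (v : Ω' → ℝ) (Y : Ω' → β) :
    P.entC (fun ω => tcell δ p' (v ω)) (pair (fun ω => tcell δ p (v ω)) Y) ≤ (p' - p + τ) * lg δ := by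
  have hpow : (0 : ℝ) < 2 ^ (tlev δ p) := by positivity
  have hR : (0 : ℝ) ≤ (2 ^ (tlev δ p))⁻¹ := by positivity
  have hN := ltk_nval_close P (fun _ => True) (pair (fun ω => tcell δ p (v ω)) Y) v (tlev δ p') hR
    (fun ω ω' _ _ _ _ h => by
      have hc : ⌊v ω * (2 : ℝ) ^ (tlev δ p)⌋ = ⌊v ω' * (2 : ℝ) ^ (tlev δ p)⌋ := (Prod.mk.inj h).1
      have h2 := Int.abs_sub_lt_one_of_floor_eq_floor hc
      rw [← sub_mul, abs_mul, abs_of_pos hpow] at h2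
      rw [← one_div, le_div_iff₀ hpow]
      exact h2.le)
  have h2 : P.entC (fun ω => tcell δ p' (v ω)) (pair (fun ω => tcell δ p (v ω)) Y) ≤
      Real.log ((2 ^ (tlev δ p))⁻¹ * 2 ^ (tlev δ p') + 2) := ent_entC_le_log_nval P _ _ hN
  have h3 : (2 ^ (tlev δ p) : ℝ)⁻¹ * 2 ^ (tlev δ p') + 2 ≤ δ ^ (-(p' - p + τ)) := by
    have a1 : (2 : ℝ) ^ (tlev δ p') ≤ 2 * δ ^ (-p') := lts_aux_pow_le h0 h1 hp
    have a2 : δ ^ (-p) ≤ (2 : ℝ) ^ (tlev δ p) := lts_aux_le_pow p h0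
    have a3 : (2 ^ (tlev δ p) : ℝ)⁻¹ ≤ δ ^ p := by
      have : (δ ^ (-p))⁻¹ = δ ^ p := by rw [Real.rpow_neg h0.le, inv_inv]
      rw [← this]
      exact inv_anti₀ (by positivity) a2
    have a4 : (2 ^ (tlev δ p) : ℝ)⁻¹ * 2 ^ (tlev δ p') ≤ δ ^ p * (2 * δ ^ (-p')) :=
      mul_le_mul a3 a1 (by positivity) (by positivity)
    have e1 : δ ^ p * (2 * δ ^ (-p')) = 2 * δ ^ (-(p' - p)) := by
      have : δ ^ (-(p' - p)) = δ ^ p * δ ^ (-p') := by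
        rw [← Real.rpow_add h0]
        congr 1
        ring
      rw [this]
      ring
    have e2 : δ ^ (-(p' - p + τ)) = δ ^ (-(p' - p)) * δ ^ (-τ) := by
      rw [← Real.rpow_add h0]
      congr 1
      ring
    have a5 : 1 ≤ δ ^ (-(p' - p)) := Real.one_le_rpow_of_pos_of_le_one_of_nonpos h0 h1.le (by linarith)
    rw [e2]
    nlinarith
  have h4 : Real.log ((2 ^ (tlev δ p))⁻¹ * 2 ^ (tlev δ p') + 2) ≤ Real.log (δ ^ (-(p' - p + τ))) :=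
    Real.log_le_log (by positivity) h3
  rw [lts_aux_log_rpow h0] at h4
  linarith

/-- dropping a label of small capacity from the conditioning -/
theorem lts_aux_drop {Ω' : Type} [Fintype Ω'] {α β γ : Type} (P : FLaw Ω') (X : Ω' → α) (W : Ω' → γ) (Y : Ω' → β) :
    P.entC X Y - P.ent W ≤ P.entC X (pair W Y) := by
  have h1 := ent_miC_eq P X W Y
  have h2 := ent_miC_le_right P X W Y
  have h3 := ent_entC_le P W Y
  linarith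

/-- `H(Ω) ≤ 8 ε ℓ` -/
theorem lts_aux_Om {d g τ χ ε ζ : ℝ} {Q : Finset ℝ} {M : ℝ → ℝ} {G : Ω → Prop} (H : T.Hyp d g τ χ ε Q M G) (S : T.Sm τ χ ε ζ) :
    T.P2.ent (T.Om ε) ≤ 8 * ε * T.ℓ := by
  have hδ0 := H.δpos
  have hδ1 := H.δlt
  have hτ := S.τpos
  have hε : 10000 * τ ≤ ε := by
    have := S.τχ
    have := S.χε
    linarith
  have hε0 : 0 ≤ ε := by linarith
  have hx0 : 0 < T.δ ^ (-τ) := by positivity
  have hℓ : 0 < lg T.δ := lts_aux_lg_pos hδ0 hδ1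
  have hs := fun (x : Ω × Ω) (hx : T.P2.p x ≠ 0) => H.size x.1 (ltl_supp T x hx).1
  have hs2 := fun (x : Ω × Ω) (hx : T.P2.p x ≠ 0) => H.size x.2 (ltl_supp T x hx).2.1
  have c : ∀ v : Ω × Ω → ℝ, (∀ x, T.P2.p x ≠ 0 → |v x| ≤ 2 * T.δ ^ (-τ)) →
      T.P2.ent (fun x => tcell T.δ ε (v x)) ≤ (ε + 3 * τ) * lg T.δ :=
    fun v hv => lts_aux_ent_cell T.P2 hδ0 hδ1 S.big hε0 v hv
  have c1 := c (fun x => T.β x.1) (fun x hx => by
    have := (hs x hx).2.1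
    linarith)
  have c2 := c (fun x => T.κ x.1) (fun x hx => by
    have := (hs x hx).2.2.1
    linarith)
  have c3 := c (fun x => T.θ 0 x.1) (fun x hx => by
    have := ((hs x hx).2.2.2 0).1
    linarith)
  have c4 := c (fun x => T.r 0 x.1) (fun x hx => by
    have := ((hs x hx).2.2.2 0).2
    linarith)
  have c5 := c (fun x => T.θ 1 x.1) (fun x hx => by
    have := ((hs x hx).2.2.2 1).1
    linarith)
  have c6 := c (fun x => T.r 1 x.1) (fun x hx => by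
    have := ((hs x hx).2.2.2 1).2
    linarith)
  have c7 := c T.gap (fun x hx => by
    have a1 : |(T.F x.1).X| ≤ T.δ ^ (-τ) := (hs x hx).1.1
    have a2 : |(T.F x.2).X| ≤ T.δ ^ (-τ) := (hs2 x hx).1.1
    have a3 : |(T.F x.1).X - (T.F x.2).X| ≤ |(T.F x.1).X| + |(T.F x.2).X| := abs_sub _ _
    show |(T.F x.1).X - (T.F x.2).X| ≤ 2 * T.δ ^ (-τ)
    linarith)
  have p1 : T.P2.ent (T.Om ε) ≤ T.P2.ent (T.OmT ε) + T.P2.ent (fun x => tcell T.δ ε (T.gap x)) :=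
    ent_pair_le T.P2 (T.OmT ε) _
  have p2 : T.P2.ent (T.OmT ε) ≤ T.P2.ent (T.Om0 ε) + T.P2.ent (fun x : Ω × Ω =>
      ((tcell T.δ ε (T.θ 0 x.1), tcell T.δ ε (T.r 0 x.1)), (tcell T.δ ε (T.θ 1 x.1), tcell T.δ ε (T.r 1 x.1)))) :=
    ent_pair_le T.P2 (T.Om0 ε) _
  have p3 : T.P2.ent (T.Om0 ε) ≤ T.P2.ent (fun x : Ω × Ω => tcell T.δ ε (T.β x.1)) + T.P2.ent (fun x : Ω × Ω => tcell T.δ ε (T.κ x.1)) :=
    ent_pair_le T.P2 _ _
  have p4 : T.P2.ent (fun x : Ω × Ω =>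
      ((tcell T.δ ε (T.θ 0 x.1), tcell T.δ ε (T.r 0 x.1)), (tcell T.δ ε (T.θ 1 x.1), tcell T.δ ε (T.r 1 x.1)))) ≤
      T.P2.ent (fun x : Ω × Ω => (tcell T.δ ε (T.θ 0 x.1), tcell T.δ ε (T.r 0 x.1))) +
      T.P2.ent (fun x : Ω × Ω => (tcell T.δ ε (T.θ 1 x.1), tcell T.δ ε (T.r 1 x.1))) :=
    ent_pair_le T.P2 _ _
  have p5 : T.P2.ent (fun x : Ω × Ω => (tcell T.δ ε (T.θ 0 x.1), tcell T.δ ε (T.r 0 x.1))) ≤
      T.P2.ent (fun x : Ω × Ω => tcell T.δ ε (T.θ 0 x.1)) + T.P2.ent (fun x : Ω × Ω => tcell T.δ ε (T.r 0 x.1)) :=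
    ent_pair_le T.P2 _ _
  have p6 : T.P2.ent (fun x : Ω × Ω => (tcell T.δ ε (T.θ 1 x.1), tcell T.δ ε (T.r 1 x.1))) ≤
      T.P2.ent (fun x : Ω × Ω => tcell T.δ ε (T.θ 1 x.1)) + T.P2.ent (fun x : Ω × Ω => tcell T.δ ε (T.r 1 x.1)) :=
    ent_pair_le T.P2 _ _
  have fin : 7 * ((ε + 3 * τ) * lg T.δ) ≤ 8 * ε * lg T.δ := by
    have : 7 * (ε + 3 * τ) ≤ 8 * ε := by linarith
    have := mul_le_mul_of_nonneg_right this hℓ.le
    linarith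
  show T.P2.ent (T.Om ε) ≤ 8 * ε * lg T.δ
  linarith

/-- the angular cell of the target has little information on the copy, also given a label of the copy which fixes the root name -/
theorem lts_aux_copy {d g τ χ ε : ℝ} {Q : Finset ℝ} {M : ℝ → ℝ} {G : Ω → Prop} (H : T.Hyp d g τ χ ε Q M G)
    {β' γ' : Type} (V : Ω → γ') (W : Ω → β') (hW : ∀ ω ω', W ω = W ω' → T.C ω = T.C ω') :
    T.P2.miC (T.Xb2 6) (fun x => V x.2) (fun x => W x.2) ≤ τ * T.ℓ := by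
  have h1 := (ltl_copy_info T).trans (H.stat 0)
  have h2 := ent_miC_chain T.P2 (T.Xb2 6) (fun x => x.2) (fun x => W x.2) (fun x => T.C x.1)
  have h3 : T.P2.miC (T.Xb2 6) (pair (fun x => x.2) (fun x => W x.2)) (fun x => T.C x.1) ≤
      T.P2.miC (T.Xb2 6) (fun x => x.2) (fun x => T.C x.1) :=
    ent_miC_mono _ _ _ _ _ fun ω ω' _ _ h _ => Prod.ext h (congrArg W h)
  have h4 := ent_miC_nonneg T.P2 (T.Xb2 6) (fun x => W x.2) (fun x => T.C x.1)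
  have h5 : T.P2.miC (T.Xb2 6) (fun x => x.2) (pair (fun x => W x.2) (fun x => T.C x.1)) =
      T.P2.miC (T.Xb2 6) (fun x => x.2) (fun x => W x.2) :=
    lts_aux_miC_congr _ _ _ _ _ _ _
      (fun ω ω' a b => ⟨fun h => (Prod.mk.inj h).1, fun h => Prod.ext h (by
        have e1 : T.C ω.1 = T.C ω.2 := congrArg Prod.fst (ltl_supp T ω a).2.2
        have e2 : T.C ω'.1 = T.C ω'.2 := congrArg Prod.fst (ltl_supp T ω' b).2.2
        show T.C ω.1 = T.C ω'.1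
        rw [e1, e2]
        exact hW _ _ h)⟩)
      (fun _ _ _ _ _ => Iff.rfl) (fun _ _ _ _ _ => Iff.rfl)
  have h6 : T.P2.miC (T.Xb2 6) (fun x => V x.2) (fun x => W x.2) ≤ T.P2.miC (T.Xb2 6) (fun x => x.2) (fun x => W x.2) :=
    ent_miC_mono _ _ _ _ _ fun ω ω' _ _ h _ => congrArg V h
  linarith

/-- LEAF T2 -/
theorem lts_ang {d g τ χ ε ζ : ℝ} {Q : Finset ℝ} {M : ℝ → ℝ} {G : Ω → Prop} (H : T.Hyp d g τ χ ε Q M G) (S : T.Sm τ χ ε ζ)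
    (k : Fin 2) (ns a m n : ℕ) (hns : 0 < ns) (h1 : ltq ns a m n ≤ 1) :
    T.P.entC (T.Xb 1) T.C - (ltq ns a m 0 + 1 - ltq ns a m n + 9 * ε) * T.ℓ
      ≤ ∑ i ∈ range n, T.P2.entC (T.Xb2 (ltq ns a m (i + 1))) (T.Ak ε k (ltq ns a m i)) := by
  have hδ0 := H.δpos
  have hδ1 := H.δlt
  have hτ := S.τpos
  have hε : 10000 * τ ≤ ε := by
    have := S.τχ
    have := S.χε
    linarith
  have hℓ : 0 < T.ℓ := lts_aux_lg_pos hδ0 hδ1
  have hx0 : 0 < T.δ ^ (-τ) := by positivity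
  have ht := ltk_tele T.P2 (fun i => T.Xb2 (ltq ns a m i)) (pair (T.Om ε) (fun x => T.CS k x.1))
    (fun i ω ω' h => lts_aux_nested hδ0 hδ1 (lts_aux_q_mono ns a m (Nat.le_succ i)) h) n
  have e1 : ∀ i, T.P2.entC (T.Xb2 (ltq ns a m (i + 1))) (T.Ak ε k (ltq ns a m i)) =
      T.P2.entC (T.Xb2 (ltq ns a m (i + 1))) (pair (T.Xb2 (ltq ns a m i)) (pair (T.Om ε) (fun x => T.CS k x.1))) := by
    intro i
    refine ent_entC_congr _ _ _ _ _ (fun ω ω' _ _ => ?_) (fun _ _ _ _ _ => Iff.rfl)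
    constructor
    · intro h
      have h' : (T.CS k ω.1, T.Xb (ltq ns a m i) ω.1, T.Om ε ω) = (T.CS k ω'.1, T.Xb (ltq ns a m i) ω'.1, T.Om ε ω') := h
      exact Prod.ext (Prod.mk.inj (Prod.mk.inj h').2).1 (Prod.ext (Prod.mk.inj (Prod.mk.inj h').2).2 (Prod.mk.inj h').1)
    · intro h
      show (T.CS k ω.1, T.Xb (ltq ns a m i) ω.1, T.Om ε ω) = (T.CS k ω'.1, T.Xb (ltq ns a m i) ω'.1, T.Om ε ω')
      exact Prod.ext (Prod.mk.inj (Prod.mk.inj h).2).2 (Prod.ext (Prod.mk.inj h).1 (Prod.mk.inj (Prod.mk.inj h).2).1)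
  rw [Finset.sum_congr rfl (fun i _ => e1 i)]
  have b1 : T.P2.entC (T.Xb2 (ltq ns a m 0)) (pair (T.Om ε) (fun x => T.CS k x.1)) ≤ (ltq ns a m 0 + 3 * τ) * T.ℓ :=
    (ent_entC_le _ _ _).trans (lts_aux_ent_cell T.P2 hδ0 hδ1 S.big (lts_aux_q_nonneg ns a m 0) (fun x => (T.F x.1).X)
      (fun x hx => by
        have a1 : |(T.F x.1).X| ≤ T.δ ^ (-τ) := (H.size x.1 (ltl_supp T x hx).1).1.1
        linarith))
  have b2 := lts_aux_drop T.P2 (T.Xb2 (ltq ns a m n)) (T.Om ε) (fun x => T.CS k x.1)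
  have b3 := lts_aux_Om H S
  have b4 : T.P2.entC (T.Xb2 (ltq ns a m n)) (fun x => T.CS k x.1) = T.P.entC (T.Xb (ltq ns a m n)) (T.CS k) :=
    ltl_fst_entC T _ _
  have b5 : T.P.entC (T.Xb (ltq ns a m n)) (T.CS k) =
      T.P.entC (T.Xb (ltq ns a m n)) T.C - T.P.miC (T.Xb (ltq ns a m n)) (T.S k) T.C := by
    have e2 : T.P.entC (T.Xb (ltq ns a m n)) (T.CS k) = T.P.entC (T.Xb (ltq ns a m n)) (pair (T.S k) T.C) :=
      ent_entC_congr _ _ _ _ _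
        (fun ω ω' _ _ => ⟨fun h => Prod.ext (Prod.mk.inj h).2 (Prod.mk.inj h).1, fun h => Prod.ext (Prod.mk.inj h).2 (Prod.mk.inj h).1⟩)
        (fun _ _ _ _ _ => Iff.rfl)
    rw [ent_miC_eq, e2]
    ring
  have b6 : T.P.miC (T.Xb (ltq ns a m n)) (T.S k) T.C ≤ τ * T.ℓ := by
    refine le_trans ?_ (H.stat k)
    rw [ent_miC_comm, ent_miC_comm T.P (T.Xb 6)]
    exact ent_miC_mono _ _ _ _ _ fun ω ω' _ _ h _ => lts_aux_nested hδ0 hδ1 (by linarith) h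
  have b7 : T.P.entC (T.Xb 1) T.C ≤ T.P.entC (T.Xb (ltq ns a m n)) T.C + T.P.entC (T.Xb 1) (pair (T.Xb (ltq ns a m n)) T.C) := by
    rw [← ent_entC_chain]
    exact ent_entC_mono _ _ _ _ fun ω ω' _ _ h _ => (Prod.mk.inj h).2
  have b8 : T.P.entC (T.Xb 1) (pair (T.Xb (ltq ns a m n)) T.C) ≤ (1 - ltq ns a m n + τ) * T.ℓ :=
    lts_aux_refine T.P hδ0 hδ1 S.big (by norm_num) h1 (fun ω => (T.F ω).X) T.C
  have b9 : 5 * τ * T.ℓ ≤ ε * T.ℓ := mul_le_mul_of_nonneg_right (by linarith) hℓ.le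
  linarith

/-- LEAF T3 -/
theorem lts_time {d g τ χ ε ζ : ℝ} {Q : Finset ℝ} {M : ℝ → ℝ} {G : Ω → Prop} (H : T.Hyp d g τ χ ε Q M G) (S : T.Sm τ χ ε ζ)
    (hd : 0 < d) (hd1 : d ≤ 1) (ns a m n : ℕ) (hns : 0 < ns) (h0 : ltq ns a m 0 ∈ Q) (hn : ltq ns a m n ∈ Q) (h3 : ltq ns a m n ≤ 3) :
    (d * (ltq ns a m n - ltq ns a m 0) - 9 * ε) * T.ℓ
      ≤ ∑ i ∈ range n, T.P2.entC (T.c2 (ltq ns a m (i + 1)) T.θR) (T.Yr ε (ltq ns a m i)) := by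
  have hδ0 := H.δpos
  have hδ1 := H.δlt
  have hτ := S.τpos
  have hε : 10000 * τ ≤ ε := by
    have := S.τχ
    have := S.χε
    linarith
  have hℓ : 0 < T.ℓ := lts_aux_lg_pos hδ0 hδ1
  have hq0 := lts_aux_q_nonneg ns a m 0
  have hq0n : ltq ns a m 0 ≤ ltq ns a m n := lts_aux_q_mono ns a m (Nat.zero_le n)
  by_cases hc : 0 ≤ (d * (ltq ns a m n - ltq ns a m 0) - τ) * T.ℓ
  · have ht := ltk_tele T.P2 (fun i => T.c2 (ltq ns a m i) T.θR) (pair (T.Om ε) (pair (T.Xb2 6) (fun x => T.Zs x.2)))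
      (fun i ω ω' h => lts_aux_nested hδ0 hδ1 (lts_aux_q_mono ns a m (Nat.le_succ i)) h) n
    have e1 : ∀ i, T.P2.entC (T.c2 (ltq ns a m (i + 1)) T.θR) (T.Yr ε (ltq ns a m i)) =
        T.P2.entC (T.c2 (ltq ns a m (i + 1)) T.θR)
          (pair (T.c2 (ltq ns a m i) T.θR) (pair (T.Om ε) (pair (T.Xb2 6) (fun x => T.Zs x.2)))) := by
      intro i
      refine ent_entC_congr _ _ _ _ _ (fun ω ω' _ _ => ?_) (fun _ _ _ _ _ => Iff.rfl)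
      constructor
      · intro h
        have h' : ((T.Zs ω.2, T.Xb 6 ω.1), tcell T.δ (ltq ns a m i) (T.θR ω), T.Om ε ω) =
          ((T.Zs ω'.2, T.Xb 6 ω'.1), tcell T.δ (ltq ns a m i) (T.θR ω'), T.Om ε ω') := h
        exact Prod.ext (Prod.mk.inj (Prod.mk.inj h').2).1 (Prod.ext (Prod.mk.inj (Prod.mk.inj h').2).2
          (Prod.ext (Prod.mk.inj (Prod.mk.inj h').1).2 (Prod.mk.inj (Prod.mk.inj h').1).1))
      · intro h
        show ((T.Zs ω.2, T.Xb 6 ω.1), tcell T.δ (ltq ns a m i) (T.θR ω), T.Om ε ω) =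
          ((T.Zs ω'.2, T.Xb 6 ω'.1), tcell T.δ (ltq ns a m i) (T.θR ω'), T.Om ε ω')
        exact Prod.ext (Prod.ext (Prod.mk.inj (Prod.mk.inj (Prod.mk.inj h).2).2).2 (Prod.mk.inj (Prod.mk.inj (Prod.mk.inj h).2).2).1)
          (Prod.ext (Prod.mk.inj h).1 (Prod.mk.inj (Prod.mk.inj h).2).1)
    rw [Finset.sum_congr rfl (fun i _ => e1 i)]
    have e2 : T.P2.entC (T.c2 (ltq ns a m n) T.θR) (pair (T.Om ε) (pair (T.Xb2 6) (fun x => T.Zs x.2))) =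
        T.P2.entC (T.c2 (ltq ns a m 0) T.θR) (pair (T.Om ε) (pair (T.Xb2 6) (fun x => T.Zs x.2))) +
        T.P2.entC (T.c2 (ltq ns a m n) T.θR)
          (pair (T.c2 (ltq ns a m 0) T.θR) (pair (T.Om ε) (pair (T.Xb2 6) (fun x => T.Zs x.2)))) := by
      rw [← ent_entC_chain]
      exact ent_entC_congr _ _ _ _ _ (fun _ _ _ _ => Iff.rfl)
        (fun ω ω' _ _ _ => ⟨fun h => Prod.ext (lts_aux_nested hδ0 hδ1 hq0n h) h, fun h => (Prod.mk.inj h).2⟩)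
    have e3 : T.P2.entC (T.c2 (ltq ns a m n) T.θR)
          (pair (T.c2 (ltq ns a m 0) T.θR) (pair (T.Om ε) (pair (T.Xb2 6) (fun x => T.Zs x.2)))) =
        T.P2.entC (T.c2 (ltq ns a m n) T.θR)
          (pair (T.Om ε) (pair (T.Xb2 6) (pair (T.c2 (ltq ns a m 0) T.θR) (fun x => T.Zs x.2)))) := by
      refine ent_entC_congr _ _ _ _ _ (fun ω ω' _ _ => ?_) (fun _ _ _ _ _ => Iff.rfl)
      constructor
      · intro h
        exact Prod.ext (Prod.mk.inj (Prod.mk.inj h).2).1 (Prod.ext (Prod.mk.inj (Prod.mk.inj (Prod.mk.inj h).2).2).1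
          (Prod.ext (Prod.mk.inj h).1 (Prod.mk.inj (Prod.mk.inj (Prod.mk.inj h).2).2).2))
      · intro h
        exact Prod.ext (Prod.mk.inj (Prod.mk.inj (Prod.mk.inj h).2).2).1 (Prod.ext (Prod.mk.inj h).1
          (Prod.ext (Prod.mk.inj (Prod.mk.inj h).2).1 (Prod.mk.inj (Prod.mk.inj (Prod.mk.inj h).2).2).2))
    have b1 := lts_aux_drop T.P2 (T.c2 (ltq ns a m n) T.θR) (T.Om ε)
      (pair (T.Xb2 6) (pair (T.c2 (ltq ns a m 0) T.θR) (fun x => T.Zs x.2)))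
    have b2 := ent_miC_eq T.P2 (T.c2 (ltq ns a m n) T.θR) (T.Xb2 6) (pair (T.c2 (ltq ns a m 0) T.θR) (fun x => T.Zs x.2))
    have b3 : T.P2.miC (T.c2 (ltq ns a m n) T.θR) (T.Xb2 6) (pair (T.c2 (ltq ns a m 0) T.θR) (fun x => T.Zs x.2)) ≤ τ * T.ℓ := by
      rw [ent_miC_comm]
      exact lts_aux_copy H (fun ω => tcell T.δ (ltq ns a m n) (T.θ 0 ω)) (fun ω => (tcell T.δ (ltq ns a m 0) (T.θ 0 ω), T.Zs ω))
        (fun ω ω' h => (H.side ω ω' (Prod.mk.inj h).2).1)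
    have b4 : T.P2.entC (T.c2 (ltq ns a m n) T.θR) (pair (T.c2 (ltq ns a m 0) T.θR) (fun x => T.Zs x.2)) =
        T.P.entC (T.cb (ltq ns a m n) (T.θ 0)) (pair (T.cb (ltq ns a m 0) (T.θ 0)) T.Zs) :=
      ltl_snd_entC T (T.cb (ltq ns a m n) (T.θ 0)) (pair (T.cb (ltq ns a m 0) (T.θ 0)) T.Zs)
    have b5 : T.P.entC (T.cb (ltq ns a m n) (T.θ 0)) (pair (T.cb (ltq ns a m 0) (T.θ 0)) T.Zs) =
        T.P.entC (T.cb (ltq ns a m n) (T.θ 0)) (pair T.Zs (T.cb (ltq ns a m 0) (T.θ 0))) :=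
      ent_entC_congr _ _ _ _ _
        (fun ω ω' _ _ => ⟨fun h => Prod.ext (Prod.mk.inj h).2 (Prod.mk.inj h).1, fun h => Prod.ext (Prod.mk.inj h).2 (Prod.mk.inj h).1⟩)
        (fun _ _ _ _ _ => Iff.rfl)
    have b6 := ltk_ent_ge T.P _ _ hc (H.time _ h0 _ hn hq0n)
    have b7 := lts_aux_Om H S
    have b8 : d * (ltq ns a m n - ltq ns a m 0) - τ ≤ 3 := by nlinarith
    have b9 : (d * (ltq ns a m n - ltq ns a m 0) - τ) * T.ℓ ≤ 3 * T.ℓ := mul_le_mul_of_nonneg_right b8 hℓ.le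
    have b10 : (d * (ltq ns a m n - ltq ns a m 0) - τ) * T.ℓ * τ ≤ 3 * T.ℓ * τ := mul_le_mul_of_nonneg_right b9 hτ.le
    have b11 : 5 * τ * T.ℓ ≤ ε * T.ℓ := mul_le_mul_of_nonneg_right (by linarith) hℓ.le
    have b12 : (d * (ltq ns a m n - ltq ns a m 0) - τ) * T.ℓ * (1 - τ) =
        (d * (ltq ns a m n - ltq ns a m 0) - τ) * T.ℓ - (d * (ltq ns a m n - ltq ns a m 0) - τ) * T.ℓ * τ := by ring
    have b13 : (d * (ltq ns a m n - ltq ns a m 0) - 9 * ε) * T.ℓ =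
        (d * (ltq ns a m n - ltq ns a m 0) - τ) * T.ℓ + τ * T.ℓ - 9 * (ε * T.ℓ) := by ring
    have b14 : 3 * T.ℓ * τ = 3 * (τ * T.ℓ) := by ring
    have b15 : 5 * τ * T.ℓ = 5 * (τ * T.ℓ) := by ring
    have b16 : 8 * ε * T.ℓ = 8 * (ε * T.ℓ) := by ring
    rw [b12] at b6
    rw [b13]
    linarith
  · have s0 : 0 ≤ ∑ i ∈ range n, T.P2.entC (T.c2 (ltq ns a m (i + 1)) T.θR) (T.Yr ε (ltq ns a m i)) :=
      Finset.sum_nonneg fun i _ => ent_entC_nonneg _ _ _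
    have s1 : (d * (ltq ns a m n - ltq ns a m 0) - 9 * ε) * T.ℓ ≤ (d * (ltq ns a m n - ltq ns a m 0) - τ) * T.ℓ :=
      mul_le_mul_of_nonneg_right (by linarith) hℓ.le
    linarith [not_le.1 hc]

/-- LEAF T3 -/
theorem lts_bud2 {d g τ χ ε ζ : ℝ} {Q : Finset ℝ} {M : ℝ → ℝ} {G : Ω → Prop} (H : T.Hyp d g τ χ ε Q M G) (S : T.Sm τ χ ε ζ)
    (ns a m n : ℕ) (hns : 0 < ns) :
    ∑ i ∈ range n, T.P2.miC (T.c2 (ltq ns a m (i + 1)) T.θR) (pair (T.Xb2 6) (T.Om ε))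
        (pair (fun x => T.Zs x.2) (T.c2 (ltq ns a m i) T.θR)) ≤ 9 * ε * T.ℓ := by
  have hδ0 := H.δpos
  have hδ1 := H.δlt
  have hτ := S.τpos
  have hε : 10000 * τ ≤ ε := by
    have := S.τχ
    have := S.χε
    linarith
  have hℓ : 0 < T.ℓ := lts_aux_lg_pos hδ0 hδ1
  have ht := ltk_tele_mi T.P2 (fun i => T.c2 (ltq ns a m i) T.θR) (pair (T.Om ε) (T.Xb2 6)) (fun x => T.Zs x.2)
    (fun i ω ω' h => lts_aux_nested hδ0 hδ1 (lts_aux_q_mono ns a m (Nat.le_succ i)) h) n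
  have e1 : ∀ i, T.P2.miC (T.c2 (ltq ns a m (i + 1)) T.θR) (pair (T.Xb2 6) (T.Om ε))
        (pair (fun x => T.Zs x.2) (T.c2 (ltq ns a m i) T.θR)) =
      T.P2.miC (T.c2 (ltq ns a m (i + 1)) T.θR) (pair (T.Om ε) (T.Xb2 6))
        (pair (T.c2 (ltq ns a m i) T.θR) (fun x => T.Zs x.2)) := fun i =>
    lts_aux_miC_congr _ _ _ _ _ _ _
      (fun ω ω' _ _ => ⟨fun h => Prod.ext (Prod.mk.inj h).2 (Prod.mk.inj h).1, fun h => Prod.ext (Prod.mk.inj h).2 (Prod.mk.inj h).1⟩)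
      (fun _ _ _ _ _ => Iff.rfl)
      (fun ω ω' _ _ _ => ⟨fun h => Prod.ext (Prod.mk.inj h).2 (Prod.mk.inj h).1, fun h => Prod.ext (Prod.mk.inj h).2 (Prod.mk.inj h).1⟩)
  rw [Finset.sum_congr rfl (fun i _ => e1 i)]
  have b1 := ent_miC_chain T.P2 (T.c2 (ltq ns a m n) T.θR) (T.Om ε) (T.Xb2 6) (fun x => T.Zs x.2)
  have b2 : T.P2.miC (T.c2 (ltq ns a m n) T.θR) (T.Xb2 6) (fun x => T.Zs x.2) ≤ τ * T.ℓ := by
    rw [ent_miC_comm]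
    exact lts_aux_copy H (fun ω => tcell T.δ (ltq ns a m n) (T.θ 0 ω)) T.Zs (fun ω ω' h => (H.side ω ω' h).1)
  have b3 : T.P2.miC (T.c2 (ltq ns a m n) T.θR) (T.Om ε) (pair (T.Xb2 6) (fun x => T.Zs x.2)) ≤ 8 * ε * T.ℓ :=
    (ent_miC_le_right _ _ _ _).trans ((ent_entC_le _ _ _).trans (lts_aux_Om H S))
  have b4 := ent_miC_nonneg T.P2 (T.c2 (ltq ns a m 0) T.θR) (pair (T.Om ε) (T.Xb2 6)) (fun x => T.Zs x.2)
  have b5 : τ * T.ℓ ≤ ε * T.ℓ := mul_le_mul_of_nonneg_right (by linarith) hℓ.le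
  linarith

/-- splitting a sum into the residues mod 3 -/
theorem lts_aux_mod3 (f : ℕ → ℝ) (hf : ∀ i, 0 ≤ f i) (B : ℝ) (h : ∀ r J, ∑ j ∈ range J, f (3 * j + r) ≤ B) (n : ℕ) :
    ∑ i ∈ range n, f i ≤ 3 * B := by
  have h1 : ∑ i ∈ range n, f i ≤ ∑ i ∈ range (3 * n), f i :=
    Finset.sum_le_sum_of_subset_of_nonneg (Finset.range_subset_range.2 (by omega)) (fun i _ _ => hf i)
  have h2 : ∀ k, ∑ i ∈ range (3 * k), f i =
      ∑ j ∈ range k, f (3 * j + 0) + ∑ j ∈ range k, f (3 * j + 1) + ∑ j ∈ range k, f (3 * j + 2) := by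
    intro k
    induction k with
    | zero => simp
    | succ k ih =>
      have e : 3 * (k + 1) = 3 * k + 3 := by ring
      rw [e, Finset.sum_range_succ, Finset.sum_range_succ, Finset.sum_range_succ, ih, Finset.sum_range_succ,
        Finset.sum_range_succ, Finset.sum_range_succ, add_zero]
      ring
  have a0 := h 0 n
  have a1 := h 1 n
  have a2 := h 2 n
  rw [h2 n] at h1
  linarith

/-- the phase budget along one residue mod 3 -/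
theorem lts_aux_bud1_res {d g τ χ ε ζ : ℝ} {Q : Finset ℝ} {M : ℝ → ℝ} {G : Ω → Prop} (H : T.Hyp d g τ χ ε Q M G) (S : T.Sm τ χ ε ζ)
    {β' : Type} (W : Ω × Ω → β') (ns a m r J : ℕ) :
    ∑ j ∈ range J, T.P2.miC (T.Fb2 (ltq ns a m (3 * j + r + 3))) (T.Om ε)
        (fun x => (T.C x.1, T.Fb2 (ltq ns a m (3 * j + r)) x, W x)) ≤ 8 * ε * T.ℓ := by
  have hδ0 := H.δpos
  have hδ1 := H.δlt
  have hnest : ∀ (i : ℕ) (ω ω' : Ω × Ω), T.Fb2 (ltq ns a m (3 * (i + 1) + r)) ω = T.Fb2 (ltq ns a m (3 * (i + 1) + r)) ω' →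
      T.Fb2 (ltq ns a m (3 * i + r)) ω = T.Fb2 (ltq ns a m (3 * i + r)) ω' := by
    intro i ω ω' h
    have hle : 3 * i + r ≤ 3 * (i + 1) + r := by omega
    exact lts_aux_nested_ph hδ0 hδ1 (lts_aux_q_mono ns a m hle) h
  have ht := ltk_tele_mi T.P2 (fun j => T.Fb2 (ltq ns a m (3 * j + r))) (T.Om ε) (pair (fun x => T.C x.1) W) hnest J
  have e1 : ∀ j, T.P2.miC (T.Fb2 (ltq ns a m (3 * j + r + 3))) (T.Om ε)
        (fun x => (T.C x.1, T.Fb2 (ltq ns a m (3 * j + r)) x, W x)) =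
      T.P2.miC (T.Fb2 (ltq ns a m (3 * (j + 1) + r))) (T.Om ε)
        (pair (T.Fb2 (ltq ns a m (3 * j + r))) (pair (fun x => T.C x.1) W)) := by
    intro j
    have e : 3 * (j + 1) + r = 3 * j + r + 3 := by ring
    rw [e]
    refine lts_aux_miC_congr _ _ _ _ _ _ _ (fun ω ω' _ _ => ?_) (fun _ _ _ _ _ => Iff.rfl) (fun _ _ _ _ _ => Iff.rfl)
    constructor
    · intro h
      exact Prod.ext (Prod.mk.inj (Prod.mk.inj h).2).1 (Prod.ext (Prod.mk.inj h).1 (Prod.mk.inj (Prod.mk.inj h).2).2)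
    · intro h
      exact Prod.ext (Prod.mk.inj (Prod.mk.inj h).2).1 (Prod.ext (Prod.mk.inj h).1 (Prod.mk.inj (Prod.mk.inj h).2).2)
  rw [Finset.sum_congr rfl (fun j _ => e1 j)]
  have b1 : T.P2.miC (T.Fb2 (ltq ns a m (3 * J + r))) (T.Om ε) (pair (fun x => T.C x.1) W) ≤ 8 * ε * T.ℓ :=
    (ent_miC_le_right _ _ _ _).trans ((ent_entC_le _ _ _).trans (lts_aux_Om H S))
  have b2 := ent_miC_nonneg T.P2 (T.Fb2 (ltq ns a m (3 * 0 + r))) (T.Om ε) (pair (fun x => T.C x.1) W)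
  linarith

/-- the phase budget for an arbitrary retained label -/
theorem lts_aux_bud1 {d g τ χ ε ζ : ℝ} {Q : Finset ℝ} {M : ℝ → ℝ} {G : Ω → Prop} (H : T.Hyp d g τ χ ε Q M G) (S : T.Sm τ χ ε ζ)
    {β' : Type} (W : Ω × Ω → β') (ns a m n : ℕ) :
    ∑ i ∈ range n, T.P2.miC (T.Fb2 (ltq ns a m (i + 3))) (T.Om ε)
        (fun x => (T.C x.1, T.Fb2 (ltq ns a m i) x, W x)) ≤ 27 * ε * T.ℓ := by
  have hτ := S.τpos
  have hε : 10000 * τ ≤ ε := by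
    have := S.τχ
    have := S.χε
    linarith
  have hℓ : 0 < T.ℓ := lts_aux_lg_pos H.δpos H.δlt
  have h1 := lts_aux_mod3 (fun i => T.P2.miC (T.Fb2 (ltq ns a m (i + 3))) (T.Om ε)
        (fun x => (T.C x.1, T.Fb2 (ltq ns a m i) x, W x))) (fun i => ent_miC_nonneg _ _ _ _) (8 * ε * T.ℓ)
        (fun r J => lts_aux_bud1_res H S W ns a m r J) n
  have h2 : 0 ≤ ε * T.ℓ := mul_nonneg (by linarith) hℓ.le
  have h3 : ∑ i ∈ range n, T.P2.miC (T.Fb2 (ltq ns a m (i + 3))) (T.Om ε)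
        (fun x => (T.C x.1, T.Fb2 (ltq ns a m i) x, W x)) ≤ 3 * (8 * ε * T.ℓ) := h1
  linarith

/-- LEAF T4.  Split `i` mod 3; `ltk_tele_mi` along `F_{q_{3j+r}}`; `I(F;Ω|C,Ω') ≤ H(Ω)`. -/
theorem lts_bud1 {d g τ χ ε ζ : ℝ} {Q : Finset ℝ} {M : ℝ → ℝ} {G : Ω → Prop} (H : T.Hyp d g τ χ ε Q M G) (S : T.Sm τ χ ε ζ)
    (ns a m n : ℕ) (hns : 0 < ns) :
    ∑ i ∈ range n, T.P2.miC (T.Fb2 (ltq ns a m (i + 3))) (T.Om ε)
        (fun x => (T.C x.1, T.Fb2 (ltq ns a m i) x, T.Om0 ε x)) ≤ 27 * ε * T.ℓ ∧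
    ∑ i ∈ range n, T.P2.miC (T.Fb2 (ltq ns a m (i + 3))) (T.Om ε)
        (fun x => (T.C x.1, T.Fb2 (ltq ns a m i) x, T.OmT ε x)) ≤ 27 * ε * T.ℓ := by
  exact ⟨lts_aux_bud1 H S (T.Om0 ε) ns a m n, lts_aux_bud1 H S (T.OmT ε) ns a m n⟩

/-- LEAF T5 -/
theorem lts_phase (T : LtData Ω) (hδ0 : 0 < T.δ) (hδ1 : T.δ < 1) (ε : ℝ) (ns a m n : ℕ) (hns : 0 < ns) (h1 : ltq ns a m n ≤ 1) :
    ∑ i ∈ range n, T.P2.entC (T.Fb2 (ltq ns a m (i + 1))) (T.E ε (ltq ns a m i)) ≤ T.P.entC (T.Fb 1) T.C := by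
  have ht := ltk_tele T.P2 (fun i => T.Fb2 (ltq ns a m i)) (fun x => T.C x.1)
    (fun i ω ω' h => lts_aux_nested_ph hδ0 hδ1 (lts_aux_q_mono ns a m (Nat.le_succ i)) h) n
  have h2 : ∑ i ∈ range n, T.P2.entC (T.Fb2 (ltq ns a m (i + 1))) (T.E ε (ltq ns a m i)) ≤
      ∑ i ∈ range n, T.P2.entC (T.Fb2 (ltq ns a m (i + 1))) (pair (T.Fb2 (ltq ns a m i)) (fun x => T.C x.1)) := by
    refine Finset.sum_le_sum fun i _ => ent_entC_anti _ _ _ _ fun ω ω' _ _ h => ?_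
    have h' : (T.C ω.1, T.Om ε ω, T.Fb (ltq ns a m i) ω.1) = (T.C ω'.1, T.Om ε ω', T.Fb (ltq ns a m i) ω'.1) := h
    exact Prod.ext (Prod.mk.inj (Prod.mk.inj h').2).2 (Prod.mk.inj h').1
  have h3 : T.P2.entC (T.Fb2 (ltq ns a m n)) (fun x => T.C x.1) ≤ T.P2.entC (T.Fb2 1) (fun x => T.C x.1) :=
    ent_entC_mono _ _ _ _ fun ω ω' _ _ h _ => lts_aux_nested_ph hδ0 hδ1 h1 h
  have h4 : T.P2.entC (T.Fb2 1) (fun x => T.C x.1) = T.P.entC (T.Fb 1) T.C := ltl_fst_entC T (T.Fb 1) T.C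
  have h5 := ent_entC_nonneg T.P2 (T.Fb2 (ltq ns a m 0)) (fun x => T.C x.1)
  linarith

/-- LEAF T5.  `H(O|C) = H(O|F_2,C) + [H(F_2|C) - H(F_2|C,O)]`; the bracket telescopes along `1 ≤ q_0 ≤ ... ≤ q_n ≤ 2` into nonnegative informations. -/
theorem lts_chain (T : LtData Ω) (hδ0 : 0 < T.δ) (hδ1 : T.δ < 1) (ns a m n : ℕ) (hns : 0 < ns) (h1 : 1 ≤ ltq ns a m 0) (h2 : ltq ns a m n ≤ 2) :
    T.P.entC T.O (pair (T.Fb 2) T.C) + (T.P.entC (T.Fb 1) T.C - T.P.entC (T.Fb 1) T.CO)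
      + ∑ i ∈ range n, (T.P.entC (T.Fb (ltq ns a m (i + 1))) (pair (T.Fb (ltq ns a m i)) T.C)
          - T.P.entC (T.Fb (ltq ns a m (i + 1))) (pair (T.Fb (ltq ns a m i)) T.CO))
      ≤ T.P.entC T.O T.C := by
  have ht := ltk_tele_mi T.P (fun i => T.Fb (ltq ns a m i)) T.O T.C
    (fun i ω ω' h => lts_aux_nested_ph hδ0 hδ1 (lts_aux_q_mono ns a m (Nat.le_succ i)) h) n
  have e1 : T.P.miC T.O (T.Fb 2) T.C = T.P.entC T.O T.C - T.P.entC T.O (pair (T.Fb 2) T.C) := ent_miC_eq _ _ _ _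
  have e2 : T.P.miC T.O (T.Fb (ltq ns a m n)) T.C ≤ T.P.miC T.O (T.Fb 2) T.C :=
    ent_miC_mono _ _ _ _ _ fun ω ω' _ _ h _ => lts_aux_nested_ph hδ0 hδ1 h2 h
  have e3 : T.P.miC T.O (T.Fb 1) T.C ≤ T.P.miC T.O (T.Fb (ltq ns a m 0)) T.C :=
    ent_miC_mono _ _ _ _ _ fun ω ω' _ _ h _ => lts_aux_nested_ph hδ0 hδ1 h1 h
  have e4 : T.P.miC (T.Fb 1) T.O T.C = T.P.entC (T.Fb 1) T.C - T.P.entC (T.Fb 1) T.CO := by
    rw [ent_miC_eq]
    congr 1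
    refine ent_entC_congr T.P _ _ _ _ (fun ω ω' _ _ => ?_) (fun _ _ _ _ _ => Iff.rfl)
    exact ⟨fun h => Prod.ext (Prod.mk.inj h).2 (Prod.mk.inj h).1, fun h => Prod.ext (Prod.mk.inj h).2 (Prod.mk.inj h).1⟩
  have e5 : ∀ i, T.P.miC (T.Fb (ltq ns a m (i + 1))) T.O (pair (T.Fb (ltq ns a m i)) T.C) =
      T.P.entC (T.Fb (ltq ns a m (i + 1))) (pair (T.Fb (ltq ns a m i)) T.C)
          - T.P.entC (T.Fb (ltq ns a m (i + 1))) (pair (T.Fb (ltq ns a m i)) T.CO) := by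
    intro i
    rw [ent_miC_eq]
    congr 1
    refine ent_entC_congr T.P _ _ _ _ (fun ω ω' _ _ => ?_) (fun _ _ _ _ _ => Iff.rfl)
    constructor
    · intro h
      exact Prod.ext (Prod.mk.inj (Prod.mk.inj h).2).1 (Prod.ext (Prod.mk.inj (Prod.mk.inj h).2).2 (Prod.mk.inj h).1)
    · intro h
      exact Prod.ext (Prod.mk.inj (Prod.mk.inj h).2).2 (Prod.ext (Prod.mk.inj h).1 (Prod.mk.inj (Prod.mk.inj h).2).1)
  rw [← Finset.sum_congr rfl (fun i _ => e5 i), ← e4]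
  rw [ent_miC_comm T.P T.O (T.Fb (ltq ns a m n))] at e2
  rw [ent_miC_comm T.P T.O (T.Fb 1), ent_miC_comm T.P T.O (T.Fb (ltq ns a m 0))] at e3
  linarith

end Claimed.Agent.R256
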